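import Vale.Agent.P073.H471.Cover
import Vale.Agent.P073.H239.Sharp
import Vale.Agent.P073.ConicalStrata2

/-!
# P073, block KILL: the collapse is the last map

`f` is the map before the collapse, `F k` are the faces.  The reduction factors are chosen after
`f`: then the normal coordinates do not count.
-/

open Set Metric Topology Filter
open scoped ENNReal NNReal

namespace Vale.Agent.P073.H471

open _root_.P073 _root_.P073.Net _root_.P073.PA691
open _root_.P073.PR720 (LF)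
open Vale.Agent.P073.St (V)

/-- conical continuous maps are Lipschitz on compact sets -/
theorem exists_lip_compact {E F : Type*} [NormedAddCommGroup E] [NormedSpace ℝ E]
    [FiniteDimensional ℝ E] [NormedAddCommGroup F] [NormedSpace ℝ F] {h : E → F} {Ω : Set E}
    (hΩ : IsOpen Ω) (H : ConicalOn h Ω) (hc : ContinuousOn h Ω) {K : Set E} (hK : IsCompact K)
    (hKΩ : K ⊆ Ω) : ∃ C : ℝ, 0 < C ∧ ∀ x ∈ K, ∀ y ∈ K, ‖h x - h y‖ ≤ C * ‖x - y‖ := by
  choose δ hδ hb M hM using fun x : Ω => exists_lipschitz_near hΩ H hc x.2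
  obtain ⟨T, hT⟩ := hK.elim_nhds_subcover' (fun x hx => ball x (δ ⟨x, hKΩ hx⟩))
    (fun x hx => ball_mem_nhds x (hδ ⟨x, hKΩ hx⟩))
  obtain ⟨ε, hε, hL⟩ := lebesgue_number_lemma_of_metric
    (c := fun x : {x // x ∈ T} => ball (x.1 : E) (δ ⟨x.1, hKΩ x.1.2⟩)) hK
    (fun x => isOpen_ball) (by
      intro y hy
      obtain ⟨x, hx, hxy⟩ := mem_iUnion₂.1 (hT hy)
      exact mem_iUnion.2 ⟨⟨x, hx⟩, hxy⟩)
  obtain ⟨B, hB⟩ := (hK.image_of_continuousOn (hc.mono hKΩ)).isBounded.exists_norm_le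
  have hS : (0:ℝ) ≤ ∑ x ∈ T, (M ⟨x.1, hKΩ x.2⟩ : ℝ) := Finset.sum_nonneg fun x _ => (M _).2
  have hBε : 0 ≤ 2 * |B| / ε := by positivity
  refine ⟨(∑ x ∈ T, (M ⟨x.1, hKΩ x.2⟩ : ℝ)) + 2 * |B| / ε + 1, by positivity,
    fun x hx y hy => ?_⟩
  by_cases hxy : ‖x - y‖ < ε
  · obtain ⟨z, hz⟩ := hL x hx
    have h1 := (hM ⟨z.1, hKΩ z.1.2⟩).dist_le_mul x (hz (mem_ball_self hε)) y
      (hz (by rw [mem_ball, dist_comm, dist_eq_norm]; exact hxy))
    rw [dist_eq_norm, dist_eq_norm] at h1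
    refine h1.trans (mul_le_mul_of_nonneg_right ?_ (norm_nonneg _))
    have h2 : (M ⟨z.1, hKΩ z.1.2⟩ : ℝ) ≤ ∑ x ∈ T, (M ⟨x.1, hKΩ x.2⟩ : ℝ) :=
      Finset.single_le_sum (f := fun x : K => (M ⟨x.1, hKΩ x.2⟩ : ℝ)) (fun x _ => (M _).2) z.2
    linarith
  · push Not at hxy
    have h1 : ‖h x‖ ≤ |B| := (hB _ ⟨x, hx, rfl⟩).trans (le_abs_self B)
    have h2 : ‖h y‖ ≤ |B| := (hB _ ⟨y, hy, rfl⟩).trans (le_abs_self B)
    calc ‖h x - h y‖ ≤ ‖h x‖ + ‖h y‖ := norm_sub_le _ _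
      _ ≤ 2 * |B| / ε * ε := by rw [div_mul_cancel₀ _ hε.ne']; linarith
      _ ≤ 2 * |B| / ε * ‖x - y‖ := mul_le_mul_of_nonneg_left hxy hBε
      _ ≤ _ := mul_le_mul_of_nonneg_right (by linarith) (norm_nonneg _)

variable {Ω Λ : Set V} {v : V} {K : BoxCx Λ v} {S : Rad K} {W : Wid K S} {α : Type*}

/-- the reduction factors `R` are small compared with the map `f` on the sets `F k` -/
structure Small (W : Wid K S) (R : Fac K) (f : V → V) (F : α → Set V) (M ε : α → ℝ) : Prop where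
  pos : ∀ k, 0 < M k
  lip : ∀ k, ∀ x ∈ F k, ∀ y ∈ F k, ‖f x - f y‖ ≤ M k * ‖x - y‖
  cpt : ∀ k, IsCompact (F k)
  s : ∀ k s, (f '' F k ∩ Zs W s).Nonempty → R.ρs s * (M k * (1 + diam (F k))) ≤ ε k / 7
  e : ∀ k e, (f '' F k ∩ Ze W e).Nonempty → R.ρe e * (M k * (1 + diam (F k))) ≤ ε k / 7
  v : ∀ k i, (f '' F k ∩ Zv W i).Nonempty → R.ρv i * (M k * (1 + diam (F k))) ≤ ε k / 7

theorem isCompact_nb (K : BoxCx Λ v) (e : K.G) (t : ℝ) : IsCompact (K.nb e t) := by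
  have : K.nb e t = Icc (fun k => K.w (K.a e) k - t) (fun k => K.w (K.b e) k + t) := by
    ext x
    constructor
    · intro h
      exact ⟨fun k => (h k).1, fun k => (h k).2⟩
    · intro h k
      exact ⟨h.1 k, h.2 k⟩
  rw [this]
  exact isCompact_Icc

/-- **reduction factors below everything** -/
theorem exists_small (hΩ : IsOpen Ω) (f : ConHomeo Ω Λ) (W : Wid K S) (F : α → Set V)
    (hF : ∀ k, IsCompact (F k)) (hFΩ : ∀ k, F k ⊆ Ω)
    (hfin : ∀ C ⊆ Ω, IsCompact C → {k | (F k ∩ C).Nonempty}.Finite) {ε : α → ℝ}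
    (hε : ∀ k, 0 < ε k) : ∃ (R : Fac K) (M : α → ℝ), Small W R f.toFun F M ε := by
  choose M hM hML using fun k => exists_lip_compact hΩ f.conical f.cont (hF k) (hFΩ k)
  have key : ∀ C : Set V, IsCompact C → C ⊆ Λ → ∃ ρ : ℝ, 0 < ρ ∧ ρ ≤ 1 ∧
      ∀ k, (f.toFun '' F k ∩ C).Nonempty → ρ * (M k * (1 + diam (F k))) ≤ ε k / 7 := by
    intro C hC hCΛ
    have hC' : IsCompact (f.invFun '' C) := hC.image_of_continuousOn (f.cont_inv.mono hCΛ)
    have hsub : f.invFun '' C ⊆ Ω := by rintro _ ⟨y, hy, rfl⟩; exact f.mapsTo_inv (hCΛ hy)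
    have hf := hfin _ hsub hC'
    obtain ⟨t, ht, hle⟩ := Boxes.exists_pos_le hf
      (fun k => ε k / 7 / (M k * (1 + diam (F k)))) (fun k => by
        have h1 := hε k
        have h2 := hM k
        have h3 : 0 ≤ diam (F k) := diam_nonneg
        positivity)
    refine ⟨min t 1, lt_min ht one_pos, min_le_right _ _, fun k hk => ?_⟩
    obtain ⟨_, ⟨x, hx, rfl⟩, hxC⟩ := hk
    have h1 := hle k ⟨x, hx, ⟨f.toFun x, hxC, f.left_inv (hFΩ k hx)⟩⟩
    have h2 := hM k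
    have h3 : 0 ≤ diam (F k) := diam_nonneg
    rw [le_div_iff₀ (by positivity)] at h1
    refine le_trans ?_ h1
    gcongr
    exact min_le_left _ _
  choose ρ hρ hρ1 hρm using key
  have cs : ∀ s, IsCompact (K.cube (K.sm s) ∪ K.cube (K.sp s)) := fun s =>
    isCompact_Icc.union isCompact_Icc
  have cs' : ∀ s, K.cube (K.sm s) ∪ K.cube (K.sp s) ⊆ Λ := fun s =>
    union_subset (K.sub _) (K.sub _)
  have ce : ∀ e, IsCompact (K.nb e (2 * S.q e)) := fun e => isCompact_nb K e _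
  have cv : ∀ i, IsCompact (closedBall (K.w i) (2 * S.r i)) := fun i => isCompact_closedBall _ _
  refine ⟨{ ρs := fun s => ρ _ (cs s) (cs' s)
            ρe := fun e => ρ _ (ce e) (S.tube_sub e)
            ρv := fun i => ρ _ (cv i) (S.U_sub i)
            s_pos := fun s => hρ _ _ _
            e_pos := fun e => hρ _ _ _
            v_pos := fun i => hρ _ _ _
            s_le := fun s => hρ1 _ _ _
            e_le := fun e => hρ1 _ _ _
            v_le := fun i => hρ1 _ _ _ }, M, hM, hML, hF, fun k s h => ?_, fun k e h => ?_,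
            fun k i h => ?_⟩
  · refine hρm _ (cs s) (cs' s) k (h.mono (inter_subset_inter_right _ fun y hy => ?_))
    rcases (near_self (Zs_subset hy)).mem with h1 | h1
    · exact Or.inl h1
    · exact Or.inr h1
  · refine hρm _ (ce e) (S.tube_sub e) k (h.mono (inter_subset_inter_right _ ?_))
    exact Ze_subset.trans (se_subset e)
  · refine hρm _ (cv i) (S.U_sub i) k (h.mono (inter_subset_inter_right _ ?_))
    exact Zv_subset.trans (sv_subset i)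

namespace Small

variable {R : Fac K} {f : V → V} {F : α → Set V} {M ε : α → ℝ} {Φ : ConHomeo Λ Λ} {k : α}
  {x x' : V} {L : ℝ} {A : Set V}

theorem le1 (H : Small W R f F M ε) {ρ : ℝ} (hρ : 0 < ρ)
    (h : ρ * (M k * (1 + diam (F k))) ≤ ε k / 7) : ρ * M k ≤ ε k / 7 := by
  have h1 := H.pos k
  have h2 : 0 ≤ diam (F k) := diam_nonneg
  have h3 := mul_pos hρ h1
  nlinarith

theorem le2 (H : Small W R f F M ε) {ρ : ℝ} (hρ : 0 < ρ) (hx : x ∈ F k) (hx' : x' ∈ F k)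
    (h : ρ * (M k * (1 + diam (F k))) ≤ ε k / 7) : ρ * (M k * ‖x - x'‖) ≤ ε k / 7 := by
  have h1 := H.pos k
  have h2 := dist_le_diam_of_mem (H.cpt k).isBounded hx hx'
  rw [dist_eq_norm] at h2
  refine le_trans ?_ h
  gcongr
  linarith

/-- the Lipschitz estimate in the zone of a square -/
theorem zs (H : Small W R f F M ε) (HΦ : IsKill W R Φ) {s : K.S} (hx : x ∈ F k) (hx' : x' ∈ F k)
    (hz : f x ∈ Zs W s) (hz' : f x' ∈ Zs W s) (hL0 : 0 ≤ L)
    (hL : ∀ j, j ≠ K.nrm s → |f x j - f x' j| ≤ L * ‖x - x'‖) :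
    ‖Φ.toFun (f x) - Φ.toFun (f x')‖ ≤ (7 * L + ε k) * ‖x - x'‖ := by
  have h1 := H.le1 (R.s_pos s) (H.s k s ⟨f x, ⟨x, hx, rfl⟩, hz⟩)
  have h2 := H.lip k x hx x' hx'
  have h3 := R.s_pos s
  have h4 := norm_nonneg (x - x')
  have h5 : R.ρs s * ‖f x - f x'‖ ≤ ε k / 7 * ‖x - x'‖ := by
    calc R.ρs s * ‖f x - f x'‖ ≤ R.ρs s * (M k * ‖x - x'‖) := by gcongr
      _ = R.ρs s * M k * ‖x - x'‖ := by ring
      _ ≤ _ := by gcongr
  have h6 : 0 ≤ ε k / 7 := le_trans (mul_nonneg h3.le (H.pos k).le) h1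
  refine (HΦ.zs s _ hz _ hz' ((L + ε k / 7) * ‖x - x'‖) (fun j hj => ?_) ?_).trans
    (le_of_eq (by ring))
  · refine (hL j hj).trans ?_
    gcongr
    linarith
  · refine h5.trans ?_
    gcongr
    linarith

/-- the Lipschitz estimate in the zone of an edge -/
theorem ze (H : Small W R f F M ε) (HΦ : IsKill W R Φ) {e : K.G} (hx : x ∈ F k) (hx' : x' ∈ F k)
    (hz : f x ∈ Ze W e) (hz' : f x' ∈ Ze W e)
    (hL : |f x (K.dir e) - f x' (K.dir e)| ≤ L * ‖x - x'‖) (hL0 : 0 ≤ L) :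
    ‖Φ.toFun (f x) - Φ.toFun (f x')‖ ≤ (7 * L + ε k) * ‖x - x'‖ := by
  have h1 := H.le1 (R.e_pos e) (H.e k e ⟨f x, ⟨x, hx, rfl⟩, hz⟩)
  have h2 := H.lip k x hx x' hx'
  have h3 := R.e_pos e
  have h4 := norm_nonneg (x - x')
  have h5 : R.ρe e * ‖f x - f x'‖ ≤ ε k / 7 * ‖x - x'‖ := by
    calc R.ρe e * ‖f x - f x'‖ ≤ R.ρe e * (M k * ‖x - x'‖) := by gcongr
      _ = R.ρe e * M k * ‖x - x'‖ := by ring
      _ ≤ _ := by gcongr
  have h6 : 0 ≤ ε k / 7 := le_trans (mul_nonneg h3.le (H.pos k).le) h1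
  refine (HΦ.ze e _ hz _ hz' ((L + ε k / 7) * ‖x - x'‖) ?_ ?_).trans
    (le_of_eq (by ring))
  · refine hL.trans ?_
    gcongr
    linarith
  · refine h5.trans ?_
    gcongr
    linarith

/-- the Lipschitz estimate in the zone of a vertex -/
theorem zv (H : Small W R f F M ε) (HΦ : IsKill W R Φ) {i : K.W} (hx : x ∈ F k) (hx' : x' ∈ F k)
    (hz : f x ∈ Zv W i) (hz' : f x' ∈ Zv W i) :
    ‖Φ.toFun (f x) - Φ.toFun (f x')‖ ≤ ε k * ‖x - x'‖ := by
  have h1 := H.le1 (R.v_pos i) (H.v k i ⟨f x, ⟨x, hx, rfl⟩, hz⟩)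
  have h2 := H.lip k x hx x' hx'
  have h3 := R.v_pos i
  have h4 := norm_nonneg (x - x')
  have h5 : R.ρv i * ‖f x - f x'‖ ≤ ε k / 7 * ‖x - x'‖ := by
    calc R.ρv i * ‖f x - f x'‖ ≤ R.ρv i * (M k * ‖x - x'‖) := by gcongr
      _ = R.ρv i * M k * ‖x - x'‖ := by ring
      _ ≤ _ := by gcongr
  have h6 := HΦ.zv i _ hz _ hz'
  linarith

/-! ### local versions -/

theorem ev_mem {Z : Set V} (hf : ContinuousOn f A) (hx : x ∈ A) (hz : f x ∈ interior Z) :
    ∀ᶠ x' in 𝓝[A] x, f x' ∈ Z :=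
  ((hf x hx).eventually (isOpen_interior.mem_nhds hz)).mono fun _ h => interior_subset h

/-- local estimate, squares -/
theorem local_s (H : Small W R f F M ε) (HΦ : IsKill W R Φ) (hA : A ⊆ F k)
    (hf : ContinuousOn f A) {s : K.S} (hx : x ∈ A) (hz : f x ∈ interior (Zs W s)) (hL0 : 0 ≤ L)
    (hL : ∀ᶠ x' in 𝓝[A] x, ∀ j, j ≠ K.nrm s → |f x' j - f x j| ≤ L * ‖x' - x‖) :
    ∀ᶠ x' in 𝓝[A] x, ‖Φ.toFun (f x') - Φ.toFun (f x)‖ ≤ (7 * L + ε k) * ‖x' - x‖ := by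
  filter_upwards [hL, ev_mem hf hx hz, self_mem_nhdsWithin] with x' h1 h2 h3
  exact H.zs HΦ (hA h3) (hA hx) h2 (interior_subset hz) hL0 h1

/-- local estimate, edges -/
theorem local_e (H : Small W R f F M ε) (HΦ : IsKill W R Φ) (hA : A ⊆ F k)
    (hf : ContinuousOn f A) {e : K.G} (hx : x ∈ A) (hz : f x ∈ interior (Ze W e)) (hL0 : 0 ≤ L)
    (hL : ∀ᶠ x' in 𝓝[A] x, |f x' (K.dir e) - f x (K.dir e)| ≤ L * ‖x' - x‖) :
    ∀ᶠ x' in 𝓝[A] x, ‖Φ.toFun (f x') - Φ.toFun (f x)‖ ≤ (7 * L + ε k) * ‖x' - x‖ := by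
  filter_upwards [hL, ev_mem hf hx hz, self_mem_nhdsWithin] with x' h1 h2 h3
  exact H.ze HΦ (hA h3) (hA hx) h2 (interior_subset hz) h1 hL0

/-- local estimate, vertices -/
theorem local_v (H : Small W R f F M ε) (HΦ : IsKill W R Φ) (hA : A ⊆ F k)
    (hf : ContinuousOn f A) {i : K.W} (hx : x ∈ A) (hz : f x ∈ interior (Zv W i)) :
    ∀ᶠ x' in 𝓝[A] x, ‖Φ.toFun (f x') - Φ.toFun (f x)‖ ≤ ε k * ‖x' - x‖ := by
  filter_upwards [ev_mem hf hx hz, self_mem_nhdsWithin] with x' h2 h3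
  exact H.zv HΦ (hA h3) (hA hx) h2 (interior_subset hz)

/-! ### sharp edges -/

theorem evar_le_of_abs {g : ℝ → ℝ} {C : ℝ} (hC : 0 ≤ C)
    (h : ∀ s ∈ Icc (0:ℝ) 1, ∀ t ∈ Icc (0:ℝ) 1, |g s - g t| ≤ C * |s - t|) :
    eVariationOn g (Icc 0 1) ≤ ENNReal.ofReal C := by
  have h1 : eVariationOn g (Icc (0:ℝ) 1) ≤
      ENNReal.ofReal C * eVariationOn (fun t : ℝ => t) (Icc 0 1) := by
    refine eVariationOn_le_of_edist fun s hs t ht => ?_
    rw [edist_dist, edist_dist, Real.dist_eq, Real.dist_eq, ← ENNReal.ofReal_mul hC]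
    exact ENNReal.ofReal_le_ofReal (h s hs t ht)
  refine h1.trans ?_
  have h2 : eVariationOn (fun t : ℝ => t) (Icc (0:ℝ) 1) ≤ ENNReal.ofReal (1 - 0) := by
    have := (monotoneOn_id (s := Icc (0:ℝ) 1)).eVariationOn_eq (left_mem_Icc.2 zero_le_one)
      (right_mem_Icc.2 zero_le_one)
    rw [inter_self] at this
    exact this.le
  calc ENNReal.ofReal C * eVariationOn (fun t : ℝ => t) (Icc 0 1)
      ≤ ENNReal.ofReal C * ENNReal.ofReal (1 - 0) := by gcongr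
    _ = ENNReal.ofReal C := by rw [sub_zero, ENNReal.ofReal_one, mul_one]

theorem onSeg_mem {e : V × V} {t : ℝ} (ht : t ∈ Icc (0:ℝ) 1) :
    e.1 + t • (e.2 - e.1) ∈ segment ℝ e.1 e.2 := by
  rw [segment_eq_image']
  exact ⟨t, ht, rfl⟩

/-- variation of a component along a segment -/
theorem evar_comp_le {g : V → V} {e : V × V} {j : Fin 3} {C c : ℝ} (hC : 0 ≤ C)
    (h : ∀ x ∈ segment ℝ e.1 e.2, ∀ x' ∈ segment ℝ e.1 e.2, |g x j - g x' j| ≤ C * ‖x - x'‖)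
    (hc : C * ‖e.2 - e.1‖ ≤ c) :
    eVariationOn (fun t => H73.onSeg g e t j) (Icc 0 1) ≤ ENNReal.ofReal c := by
  refine (evar_le_of_abs (C := C * ‖e.2 - e.1‖) (by positivity) fun s hs t ht => ?_).trans
    (ENNReal.ofReal_le_ofReal hc)
  refine (h _ (onSeg_mem hs) _ (onSeg_mem ht)).trans (le_of_eq ?_)
  have : e.1 + s • (e.2 - e.1) - (e.1 + t • (e.2 - e.1)) = (s - t) • (e.2 - e.1) := by module
  rw [this, norm_smul, Real.norm_eq_abs]
  ring

/-- **sharp edges in the plates** -/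
theorem tv_plate (H : Small W R f F M ε) (HΦ : IsKill W R Φ) {s : K.S} {μ : ℝ} {e : V × V}
    (he : segment ℝ e.1 e.2 ⊆ F k) (hz : ∀ x ∈ segment ℝ e.1 e.2, f x ∈ Zs W s)
    (hm : ∀ x ∈ segment ℝ e.1 e.2, ∀ j, j ≠ K.nrm s →
      K.slo s j + μ ≤ f x j ∧ f x j ≤ K.shi s j - μ) (hμ : 0 < μ)
    (hμe : ∀ e, (K.edge e ⊆ K.cube (K.sm s) ∨ K.edge e ⊆ K.cube (K.sp s)) → 2 * W.we e ≤ μ)
    (hμv : ∀ i, (K.w i ∈ K.cube (K.sm s) ∨ K.w i ∈ K.cube (K.sp s)) → 2 * W.wv i ≤ μ)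
    (hμ1 : μ ≤ W.ws s) :
    H239.tv (fun x => Φ.toFun (f x)) e Finset.univ ≤
      H239.tv f e (Finset.univ.erase (K.nrm s)) + ENNReal.ofReal (ε k) := by
  have hdown : ∀ x ∈ segment ℝ e.1 e.2, Φ.toFun (f x) = down K R s (f x) := fun x hx =>
    HΦ.tan_plate (hz x hx) (hm x hx) hμ hμe hμv hμ1
  have hρ := R.s_pos s
  have hM := H.pos k
  have hne := H.s k s ⟨f e.1, ⟨e.1, he (left_mem_segment ℝ _ _), rfl⟩,
    hz _ (left_mem_segment ℝ _ _)⟩
  have h2 := H.le2 hρ (he (right_mem_segment ℝ _ _)) (he (left_mem_segment ℝ _ _)) hne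
  have h0 : 0 ≤ ε k / 7 := le_trans (by positivity) h2
  unfold H239.tv
  rw [← Finset.sum_erase_add _ _ (Finset.mem_univ (K.nrm s))]
  refine add_le_add (Finset.sum_le_sum fun j hj => le_of_eq ?_) ?_
  · refine eVariationOn.eq_of_eqOn fun t ht => ?_
    show Φ.toFun (f (e.1 + t • (e.2 - e.1))) j = f (e.1 + t • (e.2 - e.1)) j
    rw [hdown _ (onSeg_mem ht), down, Function.update_of_ne (Finset.ne_of_mem_erase hj)]
  · refine evar_comp_le (C := R.ρs s * M k) (by positivity) (fun x hx x' hx' => ?_) ?_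
    · have h3 := norm_le_pi_norm (f x - f x') (K.nrm s)
      rw [Pi.sub_apply, Real.norm_eq_abs] at h3
      have h4 := H.lip k x (he hx) x' (he hx')
      show |Φ.toFun (f x) (K.nrm s) - Φ.toFun (f x') (K.nrm s)| ≤ _
      rw [hdown x hx, hdown x' hx', down, down, Function.update_self, Function.update_self]
      have h5 : K.slo s (K.nrm s) + R.ρs s * (f x (K.nrm s) - K.slo s (K.nrm s)) -
          (K.slo s (K.nrm s) + R.ρs s * (f x' (K.nrm s) - K.slo s (K.nrm s))) =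
          R.ρs s * (f x (K.nrm s) - f x' (K.nrm s)) := by ring
      rw [h5, abs_mul, abs_of_pos hρ, mul_assoc]
      gcongr
      exact h3.trans h4
    · rw [mul_assoc]
      linarith

/-- **sharp edges in the tubes** -/
theorem tv_tube (H : Small W R f F M ε) (HΦ : IsKill W R Φ) {i : K.G} {e : V × V}
    (he : segment ℝ e.1 e.2 ⊆ F k) (hz : ∀ x ∈ segment ℝ e.1 e.2, f x ∈ Ze W i)
    (ha : ∀ x ∈ segment ℝ e.1 e.2,
      K.w (K.a i) (K.dir i) + 2 * W.wv (K.a i) ≤ f x (K.dir i))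
    (hb : ∀ x ∈ segment ℝ e.1 e.2,
      f x (K.dir i) ≤ K.w (K.b i) (K.dir i) - 2 * W.wv (K.b i)) :
    H239.tv (fun x => Φ.toFun (f x)) e Finset.univ ≤
      H239.tv f e {K.dir i} + ENNReal.ofReal (ε k) := by
  have hρ := R.e_pos i
  have hM := H.pos k
  have hne := H.e k i ⟨f e.1, ⟨e.1, he (left_mem_segment ℝ _ _), rfl⟩,
    hz _ (left_mem_segment ℝ _ _)⟩
  have h2 := H.le2 hρ (he (right_mem_segment ℝ _ _)) (he (left_mem_segment ℝ _ _)) hne
  have h0 : 0 ≤ ε k / 7 := le_trans (by positivity) h2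
  unfold H239.tv
  rw [← Finset.sum_erase_add _ _ (Finset.mem_univ (K.dir i)), add_comm, Finset.sum_singleton]
  refine add_le_add (le_of_eq ?_) ?_
  · refine eVariationOn.eq_of_eqOn fun t ht => ?_
    exact HΦ.tan_tube (hz _ (onSeg_mem ht)) (ha _ (onSeg_mem ht)) (hb _ (onSeg_mem ht))
  · have hcard : (Finset.univ.erase (K.dir i)).card = 2 := by
      rw [Finset.card_erase_of_mem (Finset.mem_univ _)]
      rfl
    calc ∑ j ∈ Finset.univ.erase (K.dir i),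
          eVariationOn (fun t => H73.onSeg (fun x => Φ.toFun (f x)) e t j) (Icc 0 1)
        ≤ ∑ _j ∈ Finset.univ.erase (K.dir i), ENNReal.ofReal (5 / 2 * (ε k / 7)) := by
          refine Finset.sum_le_sum fun j hj => ?_
          refine evar_comp_le (C := 5 / 2 * (R.ρe i * M k)) (by positivity)
            (fun x hx x' hx' => ?_) ?_
          · refine (HΦ.nrm_tube (hz x hx) (ha x hx) (hb x hx) (hz x' hx') (ha x' hx')
              (hb x' hx') (Finset.ne_of_mem_erase hj)).trans ?_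
            have h4 := H.lip k x (he hx) x' (he hx')
            have h5 := mul_le_mul_of_nonneg_left h4 hρ.le
            calc 5 / 2 * (R.ρe i * ‖f x - f x'‖) ≤ 5 / 2 * (R.ρe i * (M k * ‖x - x'‖)) := by
                  gcongr
              _ = _ := by ring
          · have : 5 / 2 * (R.ρe i * M k) * ‖e.2 - e.1‖ =
                5 / 2 * (R.ρe i * (M k * ‖e.2 - e.1‖)) := by ring
            rw [this]
            gcongr
      _ = ENNReal.ofReal (2 * (5 / 2 * (ε k / 7))) := by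
          rw [Finset.sum_const, hcard, nsmul_eq_mul, Nat.cast_ofNat,
            ENNReal.ofReal_mul (by norm_num : (0:ℝ) ≤ 2), ENNReal.ofReal_ofNat]
      _ ≤ _ := ENNReal.ofReal_le_ofReal (by linarith)

end Small

end Vale.Agent.P073.H471
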