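import Vale.Agent.P073.H267.Geo1

/-!
# P073, block A14.1 (GEO), part (G3): the boxes of the rounds cover the shell of every tile
-/

open Set Metric Topology Filter

namespace Vale.Agent.P073.H471

open _root_.P073 _root_.P073.Net _root_.P073.PA691
open _root_.P073.PR720 (LF)
open Vale.Agent.P073.St (V)

variable {Λ : Set V} {v : V} {K : BoxCx Λ v} {S : Rad K} {W : Wid K S} {B : Boxes W} {y z : V}

theorem fin3_uniq {a b j k : Fin 3} (h1 : k ≠ a) (h2 : k ≠ b) (h3 : j ≠ a) (h4 : j ≠ b)
    (h5 : a ≠ b) : j = k := by
  revert a b j k; decide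

/-- an edge of a square is in a side of the square -/
theorem edge_side {e : K.G} {s : K.S} (h : K.edge e ⊆ K.sq s) {k : Fin 3} (hk : k ≠ K.nrm s)
    (hkd : k ≠ K.dir e) :
    K.w (K.a e) k = K.slo s k ∨ K.w (K.a e) k = K.shi s k := by
  obtain ⟨t, ht1, ht2⟩ := exists_between (K.ab_dir e)
  set x : V := Function.update (K.w (K.a e)) (K.dir e) t with hx
  have xd : x (K.dir e) = t := by simp [hx]
  have xo : ∀ j, j ≠ K.dir e → x j = K.w (K.a e) j := fun j hj => by simp [hx, hj]
  have hxe : x ∈ K.edge e := by
    refine ⟨fun j => ?_, fun j => ?_⟩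
    · by_cases hj : j = K.dir e
      · rw [hj, xd]; exact ht1.le
      · rw [xo j hj]
    · by_cases hj : j = K.dir e
      · rw [hj, xd]; exact ht2.le
      · rw [xo j hj]; exact (wab K e hj).le
  have hxs := h hxe
  have ha := h (TM.wa_mem K e)
  have hb := h (TM.wb_mem K e)
  by_contra hcon
  push Not at hcon
  refine K.sqo_edge s x (TM.nrm_eq hxs) (fun j hj => ?_) e hxe
  by_cases hjd : j = K.dir e
  · subst hjd
    rw [xd]
    exact ⟨(ha.1 _).trans_lt ht1, ht2.trans_le (hb.2 _)⟩
  · have hjk : j = k := fin3_uniq hk hkd hj hjd (nrm_ne_dir h)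
    subst hjk
    rw [xo j hjd]
    exact ⟨lt_of_le_of_ne (ha.1 _) (Ne.symm hcon.1), lt_of_le_of_ne (ha.2 _) hcon.2⟩

/-- an open box around the inner points of a tube: the tiles extend further than the tube -/
theorem tube_hi (S : Rad K) {e : K.G} {p : K.T} (h : K.edge e ⊆ K.cube p) {k : Fin 3}
    (hkd : k ≠ K.dir e) (hlt : K.w (K.a e) k < K.hi p k) :
    K.w (K.a e) k + 2 * S.q e ≤ K.hi p k := by
  by_contra hcon
  push Not at hcon
  have hq := S.q_pos e
  obtain ⟨t, ht1, ht2⟩ := exists_between (K.ab_dir e)
  have ha := h (TM.wa_mem K e)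
  have hb := h (TM.wb_mem K e)
  obtain ⟨r, hr1, hr2⟩ := exists_between hcon
  -- a point of the open interval near `w`
  have hm : ∀ j, ∃ m, K.lo p j < m ∧ m < K.hi p j ∧ |m - K.w (K.a e) j| ≤ 2 * S.q e := by
    intro j
    have h1 := ha.1 j
    have h2 := ha.2 j
    have h3 := K.lt p j
    by_cases h4 : K.w (K.a e) j < K.hi p j
    · obtain ⟨m, hm1, hm2⟩ := exists_between (lt_min h4
        (show K.w (K.a e) j < K.w (K.a e) j + 2 * S.q e by linarith))
      rw [lt_min_iff] at hm2
      exact ⟨m, h1.trans_lt hm1, hm2.1, by rw [abs_le]; constructor <;> linarith⟩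
    · have h5 : K.lo p j < K.w (K.a e) j := h3.trans_le (not_lt.1 h4)
      obtain ⟨m, hm1, hm2⟩ := exists_between (max_lt h5
        (show K.w (K.a e) j - 2 * S.q e < K.w (K.a e) j by linarith))
      rw [max_lt_iff] at hm1
      exact ⟨m, hm1.1, hm2.trans_le h2, by rw [abs_le]; constructor <;> linarith⟩
  choose m hm1 hm2 hm3 using hm
  set x : V := fun j => if j = k then r else if j = K.dir e then t else m j with hx
  have xk : x k = r := by simp [hx]
  have xd : x (K.dir e) = t := by simp [hx, hkd.symm]
  have xo : ∀ j, j ≠ k → j ≠ K.dir e → x j = m j := fun j hj hj' => by simp [hx, hj, hj']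
  have hT : InTube S e x := by
    refine ⟨fun j hj => ?_, by rw [xd]; exact ht1, by rw [xd]; exact ht2⟩
    by_cases hjk : j = k
    · subst hjk
      rw [xk, abs_le]
      constructor <;> linarith
    · rw [xo j hjk hj]; exact hm3 j
  obtain ⟨p', hp'⟩ := K.cover x (S.tube_sub e hT.mem_nb)
  have hne : p ≠ p' := by
    rintro rfl
    have := hp'.2 k
    rw [xk] at this
    linarith
  have hep := hT.tile hp'
  have hap := hep (TM.wa_mem K e)
  have hbp := hep (TM.wb_mem K e)
  obtain ⟨z, hz1, hz2⟩ := exists_between hlt
  refine K.dis p p' hne (fun j => if j = k then z else if j = K.dir e then t else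
    (m j + K.w (K.a e) j) / 2) (fun j => ?_) ⟨fun j => ?_, fun j => ?_⟩
  · by_cases hjk : j = k
    · subst hjk
      simp only [if_true]
      exact ⟨(ha.1 _).trans_lt hz1, hz2⟩
    · by_cases hjd : j = K.dir e
      · subst hjd
        simp only [if_neg hjk, if_true]
        exact ⟨(ha.1 _).trans_lt ht1, ht2.trans_le (hb.2 _)⟩
      · simp only [if_neg hjk, if_neg hjd]
        constructor <;> linarith [hm1 j, hm2 j, ha.1 j, ha.2 j]
  · by_cases hjk : j = k
    · subst hjk
      simp only [if_true]
      exact (hap.1 _).trans hz1.le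
    · by_cases hjd : j = K.dir e
      · subst hjd
        simp only [if_neg hjk, if_true]
        exact (hap.1 _).trans ht1.le
      · simp only [if_neg hjk, if_neg hjd]
        have h1 := hp'.1 j
        rw [xo j hjk hjd] at h1
        linarith [hap.1 j]
  · by_cases hjk : j = k
    · subst hjk
      simp only [if_true]
      have h1 := hp'.2 j
      rw [xk] at h1
      linarith
    · by_cases hjd : j = K.dir e
      · subst hjd
        simp only [if_neg hjk, if_true]
        exact ht2.le.trans (hbp.2 _)
      · simp only [if_neg hjk, if_neg hjd]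
        have h1 := hp'.2 j
        rw [xo j hjk hjd] at h1
        linarith [hap.2 j]

theorem tube_lo (S : Rad K) {e : K.G} {p : K.T} (h : K.edge e ⊆ K.cube p) {k : Fin 3}
    (hkd : k ≠ K.dir e) (hlt : K.lo p k < K.w (K.a e) k) :
    K.lo p k ≤ K.w (K.a e) k - 2 * S.q e := by
  by_contra hcon
  push Not at hcon
  have hq := S.q_pos e
  obtain ⟨t, ht1, ht2⟩ := exists_between (K.ab_dir e)
  have ha := h (TM.wa_mem K e)
  have hb := h (TM.wb_mem K e)
  obtain ⟨r, hr1, hr2⟩ := exists_between hcon
  -- a point of the open interval near `w`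
  have hm : ∀ j, ∃ m, K.lo p j < m ∧ m < K.hi p j ∧ |m - K.w (K.a e) j| ≤ 2 * S.q e := by
    intro j
    have h1 := ha.1 j
    have h2 := ha.2 j
    have h3 := K.lt p j
    by_cases h4 : K.w (K.a e) j < K.hi p j
    · obtain ⟨m, hm1, hm2⟩ := exists_between (lt_min h4
        (show K.w (K.a e) j < K.w (K.a e) j + 2 * S.q e by linarith))
      rw [lt_min_iff] at hm2
      exact ⟨m, h1.trans_lt hm1, hm2.1, by rw [abs_le]; constructor <;> linarith⟩
    · have h5 : K.lo p j < K.w (K.a e) j := h3.trans_le (not_lt.1 h4)
      obtain ⟨m, hm1, hm2⟩ := exists_between (max_lt h5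
        (show K.w (K.a e) j - 2 * S.q e < K.w (K.a e) j by linarith))
      rw [max_lt_iff] at hm1
      exact ⟨m, hm1.1, hm2.trans_le h2, by rw [abs_le]; constructor <;> linarith⟩
  choose m hm1 hm2 hm3 using hm
  set x : V := fun j => if j = k then r else if j = K.dir e then t else m j with hx
  have xk : x k = r := by simp [hx]
  have xd : x (K.dir e) = t := by simp [hx, hkd.symm]
  have xo : ∀ j, j ≠ k → j ≠ K.dir e → x j = m j := fun j hj hj' => by simp [hx, hj, hj']
  have hT : InTube S e x := by
    refine ⟨fun j hj => ?_, by rw [xd]; exact ht1, by rw [xd]; exact ht2⟩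
    by_cases hjk : j = k
    · subst hjk
      rw [xk, abs_le]
      constructor <;> linarith
    · rw [xo j hjk hj]; exact hm3 j
  obtain ⟨p', hp'⟩ := K.cover x (S.tube_sub e hT.mem_nb)
  have hne : p ≠ p' := by
    rintro rfl
    have := hp'.1 k
    rw [xk] at this
    linarith
  have hep := hT.tile hp'
  have hap := hep (TM.wa_mem K e)
  have hbp := hep (TM.wb_mem K e)
  obtain ⟨z, hz1, hz2⟩ := exists_between hlt
  refine K.dis p p' hne (fun j => if j = k then z else if j = K.dir e then t else
    (m j + K.w (K.a e) j) / 2) (fun j => ?_) ⟨fun j => ?_, fun j => ?_⟩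
  · by_cases hjk : j = k
    · subst hjk
      simp only [if_true]
      exact ⟨hz1, hz2.trans_le (ha.2 _)⟩
    · by_cases hjd : j = K.dir e
      · subst hjd
        simp only [if_neg hjk, if_true]
        exact ⟨(ha.1 _).trans_lt ht1, ht2.trans_le (hb.2 _)⟩
      · simp only [if_neg hjk, if_neg hjd]
        constructor <;> linarith [hm1 j, hm2 j, ha.1 j, ha.2 j]
  · by_cases hjk : j = k
    · subst hjk
      simp only [if_true]
      have h1 := hp'.1 j
      rw [xk] at h1
      linarith
    · by_cases hjd : j = K.dir e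
      · subst hjd
        simp only [if_neg hjk, if_true]
        exact (hap.1 _).trans ht1.le
      · simp only [if_neg hjk, if_neg hjd]
        have h1 := hp'.1 j
        rw [xo j hjk hjd] at h1
        linarith [hap.1 j]
  · by_cases hjk : j = k
    · subst hjk
      simp only [if_true]
      exact hz2.le.trans (hap.2 _)
    · by_cases hjd : j = K.dir e
      · subst hjd
        simp only [if_neg hjk, if_true]
        exact ht2.le.trans (hbp.2 _)
      · simp only [if_neg hjk, if_neg hjd]
        have h1 := hp'.2 j
        rw [xo j hjk hjd] at h1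
        linarith [hap.2 j]

/-- a square extends further than the tubes of its edges -/
theorem tube_shi (S : Rad K) {e : K.G} {s : K.S} (h : K.edge e ⊆ K.sq s) {k : Fin 3}
    (hkd : k ≠ K.dir e) (hlt : K.w (K.a e) k < K.shi s k) :
    K.w (K.a e) k + 2 * S.q e ≤ K.shi s k := by
  have hsub := TM.sq_subset K s
  have ha := h (TM.wa_mem K e)
  have hq := S.q_pos e
  have key : ∀ p, K.sq s ⊆ K.cube p →
      Function.update (K.w (K.a e)) k (K.w (K.a e) k + 2 * S.q e) ∈ K.cube p := by
    intro p hp
    have h1 := tube_hi S (h.trans hp) hkd (hlt.trans_le ((hp (shi_mem s)).2 k))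
    have hap := hp ha
    refine ⟨fun j => ?_, fun j => ?_⟩
    · by_cases hj : j = k
      · subst hj
        simp only [Function.update_self]
        linarith [hap.1 j]
      · rw [Function.update_of_ne hj]; exact hap.1 j
    · by_cases hj : j = k
      · subst hj
        simpa only [Function.update_self] using h1
      · rw [Function.update_of_ne hj]; exact hap.2 j
  have h2 : Function.update (K.w (K.a e)) k (K.w (K.a e) k + 2 * S.q e) ∈
      Icc (K.slo s) (K.shi s) := by
    rw [K.s_eq]
    exact ⟨key _ hsub.1, key _ hsub.2⟩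
  simpa only [Function.update_self] using h2.2 k

theorem tube_slo (S : Rad K) {e : K.G} {s : K.S} (h : K.edge e ⊆ K.sq s) {k : Fin 3}
    (hkd : k ≠ K.dir e) (hlt : K.slo s k < K.w (K.a e) k) :
    K.slo s k ≤ K.w (K.a e) k - 2 * S.q e := by
  have hsub := TM.sq_subset K s
  have ha := h (TM.wa_mem K e)
  have hq := S.q_pos e
  have key : ∀ p, K.sq s ⊆ K.cube p →
      Function.update (K.w (K.a e)) k (K.w (K.a e) k - 2 * S.q e) ∈ K.cube p := by
    intro p hp
    have h1 := tube_lo S (h.trans hp) hkd (((hp (slo_mem s)).1 k).trans_lt hlt)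
    have hap := hp ha
    refine ⟨fun j => ?_, fun j => ?_⟩
    · by_cases hj : j = k
      · subst hj
        simpa only [Function.update_self] using h1
      · rw [Function.update_of_ne hj]; exact hap.1 j
    · by_cases hj : j = k
      · subst hj
        simp only [Function.update_self]
        linarith [hap.2 j]
      · rw [Function.update_of_ne hj]; exact hap.2 j
  have h2 : Function.update (K.w (K.a e)) k (K.w (K.a e) k - 2 * S.q e) ∈
      Icc (K.slo s) (K.shi s) := by
    rw [K.s_eq]
    exact ⟨key _ hsub.1, key _ hsub.2⟩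
  simpa only [Function.update_self] using h2.1 k

/-- the sides of a square are longer than the tubes of its edges are thick -/
theorem side_ge (S : Rad K) {e : K.G} {s : K.S} (h : K.edge e ⊆ K.sq s) {k : Fin 3}
    (hk : k ≠ K.nrm s) (hkd : k ≠ K.dir e) : 2 * S.q e ≤ K.shi s k - K.slo s k := by
  have hl := K.s_lt s k hk
  rcases edge_side h hk hkd with h1 | h1
  · have := tube_shi S h hkd (by rw [h1]; exact hl)
    linarith
  · have := tube_slo S h hkd (by rw [h1]; exact hl)
    linarith

open Vale.Agent.P073.H267

variable {G : Geo B}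

/-- in a tube, close to the edge: in the full zone of round T -/
theorem mem_TB_of_mem_E {e : K.G} (h : y ∈ B.E e) (hk : ∀ k, k ≠ K.dir e →
    |y k - K.w (K.a e) k| ≤ G.uT e) : y ∈ G.TB true (.inl e) := by
  rw [Geo.mem_inl]
  have h1 := h.1
  have h2 := G.be_wv (K.a e)
  have h3 := G.be_wv (K.b e)
  have h4 := G.be_pos (K.a e)
  have h5 := G.be_pos (K.b e)
  exact ⟨⟨by linarith, by linarith⟩, fun k hk' => by simpa using hk k hk'⟩

/-- **(G3)** the shell of a tile is covered by the boxes of the two rounds -/
theorem _root_.Vale.Agent.P073.H267.Geo.cover (G : Geo B) {q : K.T} (hy : y ∈ K.cube q)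
    (hyk : ∃ k, y k ≤ K.lo q k + G.κ q ∨ K.hi q k - G.κ q ≤ y k) :
    (∃ s, (q = K.sm s ∨ q = K.sp s) ∧ closedBall y (10 * G.om q) ⊆ B.P s ∧
      closedBall y (10 * G.om q) ⊆ G.PB 2 s ∧ |y (K.nrm s) - K.slo s (K.nrm s)| ≤ G.κ q) ∨
    (∃ e, K.edge e ⊆ K.cube q ∧ closedBall y (10 * G.om q) ⊆ B.E e ∧
      (closedBall y (10 * G.om q) ⊆ G.TB true (.inl e) ∨
        ∃ s, K.edge e ⊆ K.sq s ∧ (q = K.sm s ∨ q = K.sp s) ∧
          closedBall y (10 * G.om q) ⊆ G.PB 2 s ∧
          |y (K.nrm s) - K.slo s (K.nrm s)| ≤ G.κ q)) ∨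
    ∃ i, K.w i ∈ K.cube q ∧ closedBall y (10 * G.om q) ⊆ Zv W i := by
  have hom := G.om_pos q
  have hκ0 := G.om_κ q
  set κ := G.κ q with hκ
  set ω := 10 * G.om q with hω
  have hωκ : 100 * ω ≤ κ := by rw [hω]; linarith
  have hκp : 0 < κ := by linarith
  obtain ⟨x, hxf', hxy⟩ := Boxes.exists_frontier_near hκp.le hy hyk
  have hxf := TM.mem_frontier_Icc3.1 hxf'
  have hxc : x ∈ K.cube q := hxf.1
  have hxyk : ∀ k, |y k - x k| ≤ κ := by
    intro k
    have := norm_le_pi_norm (y - x) k
    rw [Pi.sub_apply, Real.norm_eq_abs] at this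
    exact this.trans hxy
  have hball : ∀ z ∈ closedBall y ω, ∀ k, |z k - y k| ≤ ω := by
    intro z hz k
    rw [mem_closedBall, dist_eq_norm] at hz
    have := norm_le_pi_norm (z - y) k
    rw [Pi.sub_apply, Real.norm_eq_abs] at this
    exact this.trans hz
  have hball' : ∀ z ∈ closedBall y ω, ∀ k, |z k - x k| ≤ κ + ω := by
    intro z hz k
    have h1 := hball z hz k
    have h2 := hxyk k
    have h3 := abs_sub_le (z k) (y k) (x k)
    linarith
  have hR : ∀ i, K.w i ∈ K.cube q → κ + ω ≤ W.wv i := by
    intro i hi
    have h1 := G.κ_be q i hi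
    have h2 := G.be_wv i
    linarith
  have hT : ∀ e, K.edge e ⊆ K.cube q → κ + ω ≤ G.uT e ∧ 100 * (κ + ω) ≤ B.T e := by
    intro e he
    have h1 := G.κ_uT q e he
    have h2 := G.uT_lam e
    have h3 := G.lam_T e
    constructor <;> linarith
  by_cases hE : ∃ e, x ∈ K.edge e
  · obtain ⟨e, he⟩ := hE
    have hi : ∀ i, x = K.w i → ∃ i, K.w i ∈ K.cube q ∧ closedBall y ω ⊆ Zv W i := by
      intro i hi
      refine ⟨i, hi ▸ hxc, fun z hz => ?_⟩
      rw [Zv, mem_closedBall, dist_pi_le_iff (W.wv_pos i).le]
      intro k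
      rw [Real.dist_eq, ← hi]
      exact (hball' z hz k).trans (hR i (hi ▸ hxc))
    by_cases ha : x = K.w (K.a e)
    · exact Or.inr (Or.inr (hi _ ha))
    by_cases hb : x = K.w (K.b e)
    · exact Or.inr (Or.inr (hi _ hb))
    have hep : K.edge e ⊆ K.cube q := (K.edge_tile e q x he ha hb hxc).1
    obtain ⟨h7, h8⟩ := hT e hep
    have hTe := B.T_pos e
    have hd : ∀ z ∈ closedBall y ω, ∀ k, |z k - x k| ≤ 3 / 4 * B.T e := fun z hz k =>
      (hball' z hz k).trans (by linarith)
    rcases B.near_edge e he with h | h | h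
    · refine Or.inr (Or.inl ⟨e, hep, fun z hz => h z (hd z hz), Or.inl fun z hz => ?_⟩)
      refine mem_TB_of_mem_E (h z (hd z hz)) fun k hk => ?_
      rw [← edge_coord he hk]
      exact (hball' z hz k).trans h7
    · exact Or.inr (Or.inr ⟨K.a e, hep (TM.wa_mem K e), fun z hz => h z (hd z hz)⟩)
    · exact Or.inr (Or.inr ⟨K.b e, hep (TM.wb_mem K e), fun z hz => h z (hd z hz)⟩)
  · push Not at hE
    obtain ⟨s, hs, h1, h2⟩ := K.face_cover q x hxc hxf.2 hE
    have hκτ := G.κ_τ q s hs
    have hτp := G.τ_p s
    have hτ0 := B.τ_pos s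
    have hp0 := G.p_pos s
    have hyn : |y (K.nrm s) - K.slo s (K.nrm s)| ≤ κ := h1 ▸ hxyk (K.nrm s)
    have hzn : ∀ z ∈ closedBall y ω, |z (K.nrm s) - K.slo s (K.nrm s)| ≤ B.τ s := by
      intro z hz
      have := hball' z hz (K.nrm s)
      rw [h1] at this
      exact this.trans (by linarith)
    -- a vertex of the square
    have hpu : 32 * G.p s ≤ B.u s := by
      obtain ⟨k, hk⟩ : ∃ k, k ≠ K.nrm s := exists_ne (K.nrm s)
      obtain ⟨e, he, -⟩ := K.sq_bd s (K.slo s) (slo_mem s) ⟨k, hk, Or.inl rfl⟩
      have h3 : K.w (K.a e) ∈ K.sq s := he (TM.wa_mem K e)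
      have h4 := G.p_be s _ h3
      have h5 := G.be_a s _ h3
      have h6 := G.a_u s
      linarith
    by_cases hin : ∀ k, k ≠ K.nrm s →
        K.slo s k + B.u s + (κ + ω) < x k ∧ x k < K.shi s k - B.u s - (κ + ω)
    · refine Or.inl ⟨s, hs, fun z hz => ⟨fun k hk => ?_, hzn z hz⟩, fun z hz => ?_, hyn⟩
      · have h3 := abs_le.1 (hball' z hz k)
        have h4 := hin k hk
        constructor <;> linarith
      · rw [Geo.mem_PB]
        refine ⟨fun k hk => ?_, hzn z hz⟩
        have h3 := abs_le.1 (hball' z hz k)
        have h4 := hin k hk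
        constructor <;> linarith
    · push Not at hin
      obtain ⟨k, hk, hkk⟩ := hin
      have hsq : x ∈ K.sq s := sqo_subset_sq s ⟨h1, h2⟩
      have hut : 0 ≤ B.u s + (κ + ω) := by linarith [B.u_pos s]
      -- the closest boundary point
      obtain ⟨x', hx's, hx'b, hxx⟩ : ∃ x' ∈ K.sq s,
          (∃ k, k ≠ K.nrm s ∧ (x' k = K.slo s k ∨ x' k = K.shi s k)) ∧
            ∀ j, |x j - x' j| ≤ B.u s + (κ + ω) := by
        by_cases hlo : K.slo s k + B.u s + (κ + ω) < x k
        · have hhi := hkk hlo
          refine ⟨Function.update x k (K.shi s k), ⟨fun j => ?_, fun j => ?_⟩,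
            ⟨k, hk, Or.inr (by simp)⟩, fun j => ?_⟩
          · by_cases hj : j = k
            · subst hj; simpa using TM.slo_le_shi K s j
            · simpa [hj] using hsq.1 j
          · by_cases hj : j = k
            · subst hj; simp
            · simpa [hj] using hsq.2 j
          · by_cases hj : j = k
            · subst hj
              have := (h2 j hk).2
              simp only [Function.update_self, abs_le]
              constructor <;> linarith [B.u_pos s]
            · simpa [hj] using hut
        · push Not at hlo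
          refine ⟨Function.update x k (K.slo s k), ⟨fun j => ?_, fun j => ?_⟩,
            ⟨k, hk, Or.inl (by simp)⟩, fun j => ?_⟩
          · by_cases hj : j = k
            · subst hj; simp
            · simpa [hj] using hsq.1 j
          · by_cases hj : j = k
            · subst hj; simpa using TM.slo_le_shi K s j
            · simpa [hj] using hsq.2 j
          · by_cases hj : j = k
            · subst hj
              have := (h2 j hk).1
              simp only [Function.update_self, abs_le]
              constructor <;> linarith [B.u_pos s]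
            · simpa [hj] using hut
      obtain ⟨e, hes', hx'e⟩ := K.sq_bd s x' hx's hx'b
      have hes : K.edge e ⊆ K.sq s := hes'
      have hep : K.edge e ⊆ K.cube q := by
        rcases hs with rfl | rfl
        · exact hes.trans (TM.sq_subset K s).1
        · exact hes.trans (TM.sq_subset K s).2
      obtain ⟨h7, h8⟩ := hT e hep
      have hu2 := G.u_T s e hes
      have hTe := B.T_pos e
      have hkey : ∀ z ∈ closedBall y ω, ∀ k, |z k - x' k| ≤ 3 / 4 * B.T e := by
        intro z hz k
        have h3 := hball' z hz k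
        have h4 := hxx k
        have h5 := abs_sub_le (z k) (x k) (x' k)
        linarith
      rcases B.near_edge e hx'e with h | h | h
      · refine Or.inr (Or.inl ⟨e, hep, fun z hz => h z (hkey z hz), ?_⟩)
        -- the third direction
        obtain ⟨j, hjn, hjd⟩ : ∃ j, j ≠ K.nrm s ∧ j ≠ K.dir e := by
          have : ∀ a b : Fin 3, ∃ j, j ≠ a ∧ j ≠ b := by decide
          exact this _ _
        have hwn : K.w (K.a e) (K.nrm s) = K.slo s (K.nrm s) :=
          TM.nrm_eq (hes (TM.wa_mem K e))
        have hE0 : ∀ z ∈ closedBall y ω, z ∈ B.E e := fun z hz => h z (hkey z hz)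
        have hpT := G.p_uT s e hes
        by_cases hj : |y j - K.w (K.a e) j| ≤ G.uT e - ω
        · left
          intro z hz
          refine mem_TB_of_mem_E (hE0 z hz) fun l hl => ?_
          by_cases hln : l = K.nrm s
          · subst hln
            rw [hwn, ← h1]
            exact (hball' z hz _).trans h7
          · have hlj : l = j := fin3_uniq hjn hjd hln hl (nrm_ne_dir hes)
            subst hlj
            have h3 := hball z hz l
            have h4 := abs_sub_le (z l) (y l) (K.w (K.a e) l)
            linarith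
        · right
          push Not at hj
          refine ⟨s, hes, hs, fun z hz => ?_, hyn⟩
          rw [Geo.mem_PB]
          refine ⟨fun l hl => ?_, hzn z hz⟩
          have ha := hes (TM.wa_mem K e)
          have hb := hes (TM.wb_mem K e)
          by_cases hld : l = K.dir e
          · subst hld
            have h3 := (hE0 z hz).1
            have h4 := G.be_wv (K.a e)
            have h5 := G.be_wv (K.b e)
            have h6 := G.p_be s _ ha
            have h7 := G.p_be s _ hb
            have h9 := ha.1 (K.dir e)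
            have h10 := hb.2 (K.dir e)
            constructor <;> linarith
          · have hlj : l = j := fin3_uniq hjn hjd hl hld (nrm_ne_dir hes)
            subst hlj
            have h3 := hball z hz l
            have h4 := hxyk l
            have h5 := (h2 l hl)
            have h6 := (hE0 z hz).2 l hld
            have h9 := side_ge S hes hl hld
            have h10 := B.T_le e
            have h11 := W.we_le e
            rw [abs_le] at h3 h4 h6
            rcases edge_side hes hl hld with h12 | h12
            · rw [h12] at hj h6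
              rw [lt_abs] at hj
              rcases hj with hj | hj
              · constructor <;> linarith
              · exfalso; linarith
            · rw [h12] at hj h6
              rw [lt_abs] at hj
              rcases hj with hj | hj
              · exfalso; linarith
              · constructor <;> linarith
      · exact Or.inr (Or.inr ⟨K.a e, hep (TM.wa_mem K e), fun z hz => h z (hkey z hz)⟩)
      · exact Or.inr (Or.inr ⟨K.b e, hep (TM.wb_mem K e), fun z hz => h z (hkey z hz)⟩)

end Vale.Agent.P073.H471
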