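import Vale.Agent.P073.H471.Stage

/-!
# P073, block FF: radial expansions which are tangentially the identity near the boundary

The cone move is done in the cube of radius `7/8 σ`, then follows the expansion from the centre.
-/

open Set Metric Topology Filter
open scoped ENNReal NNReal

namespace Vale.Agent.P073.H471

open _root_.P073 _root_.P073.Net
open Vale.Agent.P073.St (V)

section cone

variable {z c y : V} {σ : ℝ}

theorem abs_dp_sub_le' (hσ : 0 < σ) (hc : ‖c - z‖ ≤ 4 / 7 * σ) (x y : V) :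
    |dp z σ c x - dp z σ c y| ≤ 7 / (3 * σ) * ‖x - y‖ := by
  refine abs_depth_sub_le (fun j x => (boxA_bound (hc := by linarith) j x).trans ?_) x y
  gcongr
  rw [inv_eq_one_div, div_le_div_iff₀ (by linarith) (by positivity)]
  linarith

/-- the cone move is `7/3`-Lipschitz -/
theorem cmv_lip3 {hσ : 0 < σ} {hc : ‖c - z‖ < σ} (h2 : ‖c - z‖ ≤ 4 / 7 * σ) (x y : V) :
    ‖(cmv z σ c hσ hc).toFun x - (cmv z σ c hσ hc).toFun y‖ ≤ 7 / 3 * ‖x - y‖ := by
  rw [cmv_apply, cmv_apply]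
  have e : x + dp z σ c x • (z - c) - (y + dp z σ c y • (z - c)) =
      (x - y) + (dp z σ c x - dp z σ c y) • (z - c) := by module
  rw [e]
  refine (norm_add_le _ _).trans ?_
  rw [norm_smul, Real.norm_eq_abs, norm_sub_rev z c]
  have := abs_dp_sub_le' hσ h2 x y
  calc ‖x - y‖ + |dp z σ c x - dp z σ c y| * ‖c - z‖
      ≤ ‖x - y‖ + 7 / (3 * σ) * ‖x - y‖ * (4 / 7 * σ) := by gcongr
    _ = 7 / 3 * ‖x - y‖ := by field_simp; ring

theorem norm_cmv_ge3 {hσ : 0 < σ} {hc : ‖c - z‖ < σ} (h2 : ‖c - z‖ ≤ 4 / 7 * σ)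
    (h : ‖y - z‖ ≤ σ) : 7 / 11 * ‖y - c‖ ≤ ‖(cmv z σ c hσ hc).toFun y - z‖ := by
  have h1 := norm_cmv (hσ := hσ) (hc := hc) h
  have e : (cmv z σ c hσ hc).toFun y - z = (y - c) + (1 - dp z σ c y) • (c - z) := by
    rw [cmv_apply]; module
  have hd1 : 0 ≤ 1 - dp z σ c y := by
    have h3 := norm_nonneg ((cmv z σ c hσ hc).toFun y - z)
    rw [h1] at h3
    by_contra hn
    push Not at hn
    nlinarith
  have h3 : ‖(1 - dp z σ c y) • (c - z)‖ ≤ 4 / 7 * ‖(cmv z σ c hσ hc).toFun y - z‖ := by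
    rw [norm_smul, Real.norm_of_nonneg hd1, h1]
    nlinarith
  have h5 : ‖y - c‖ ≤ ‖(cmv z σ c hσ hc).toFun y - z‖ + ‖(1 - dp z σ c y) • (c - z)‖ := by
    have e2 : y - c = ((cmv z σ c hσ hc).toFun y - z) - (1 - dp z σ c y) • (c - z) := by
      rw [e]; abel
    nth_rw 1 [e2]
    exact norm_sub_le _ _
  linarith

theorem ffc_zero {κ : ℝ} {hσ : 0 < σ} {hc : ‖c - z‖ < σ} {hκ : 0 < κ} {hκ1 : κ < 1 / 2} (y : V) :
    (ffc z σ c hσ hc κ hκ hκ1 0).toFun y = (cmv z σ c hσ hc).toFun y := by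
  rw [ffc_apply, fk_zero, smul_smul, mul_inv_cancel₀ hσ.ne', one_smul, sub_add_cancel]

theorem cmv_self {hσ : 0 < σ} {hc : ‖z - z‖ < σ} (y : V) :
    (cmv z σ z hσ hc).toFun y = y := by
  rw [cmv_apply, sub_self, smul_zero, add_zero]

end cone

/-! ### the doubling map near the boundary -/

section tang

variable {κ : ℝ} {y : V}

theorem tt_tan {k : Fin 3} (h1 : 1 / 2 ≤ ‖y‖) (h : |y k| ≤ 2 * ‖y‖ - 1) : tt κ y k = y k := by
  rw [tt_apply, th_of_ge h1, clamp_of_abs_le h]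
  ring

theorem abs_clamp_le {r t : ℝ} (hr : 0 ≤ r) : |clamp r t| ≤ |t| := by
  rcases le_total |t| r with h | h
  · rw [clamp_of_abs_le h]
  · rcases le_total 0 t with h0 | h0
    · rw [abs_of_nonneg h0] at h
      rw [clamp_of_le hr h, abs_of_nonneg hr, abs_of_nonneg h0]; exact h
    · rw [abs_of_nonpos h0] at h
      rw [clamp_of_le_neg hr (by linarith), abs_neg, abs_of_nonneg hr, abs_of_nonpos h0]; exact h

theorem clamp_le_self {r t : ℝ} (hr : 0 ≤ r) (ht : 0 ≤ t) : clamp r t ≤ t := by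
  have := abs_clamp_le (t := t) hr
  rw [abs_of_nonneg ht] at this
  exact (le_abs_self _).trans this

theorem self_le_clamp {r t : ℝ} (hr : 0 ≤ r) (ht : t ≤ 0) : t ≤ clamp r t := by
  have := abs_clamp_le (t := t) hr
  rw [abs_of_nonpos ht] at this
  linarith [neg_abs_le (clamp r t)]

/-- the doubling map moves every coordinate away from zero -/
theorem tt_grow (hκ1 : κ < 1 / 2) (k : Fin 3) :
    (0 ≤ y k → y k ≤ tt κ y k) ∧ (y k ≤ 0 → tt κ y k ≤ y k) := by
  constructor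
  · intro h
    have h1 := clamp_le_self (th_nonneg ‖y‖) h
    rw [tt_apply]
    nlinarith
  · intro h
    have h1 := self_le_clamp (th_nonneg ‖y‖) h
    rw [tt_apply]
    nlinarith

end tang

/-! ### stages -/

variable {ι : Type*} {Λ : Set V} {z c : ι → V} {σ κ : ι → ℝ} {m : ι → ℕ}

/-- smaller cubes -/
theorem Cubes.shrink (W : Cubes Λ z σ) {t : ℝ} (ht : 0 < t) (ht1 : t ≤ 1) :
    Cubes Λ z (fun i => t * σ i) where
  pos i := mul_pos ht (W.pos i)
  sub i := (closedBall_subset_closedBall (by nlinarith [W.pos i])).trans (W.sub i)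
  disj i j h := (W.disj i j h).mono (ball_subset_ball (by nlinarith [W.pos i]))
    (ball_subset_ball (by nlinarith [W.pos j]))
  fin y hy := by
    obtain ⟨U, hU, hf⟩ := W.fin y hy
    refine ⟨U, hU, hf.subset fun i hi => hi.mono (inter_subset_inter_left _ ?_)⟩
    exact closedBall_subset_closedBall (by nlinarith [W.pos i])

/-- local Lipschitz estimate when all the maps are `L`-Lipschitz -/
theorem IsStage.local_lip0 {W : Cubes Λ z σ} {hc : ∀ i, ‖c i - z i‖ < σ i} {hκ : ∀ i, 0 < κ i}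
    {hκ1 : ∀ i, κ i < 1 / 2} {T : ConHomeo Λ Λ} (H : IsStage W hc hκ hκ1 m T) (hΛ : IsOpen Λ)
    {L : ℝ} (hL : 1 ≤ L)
    (hf : ∀ i, ∀ x x', ‖(ffc (z i) (σ i) (c i) (W.pos i) (hc i) (κ i) (hκ i) (hκ1 i)
      (m i)).toFun x - (ffc (z i) (σ i) (c i) (W.pos i) (hc i) (κ i) (hκ i) (hκ1 i)
      (m i)).toFun x'‖ ≤ L * ‖x - x'‖) {y : V} (hy : y ∈ Λ) :
    ∃ δ > 0, ball y δ ⊆ Λ ∧ ∀ y' ∈ ball y δ, ∀ y'' ∈ ball y δ,
      ‖T.toFun y' - T.toFun y''‖ ≤ L * ‖y' - y''‖ := by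
  obtain ⟨U, hU, hf'⟩ := W.fin y hy
  have hev : ∀ᶠ x in 𝓝 y, x ∈ Λ ∧ x ∈ U := Filter.Eventually.and (hΛ.mem_nhds hy) hU
  obtain ⟨δ, hδ, hball⟩ := Metric.eventually_nhds_iff_ball.1 hev
  refine ⟨δ, hδ, fun x hx => (hball x hx).1, fun y' hy' y'' hy'' => ?_⟩
  set d := y'' - y' with hd
  have hseg : ∀ t ∈ Icc (0:ℝ) 1, y' + t • d ∈ ball y δ := fun t ht =>
    (convex_ball y δ).add_smul_sub_mem hy' hy'' ht
  have hcont : ContinuousOn (fun t : ℝ => T.toFun (y' + t • d)) (Icc 0 1) :=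
    T.cont.comp (by fun_prop) fun t ht => (hball _ (hseg t ht)).1
  have key := norm_sub_le_of_right (L := L * ‖d‖) zero_le_one hcont ?_
  · simp only [zero_smul, add_zero, one_smul, sub_zero, mul_one] at key
    rw [hd, add_sub_cancel] at key
    rw [norm_sub_rev, norm_sub_rev y' y'']
    exact key
  intro t ht
  set q := y' + t • d with hq
  have hqb : q ∈ ball y δ := hseg t ⟨ht.1, ht.2.le⟩
  have hadd : ∀ s, y' + (t + s) • d = q + s • d := fun s => by rw [hq]; module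
  simp only [hadd]
  by_cases hex : ∃ i, ∃ δ' > 0, ∀ s ∈ Icc (0:ℝ) δ', q + s • d ∈ closedBall (z i) (σ i)
  · obtain ⟨i, δ', hδ', hin⟩ := hex
    refine ⟨δ', hδ', fun s hs hts => ?_⟩
    have h0 := hin 0 ⟨le_rfl, hδ'.le⟩
    rw [zero_smul, add_zero] at h0
    rw [H.eq i _ (hin s hs), H.eq i q h0]
    refine (hf i _ _).trans (le_of_eq ?_)
    rw [add_sub_cancel_left, norm_smul, Real.norm_of_nonneg hs.1]
    ring
  · push Not at hex
    have hall2 : ∀ i, ∃ δ' > 0, ∀ s ∈ Ioc (0:ℝ) δ', q + s • d ∉ closedBall (z i) (σ i) := by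
      intro i
      rcases germ_dichotomy isClosed_closedBall (convex_closedBall (z i) (σ i)) q d with h | h
      · obtain ⟨δ', hδ', hh⟩ := h
        obtain ⟨s, hs, hn⟩ := hex i δ' hδ'
        exact absurd (hh s hs) hn
      · exact h
    have hq0 : ∀ i, q ∉ ball (z i) (σ i) := by
      intro i hi
      obtain ⟨δ', hδ', hh⟩ := hall2 i
      have h1 : Tendsto (fun s : ℝ => q + s • d) (𝓝[>] 0) (𝓝 (q + (0:ℝ) • d)) := by
        refine Tendsto.mono_left ?_ nhdsWithin_le_nhds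
        exact (continuous_const.add (continuous_id.smul continuous_const)).tendsto 0
      rw [zero_smul, add_zero] at h1
      obtain ⟨s, hs1, hs2⟩ := ((h1.eventually (isOpen_ball.mem_nhds hi)).and
        (Ioc_mem_nhdsGT hδ')).exists
      exact hh s hs2 (ball_subset_closedBall hs1)
    have hfin : ∀ᶠ s in 𝓝[>] (0:ℝ), ∀ i ∈ {i | (closedBall (z i) (σ i) ∩ U).Nonempty},
        q + s • d ∉ closedBall (z i) (σ i) := by
      rw [eventually_all_finite hf']
      intro i _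
      obtain ⟨δ', hδ', hh⟩ := hall2 i
      filter_upwards [Ioc_mem_nhdsGT hδ'] with s hs using hh s hs
    obtain ⟨δ', hδ', hh⟩ := (mem_nhdsGT_iff_exists_Ioc_subset).1 hfin
    refine ⟨δ', hδ', fun s hs hts => ?_⟩
    rcases hs.1.eq_or_lt with h0 | h0
    · rw [← h0, zero_smul, add_zero, sub_self, norm_zero, mul_zero]
    · have hq2 : q + s • d ∈ ball y δ := by
        rw [← hadd]; exact hseg _ ⟨by linarith [ht.1, hs.1], hts⟩
      have hs3 : ∀ i, q + s • d ∉ ball (z i) (σ i) := by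
        intro i hi
        exact hh ⟨h0, hs.2⟩ i ⟨_, ball_subset_closedBall hi, (hball _ hq2).2⟩
          (ball_subset_closedBall hi)
      rw [(H.off _ hs3).1, (H.off _ hq0).1, add_sub_cancel_left, norm_smul,
        Real.norm_of_nonneg hs.1]
      nlinarith [mul_nonneg hs.1 (norm_nonneg d)]

/-- an expansion of the cubes from the centres `c`, tangentially the identity near the boundary -/
structure IsExp (z c : ι → V) (σ : ι → ℝ) (T : ConHomeo Λ Λ) : Prop where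
  off : ∀ y, (∀ i, y ∉ ball (z i) (σ i)) → T.toFun y = y ∧ T.invFun y = y
  mem : ∀ i, ∀ y ∈ ball (z i) (σ i), T.toFun y ∈ ball (z i) (σ i) ∧ T.invFun y ∈ ball (z i) (σ i)
  lip : ∀ y ∈ Λ, ∀ L : ℝ, 28 ≤ L →
    (∀ i, y ∈ closedBall (z i) (σ i) → 56 * σ i < L * ‖y - c i‖) →
    ∃ δ > 0, ball y δ ⊆ Λ ∧ ∀ y' ∈ ball y δ, ∀ y'' ∈ ball y δ,
      ‖T.toFun y' - T.toFun y''‖ ≤ L * ‖y' - y''‖
  tan : ∀ i, ∀ y ∈ closedBall (z i) (σ i), 7 / 8 * σ i ≤ ‖y - z i‖ → ∀ k,
    |y k - z i k| ≤ 2 * ‖y - z i‖ - σ i → T.toFun y k = y k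
  grow : ∀ i, ∀ y ∈ closedBall (z i) (σ i), 7 / 8 * σ i ≤ ‖y - z i‖ → ∀ k,
    (0 ≤ y k - z i k → y k ≤ T.toFun y k) ∧ (y k - z i k ≤ 0 → T.toFun y k ≤ y k)

/-- **the expansions with prescribed cores and shells** -/
theorem exists_exp (hΛ : IsOpen Λ) (W : Cubes Λ z σ) (hc2 : ∀ i, ‖c i - z i‖ ≤ σ i / 2)
    {τ k : ι → ℝ} (hτ : ∀ i, 0 < τ i) (hk : ∀ i, 0 < k i) (hk1 : ∀ i, k i < 1 / 2) :
    ∃ T : ConHomeo Λ Λ, IsExp z c σ T ∧
      ∀ i, ∀ y ∈ closedBall (z i) (σ i), τ i ≤ ‖y - c i‖ → (1 - k i) * σ i < ‖T.toFun y - z i‖ := by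
  -- the cone moves
  have W' := W.shrink (t := 7 / 8) (by norm_num) (by norm_num)
  have hc' : ∀ i, ‖c i - z i‖ < 7 / 8 * σ i := fun i => by linarith [hc2 i, W.pos i]
  have hc4 : ∀ i, ‖c i - z i‖ ≤ 4 / 7 * (7 / 8 * σ i) := fun i => by linarith [hc2 i]
  obtain ⟨T₁, H₁⟩ := exists_isStage (κ := fun _ => 1 / 4) (m := fun _ => 0) hΛ W' hc'
    (fun _ => by norm_num) (fun _ => by norm_num)
  -- the expansion from the centre
  have hz2 : ∀ i, ‖z i - z i‖ ≤ σ i / 2 := fun i => by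
    rw [sub_self, norm_zero]; linarith [W.pos i]
  obtain ⟨κ, m, hc, hκ, hκ1, T₂, H₂, hκm, -, hsh⟩ := exists_ffstage (c := z) hΛ W hz2
    (τ := fun i => τ i / 2) (k := k) (fun i => by linarith [hτ i]) hk hk1
  -- the first map in a cube
  have hT₁ : ∀ i, ∀ y ∈ closedBall (z i) (σ i), T₁.toFun y =
      (cmv (z i) (7 / 8 * σ i) (c i) (W'.pos i) (hc' i)).toFun y := by
    intro i y hy
    by_cases h : y ∈ closedBall (z i) (7 / 8 * σ i)
    · rw [H₁.eq i y h, ffc_zero]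
    · rw [mem_closedBall, dist_eq_norm, not_le] at h
      rw [cmv_of_ge h.le]
      refine (H₁.off y fun j hj => ?_).1
      by_cases hij : i = j
      · subst hij
        rw [mem_ball, dist_eq_norm] at hj
        linarith
      · have h1 : y ∈ ball (z j) (σ j) :=
          ball_subset_ball (by linarith [W.pos j]) hj
        have h2 : y ∈ closure (ball (z i) (σ i)) := by rwa [closure_ball _ (W.pos i).ne']
        obtain ⟨w, hw⟩ := mem_closure_iff.1 h2 _ isOpen_ball h1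
        exact disjoint_left.1 (W.disj i j hij) hw.2 hw.1
  have hmem₁ : ∀ i, ∀ y ∈ ball (z i) (σ i), T₁.toFun y ∈ ball (z i) (σ i) ∧
      T₁.invFun y ∈ ball (z i) (σ i) := by
    intro i y hy
    by_cases h : y ∈ ball (z i) (7 / 8 * σ i)
    · have := H₁.mem i y h
      exact ⟨ball_subset_ball (by linarith [W.pos i]) this.1,
        ball_subset_ball (by linarith [W.pos i]) this.2⟩
    · have hoff := H₁.off y fun j hj => ?_
      · rw [hoff.1, hoff.2]; exact ⟨hy, hy⟩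
      · by_cases hij : i = j
        · subst hij; exact h hj
        · exact disjoint_left.1 (W.disj i j hij) hy
            (ball_subset_ball (by linarith [W.pos j]) hj)
  have hoff₁ : ∀ y, (∀ i, y ∉ ball (z i) (σ i)) → T₁.toFun y = y ∧ T₁.invFun y = y :=
    fun y hy => H₁.off y fun j hj => hy j (ball_subset_ball (by linarith [W.pos j]) hj)
  have hcl₁ : ∀ i, ∀ y ∈ closedBall (z i) (σ i), T₁.toFun y ∈ closedBall (z i) (σ i) := by
    intro i y hy
    by_cases h : y ∈ ball (z i) (σ i)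
    · exact ball_subset_closedBall (hmem₁ i y h).1
    · rw [hT₁ i y hy]
      rw [mem_ball, dist_eq_norm, not_lt] at h
      rw [cmv_of_ge (by linarith [W.pos i])]
      exact hy
  have hcl₁' : ∀ y ∈ Λ, ∀ i, T₁.toFun y ∈ closedBall (z i) (σ i) →
      y ∈ closedBall (z i) (σ i) := by
    intro y hy i hyi
    by_cases h : T₁.toFun y ∈ ball (z i) (σ i)
    · have := (hmem₁ i _ h).2
      rw [T₁.left_inv hy] at this
      exact ball_subset_closedBall this
    · have h6 : ∀ j, T₁.toFun y ∉ ball (z j) (σ j) := by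
        intro j hj
        rcases eq_or_ne i j with rfl | hij
        · exact h hj
        · have h6 : T₁.toFun y ∈ closure (ball (z i) (σ i)) := by
            rwa [closure_ball _ (W.pos i).ne']
          obtain ⟨w, hw⟩ := mem_closure_iff.1 h6 _ isOpen_ball hj
          exact disjoint_left.1 (W.disj i j hij) hw.2 hw.1
      have h7 := (hoff₁ _ h6).2
      rw [T₁.left_inv hy] at h7
      rw [h7]
      exact hyi
  -- distances to the centres
  have hdist : ∀ i, ∀ y ∈ closedBall (z i) (σ i), 1 / 2 * ‖y - c i‖ ≤ ‖T₁.toFun y - z i‖ := by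
    intro i y hy
    rw [hT₁ i y hy]
    rcases le_total ‖y - z i‖ (7 / 8 * σ i) with h | h
    · have := norm_cmv_ge3 (hσ := W'.pos i) (hc := hc' i) (hc4 i) h
      linarith [norm_nonneg (y - c i)]
    · rw [cmv_of_ge h]
      have h1 : ‖y - c i‖ ≤ ‖y - z i‖ + ‖z i - c i‖ := norm_sub_le_norm_sub_add_norm_sub _ _ _
      rw [norm_sub_rev (z i)] at h1
      linarith [hc2 i, W.pos i]
  refine ⟨T₁.trans T₂, ⟨fun y hy => ?_, fun i y hy => ?_, fun y hy L hL hyL => ?_,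
    fun i y hy h k hk => ?_, fun i y hy h k => ?_⟩, fun i y hy h => ?_⟩
  · constructor
    · show T₂.toFun (T₁.toFun y) = y
      rw [(hoff₁ y hy).1, (H₂.off y hy).1]
    · show T₁.invFun (T₂.invFun y) = y
      rw [(H₂.off y hy).2, (hoff₁ y hy).2]
  · exact ⟨(H₂.mem i _ (hmem₁ i y hy).1).1, (hmem₁ i _ (H₂.mem i y hy).2).2⟩
  · obtain ⟨δ₁, hδ₁, hsub₁, h₁⟩ := H₁.local_lip0 hΛ (L := 7 / 3) (by norm_num)
      (fun i x x' => by rw [ffc_zero, ffc_zero]; exact cmv_lip3 (hc4 i) x x') hy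
    obtain ⟨δ₂, hδ₂, hsub₂, h₂⟩ := H₂.local_lip hΛ hz2 (T₁.mapsTo hy) (L := 3 / 7 * L)
      (by linarith) fun i hi => by
        have hyi := hcl₁' y hy i hi
        have e1 := hyL i hyi
        have e2 := hdist i y hyi
        nlinarith
    refine ⟨min δ₁ (3 / 7 * δ₂), by positivity,
      (ball_subset_ball (min_le_left _ _)).trans hsub₁, fun y' hy' y'' hy'' => ?_⟩
    have hb : ∀ x ∈ ball y (min δ₁ (3 / 7 * δ₂)), x ∈ ball y δ₁ ∧
        T₁.toFun x ∈ ball (T₁.toFun y) δ₂ := by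
      intro x hx
      rw [mem_ball, dist_eq_norm, lt_min_iff] at hx
      have hx1 : x ∈ ball y δ₁ := by rw [mem_ball, dist_eq_norm]; exact hx.1
      refine ⟨hx1, ?_⟩
      rw [mem_ball, dist_eq_norm]
      have := h₁ x hx1 y (mem_ball_self hδ₁)
      linarith [hx.2]
    obtain ⟨a1, a2⟩ := hb y' hy'
    obtain ⟨b1, b2⟩ := hb y'' hy''
    have e1 := h₂ _ a2 _ b2
    have e2 := h₁ _ a1 _ b1
    show ‖T₂.toFun (T₁.toFun y') - T₂.toFun (T₁.toFun y'')‖ ≤ _
    nlinarith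
  · show T₂.toFun (T₁.toFun y) k = y k
    have e1 : T₁.toFun y = y := by rw [hT₁ i y hy, cmv_of_ge h]
    rw [e1, H₂.eq i y hy, ffc_apply, cmv_self]
    have hσ := W.pos i
    have hmi : ∀ n, fk (κ i) n ((σ i)⁻¹ • (y - z i)) k = ((σ i)⁻¹ • (y - z i)) k := by
      intro n
      cases n with
      | zero => rfl
      | succ n =>
        have hn : ‖(σ i)⁻¹ • (y - z i)‖ = ‖y - z i‖ / σ i := norm_inv_smul _ hσ
        have h5 : 1 / 2 ≤ ‖(σ i)⁻¹ • (y - z i)‖ := by
          rw [hn, le_div_iff₀ hσ]; linarith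
        rw [fk_succ_of_ge h5]
        refine tt_tan h5 ?_
        rw [hn, Pi.smul_apply, smul_eq_mul, abs_mul, abs_of_pos (inv_pos.2 hσ), Pi.sub_apply,
          inv_mul_le_iff₀ hσ]
        refine hk.trans (le_of_eq ?_)
        field_simp
    rw [Pi.add_apply, Pi.smul_apply, hmi, Pi.smul_apply, smul_eq_mul, smul_eq_mul, ← mul_assoc,
      mul_inv_cancel₀ hσ.ne', one_mul, Pi.sub_apply, sub_add_cancel]
  · have e1 : T₁.toFun y = y := by rw [hT₁ i y hy, cmv_of_ge h]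
    have e0 : (T₁.trans T₂).toFun y = T₂.toFun (T₁.toFun y) := rfl
    rw [e0, e1, H₂.eq i y hy, ffc_apply, cmv_self]
    have hσ := W.pos i
    set u := (σ i)⁻¹ • (y - z i) with hu
    have hmi : ∀ n, (0 ≤ u k → u k ≤ fk (κ i) n u k) ∧ (u k ≤ 0 → fk (κ i) n u k ≤ u k) := by
      intro n
      cases n with
      | zero => exact ⟨fun _ => le_rfl, fun _ => le_rfl⟩
      | succ n =>
        have hn : ‖u‖ = ‖y - z i‖ / σ i := norm_inv_smul _ hσ
        have h5 : 1 / 2 ≤ ‖u‖ := by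
          rw [hn, le_div_iff₀ hσ]; linarith
        rw [fk_succ_of_ge h5]
        exact tt_grow (hκ1 i) k
    have huk : σ i * u k = y k - z i k := by
      rw [hu, Pi.smul_apply, smul_eq_mul, ← mul_assoc, mul_inv_cancel₀ hσ.ne', one_mul,
        Pi.sub_apply]
    rw [Pi.add_apply, Pi.smul_apply, smul_eq_mul]
    constructor
    · intro h0
      have h1 : 0 ≤ u k := by rw [← huk] at h0; exact nonneg_of_mul_nonneg_right h0 hσ
      have h2 := mul_le_mul_of_nonneg_left ((hmi (m i)).1 h1) hσ.le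
      linarith
    · intro h0
      have h1 : u k ≤ 0 := by
        rw [← huk] at h0
        by_contra hn
        push Not at hn
        have := mul_pos hσ hn
        linarith
      have h2 := mul_le_mul_of_nonneg_left ((hmi (m i)).2 h1) hσ.le
      linarith
  · refine hsh i _ (hcl₁ i y hy) ?_
    have := hdist i y hy
    linarith

namespace IsExp

variable {T : ConHomeo Λ Λ}

/-- the map moves points inside their cubes only -/
theorem cmem (H : IsExp z c σ T) (W : Cubes Λ z σ) {i : ι} {y : V}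
    (hy : y ∈ closedBall (z i) (σ i)) :
    T.toFun y ∈ closedBall (z i) (σ i) ∧ T.invFun y ∈ closedBall (z i) (σ i) := by
  by_cases h : y ∈ ball (z i) (σ i)
  · exact ⟨ball_subset_closedBall (H.mem i y h).1, ball_subset_closedBall (H.mem i y h).2⟩
  · have h6 : ∀ j, y ∉ ball (z j) (σ j) := by
      intro j hj
      rcases eq_or_ne i j with rfl | hij
      · exact h hj
      · have h6 : y ∈ closure (ball (z i) (σ i)) := by
          rwa [closure_ball _ (W.pos i).ne']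
        obtain ⟨w, hw⟩ := mem_closure_iff.1 h6 _ isOpen_ball hj
        exact disjoint_left.1 (W.disj i j hij) hw.2 hw.1
    rw [(H.off y h6).1, (H.off y h6).2]
    exact ⟨hy, hy⟩

/-- Lipschitz estimate along a segment -/
theorem seg_lip (H : IsExp z c σ T) {y y' : V} (hy : segment ℝ y y' ⊆ Λ) {L : ℝ} (hL : 28 ≤ L)
    (hyL : ∀ x ∈ segment ℝ y y', ∀ i, x ∈ closedBall (z i) (σ i) → 56 * σ i < L * ‖x - c i‖) :
    ‖T.toFun y - T.toFun y'‖ ≤ L * ‖y - y'‖ := by
  have hseg : ∀ t ∈ Icc (0:ℝ) 1, y + t • (y' - y) ∈ segment ℝ y y' := fun t ht => by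
    rw [segment_eq_image']
    exact ⟨t, ht, rfl⟩
  have hcont : ContinuousOn (fun t : ℝ => T.toFun (y + t • (y' - y))) (Icc 0 1) :=
    T.cont.comp (by fun_prop) fun t ht => hy (hseg t ht)
  have key := norm_sub_le_of_right (L := L * ‖y' - y‖) zero_le_one hcont ?_
  · simp only [zero_smul, add_zero, one_smul, sub_zero, mul_one, add_sub_cancel] at key
    rw [norm_sub_rev, norm_sub_rev y y']
    exact key
  intro t ht
  have ht1 := hseg t ⟨ht.1, ht.2.le⟩
  obtain ⟨δ, hδ, -, hδL⟩ := H.lip _ (hy ht1) L hL (hyL _ ht1)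
  refine ⟨δ / 2 / (‖y' - y‖ + 1), by positivity, fun s hs _ => ?_⟩
  have h1 : y + (t + s) • (y' - y) - (y + t • (y' - y)) = s • (y' - y) := by module
  have h2 := hδL (y + (t + s) • (y' - y)) (by
    rw [mem_ball, dist_eq_norm, h1, norm_smul, Real.norm_of_nonneg hs.1]
    have h3 := hs.2
    rw [le_div_iff₀ (by positivity)] at h3
    nlinarith [norm_nonneg (y' - y), hs.1]) (y + t • (y' - y)) (mem_ball_self hδ)
  rw [h1, norm_smul, Real.norm_of_nonneg hs.1] at h2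
  linarith

/-- edge lengths (sup norm) -/
theorem var_le (H : IsExp z c σ T) {γ : ℝ → V} {a b : ℝ} (hab : a ≤ b)
    (hγ : ContinuousOn γ (Icc a b)) (hγΛ : ∀ t ∈ Icc a b, γ t ∈ Λ) {L : ℝ} (hL : 28 ≤ L)
    (hyL : ∀ t ∈ Icc a b, ∀ i, γ t ∈ closedBall (z i) (σ i) → 56 * σ i < L * ‖γ t - c i‖) :
    var (fun t => T.toFun (γ t)) (Icc a b) ≤ ENNReal.ofReal L * var γ (Icc a b) := by
  refine eVariationOn_le_of_local hab fun t ht => ?_
  obtain ⟨δ, hδ, -, hδL⟩ := H.lip _ (hγΛ t ht) L hL (hyL t ht)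
  obtain ⟨δ', hδ', hh⟩ := Metric.continuousWithinAt_iff.1 (hγ t ht) δ hδ
  refine ⟨δ', hδ', fun s hs s' hs' h1 h2 => ?_⟩
  rw [edist_dist, edist_dist, dist_eq_norm, dist_eq_norm, ← ENNReal.ofReal_mul (by linarith)]
  refine ENNReal.ofReal_le_ofReal (hδL _ ?_ _ ?_)
  · exact mem_ball.2 (hh hs (by rwa [Real.dist_eq]))
  · exact mem_ball.2 (hh hs' (by rwa [Real.dist_eq]))

/-- edge lengths (Euclidean) -/
theorem len_le (H : IsExp z c σ T) {γ : ℝ → V} {a b : ℝ} (hab : a ≤ b)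
    (hγ : ContinuousOn γ (Icc a b)) (hγΛ : ∀ t ∈ Icc a b, γ t ∈ Λ) {L : ℝ} (hL : 28 ≤ L)
    (hyL : ∀ t ∈ Icc a b, ∀ i, γ t ∈ closedBall (z i) (σ i) → 56 * σ i < L * ‖γ t - c i‖) :
    len (fun t => T.toFun (γ t)) (Icc a b) ≤ ENNReal.ofReal (2 * L) * len γ (Icc a b) := by
  refine (len_le_var _ _).trans ?_
  rw [ENNReal.ofReal_mul (by norm_num), mul_assoc, ENNReal.ofReal_ofNat]
  gcongr
  refine (H.var_le hab hγ hγΛ hL hyL).trans ?_
  gcongr
  exact var_le_len _ _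

end IsExp

end Vale.Agent.P073.H471
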