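import Vale.Agent.P073.H73.K2A
import Vale.Agent.P073.H471.Exp
import Vale.Agent.P073.KW720.Tiles
import Vale.Agent.P073.TM907.Basic

/-!
# P073, block [K2A ⇐ K2C], part 1: the tiles as a family of cubes, stages on the tiles
-/

open Set Metric Topology Filter MeasureTheory
open scoped ENNReal

namespace Vale.Agent.P073.H471

open _root_.P073 _root_.P073.Net
open Vale.Agent.P073.St (V)
open Vale.Agent.P073.H73

variable {Λ : Set V} {ρ : V → ℝ} {w : V}

/-- the tiles -/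
abbrev TI (ρ : V → ℝ) (w : V) : Type := {p : ℕ × (Fin 3 → ℤ) // IsTile ρ w p.1 p.2}

/-- the centre of a tile -/
noncomputable def zt (ρ : V → ℝ) (w : V) (i : TI ρ w) : V := H73.ctr w i.1.1 i.1.2

/-- half of the side of a tile -/
noncomputable def st (ρ : V → ℝ) (w : V) (i : TI ρ w) : ℝ := 1 / 2 / 2 ^ i.1.1

theorem dyc_eq_closedBall (w : V) (m : ℕ) (z : Fin 3 → ℤ) :
    dyc w m z = closedBall (H73.ctr w m z) (1 / 2 / 2 ^ m) := by
  have hm : (0:ℝ) < 2 ^ m := by positivity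
  ext x
  rw [mem_closedBall, dist_pi_le_iff (by positivity)]
  refine forall_congr' fun k => ?_
  rw [Real.dist_eq, abs_le]
  have e1 : H73.ctr w m z k = w k + z k / 2 ^ m + 1 / 2 / 2 ^ m := by rw [H73.ctr]; ring
  have e2 : w k + (z k + 1) / 2 ^ m = w k + z k / 2 ^ m + 1 / 2 / 2 ^ m + 1 / 2 / 2 ^ m := by
    ring
  rw [e1, e2]
  constructor
  · rintro ⟨h1, h2⟩; constructor <;> linarith
  · rintro ⟨h1, h2⟩; constructor <;> linarith

theorem dyo_eq_ball (w : V) (m : ℕ) (z : Fin 3 → ℤ) :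
    dyo w m z = ball (H73.ctr w m z) (1 / 2 / 2 ^ m) := by
  have hm : (0:ℝ) < 2 ^ m := by positivity
  ext x
  rw [mem_ball, dist_pi_lt_iff (by positivity)]
  refine forall_congr' fun k => ?_
  rw [Real.dist_eq, abs_lt]
  have e1 : H73.ctr w m z k = w k + z k / 2 ^ m + 1 / 2 / 2 ^ m := by rw [H73.ctr]; ring
  have e2 : w k + (z k + 1) / 2 ^ m = w k + z k / 2 ^ m + 1 / 2 / 2 ^ m + 1 / 2 / 2 ^ m := by
    ring
  rw [e1, e2]
  constructor
  · rintro ⟨h1, h2⟩; constructor <;> linarith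
  · rintro ⟨h1, h2⟩; constructor <;> linarith

theorem cB_eq (i : TI ρ w) : closedBall (zt ρ w i) (st ρ w i) = dyc w i.1.1 i.1.2 :=
  (dyc_eq_closedBall _ _ _).symm

theorem B_eq (i : TI ρ w) : ball (zt ρ w i) (st ρ w i) = dyo w i.1.1 i.1.2 :=
  (dyo_eq_ball _ _ _).symm

theorem st_pos (i : TI ρ w) : 0 < st ρ w i := by unfold st; positivity

/-- the tiles are a family of cubes -/
theorem cubes_tiles (hρ : SizeFn Λ ρ) (w : V) : Cubes Λ (zt ρ w) (st ρ w) where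
  pos := st_pos
  sub i := by rw [cB_eq]; exact KW.tile_subset hρ i.2
  disj i j hij := by
    rw [B_eq, B_eq]
    refine (KW.disjoint_dyo_dyc i.2 j.2 fun h => hij (Subtype.ext h)).mono_right ?_
    exact KW.dyo_subset_dyc _ _ _
  fin y hy := by
    obtain ⟨r, hr, hsub⟩ := Metric.nhds_basis_closedBall.mem_iff.1 ((TM.isOpen_Λ hρ).mem_nhds hy)
    refine ⟨closedBall y r, closedBall_mem_nhds _ hr, ?_⟩
    have hfin := NC.finite hρ w hsub (isCompact_closedBall y r)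
    refine Set.Finite.subset (hfin.preimage (f := (Subtype.val : TI ρ w → _))
      Subtype.val_injective.injOn) fun i hi => ?_
    refine ⟨i.2, ?_⟩
    rw [← cB_eq]
    exact hi

/-- a point which is in no open tile -/
theorem notMem_of_closed {i : TI ρ w} {y : V} (h : y ∈ dyc w i.1.1 i.1.2)
    (h' : y ∉ dyo w i.1.1 i.1.2) (j : TI ρ w) : y ∉ ball (zt ρ w j) (st ρ w j) := by
  rw [B_eq]
  by_cases hij : j = i
  · subst hij; exact h'
  · intro hy
    exact (KW.disjoint_dyo_dyc j.2 i.2 fun hc => hij (Subtype.ext hc)).notMem_of_mem_left hy h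

namespace IsExp

variable {c : TI ρ w → V} {T : ConHomeo Λ Λ}

/-- the stage maps every tile into itself -/
theorem t_mem (H : IsExp (zt ρ w) c (st ρ w) T) (W : Cubes Λ (zt ρ w) (st ρ w)) {i : TI ρ w} {y : V}
    (hy : y ∈ dyc w i.1.1 i.1.2) : T.toFun y ∈ dyc w i.1.1 i.1.2 := by
  rw [← cB_eq] at hy ⊢
  exact (H.cmem W hy).1

theorem t_inv_mem (H : IsExp (zt ρ w) c (st ρ w) T) (W : Cubes Λ (zt ρ w) (st ρ w)) {i : TI ρ w}
    {y : V} (hy : y ∈ dyc w i.1.1 i.1.2) : T.invFun y ∈ dyc w i.1.1 i.1.2 := by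
  rw [← cB_eq] at hy ⊢
  exact (H.cmem W hy).2

theorem t_mem_iff (H : IsExp (zt ρ w) c (st ρ w) T) (W : Cubes Λ (zt ρ w) (st ρ w)) {i : TI ρ w}
    {y : V} (hyΛ : y ∈ Λ) : T.toFun y ∈ dyc w i.1.1 i.1.2 ↔ y ∈ dyc w i.1.1 i.1.2 := by
  refine ⟨fun h => ?_, H.t_mem W⟩
  have := H.t_inv_mem W h
  rwa [T.left_inv hyΛ] at this

/-- a union of tiles is preserved -/
theorem t_union (H : IsExp (zt ρ w) c (st ρ w) T) (W : Cubes Λ (zt ρ w) (st ρ w)) {B : Set V}
    (hB : B ⊆ Λ)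
    (hBt : ∀ i : TI ρ w, dyc w i.1.1 i.1.2 ⊆ B ∨ Disjoint (dyo w i.1.1 i.1.2) B) :
    T.toFun '' B = B := by
  have key : ∀ y ∈ B, T.toFun y ∈ B ∧ T.invFun y ∈ B := by
    intro y hy
    by_cases h : ∃ i : TI ρ w, y ∈ dyo w i.1.1 i.1.2
    · obtain ⟨i, hi⟩ := h
      have hsub : dyc w i.1.1 i.1.2 ⊆ B := by
        rcases hBt i with h1 | h1
        · exact h1
        · exact absurd hy (h1.notMem_of_mem_left hi)
      exact ⟨hsub (H.t_mem W (KW.dyo_subset_dyc _ _ _ hi)),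
        hsub (H.t_inv_mem W (KW.dyo_subset_dyc _ _ _ hi))⟩
    · push Not at h
      have := H.off y fun i => by rw [B_eq]; exact h i
      rw [this.1, this.2]
      exact ⟨hy, hy⟩
  refine Subset.antisymm ?_ fun y hy => ⟨T.invFun y, (key y hy).2, T.right_inv (hB hy)⟩
  rintro _ ⟨y, hy, rfl⟩
  exact (key y hy).1

end IsExp

/-! ### comparison of the sizes -/

/-- a point near a tile is in `Λ` -/
theorem mem_of_near (hρ : SizeFn Λ ρ) {i : TI ρ w} {p x : V} (hp : p ∈ dyc w i.1.1 i.1.2)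
    (hx : ‖p - x‖ < 1 / 2 ^ i.1.1) : x ∈ Λ := by
  by_contra hcon
  have h1 := i.2.1 p hp
  have h2 := hρ.off x hcon
  have h3 := hρ.lip p x
  linarith

/-- the size of a tile near another tile -/
theorem size_of_near (hρ : SizeFn Λ ρ) {i j : TI ρ w} {p x : V} (hp : p ∈ dyc w i.1.1 i.1.2)
    (hx : x ∈ dyc w j.1.1 j.1.2) {t : ℝ} (ht : t ≤ 1 / 64)
    (hxp : ‖p - x‖ ≤ t / 2 ^ i.1.1) : 1 / 2 ^ i.1.1 ≤ 10 * st ρ w j := by
  have h1 := i.2.1 p hp
  have h2 := NC.upper hρ j.2 hx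
  have h3 := hρ.lip p x
  have hm : (0:ℝ) < 1 / 2 ^ i.1.1 := by positivity
  have e1 : t / 2 ^ i.1.1 = t * (1 / 2 ^ i.1.1) := by ring
  have e2 : (4:ℝ) / 2 ^ j.1.1 = 8 * st ρ w j := by rw [st]; ring
  rw [e1] at hxp
  rw [e2] at h2
  nlinarith

end Vale.Agent.P073.H471
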