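import Vale.Agent.P073.H471.Grid

/-!
# P073, block KILL: the collapse of a neighbourhood of the two-skeleton of a box complex
-/

open Set Metric Topology Filter

namespace Vale.Agent.P073.H471

open _root_.P073 _root_.P073.Net _root_.P073.PA691
open _root_.P073.PR720 (LF)
open Vale.Agent.P073.St (V)

variable {Λ : Set V} {v : V} {K : BoxCx Λ v} {S : Rad K} {W : Wid K S} {y y' z : V}

/-- a collapse moves a coordinate towards the centre -/
theorem collF_between {J : Finset (Fin 3)} {c : V} {a : V → ℝ} {ρ : ℝ} (hρ : 0 < ρ) (hρ1 : ρ ≤ 1)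
    {lo hi : ℝ} {k : Fin 3} (hc : k ∈ J → lo ≤ c k ∧ c k ≤ hi) (hy : lo ≤ y k ∧ y k ≤ hi) :
    lo ≤ collF J c a ρ y k ∧ collF J c a ρ y k ≤ hi := by
  by_cases hk : k ∈ J
  · obtain ⟨h1, h2⟩ := abs_collF_sub_le (c := c) (a := a) (y := y) hρ hρ1 hk
    have hc := hc hk
    rcases le_total 0 (y k - c k) with h | h
    · rcases h.eq_or_lt with h3 | h3
      · rw [← h3, abs_zero] at h1
        have h4 := abs_nonpos_iff.1 h1
        constructor <;> linarith
      · have h4 := nonneg_of_mul_nonneg_left h2 h3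
        rw [abs_of_nonneg h4, abs_of_pos h3] at h1
        constructor <;> linarith
    · rcases h.eq_or_lt with h3 | h3
      · rw [h3, abs_zero] at h1
        have h4 := abs_nonpos_iff.1 h1
        constructor <;> linarith
      · have h4 : collF J c a ρ y k - c k ≤ 0 := by
          by_contra hcon
          push Not at hcon
          nlinarith
        rw [abs_of_nonpos h4, abs_of_neg h3] at h1
        constructor <;> linarith
  · rw [collF_off hk]; exact hy

/-- tiles and the supports -/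
theorem tile_of_ss {s : K.S} {p : K.T} (h : y ∈ W.ss s) (hp : y ∈ K.cube p) :
    K.sq s ⊆ K.cube p := by
  rcases (near_self h).tile hp with rfl | rfl
  · exact (TM.sq_subset K s).1
  · exact (TM.sq_subset K s).2

theorem tile_of_sv {i : K.W} {p : K.T} (h : y ∈ W.sv i) (hp : y ∈ K.cube p) :
    K.w i ∈ K.cube p := S.U_tile i p y (sv_subset i h) hp

/-- reduction factors -/
structure Fac (K : BoxCx Λ v) where
  ρs : K.S → ℝ
  ρe : K.G → ℝ
  ρv : K.W → ℝ
  s_pos : ∀ s, 0 < ρs s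
  e_pos : ∀ e, 0 < ρe e
  v_pos : ∀ i, 0 < ρv i
  s_le : ∀ s, ρs s ≤ 1
  e_le : ∀ e, ρe e ≤ 1
  v_le : ∀ i, ρv i ≤ 1

theorem finite_squares (K : BoxCx Λ v) (p : K.T) : {s | K.sm s = p ∨ K.sp s = p}.Finite := by
  refine (TM.lf_finite K.lfS (C := K.cube p) isCompact_Icc (K.sub p)).subset ?_
  intro s hs
  refine ⟨K.slo s, slo_mem s, ?_⟩
  rcases hs with rfl | rfl
  · exact (TM.sq_subset K s).1 (slo_mem s)
  · exact (TM.sq_subset K s).2 (slo_mem s)

theorem lf_ss (W : Wid K S) : ∀ z ∈ Λ, ∃ U ∈ 𝓝 z, {s | (W.ss s ∩ U).Nonempty}.Finite := by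
  intro z hz
  obtain ⟨U, hU, hfin⟩ := K.lfT z hz
  refine ⟨U, hU, (hfin.biUnion fun p _ => finite_squares K p).subset ?_⟩
  rintro s ⟨x, hx, hxU⟩
  rw [mem_iUnion₂]
  rcases (near_self hx).mem with h | h
  · exact ⟨K.sm s, ⟨x, h, hxU⟩, Or.inl rfl⟩
  · exact ⟨K.sp s, ⟨x, h, hxU⟩, Or.inr rfl⟩

theorem exists_K2 (hΛ : IsOpen Λ) (W : Wid K S) (F : Fac K) : ∃ Φ : ConHomeo Λ Λ,
    (∀ s, ∀ y ∈ W.ss s, Φ.toFun y = collF {K.nrm s} (K.slo s) (W.as s) (F.ρs s) y) ∧
    (∀ y, (∀ s, y ∉ W.ss s) → Φ.toFun y = y) ∧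
    (∀ y y', ‖Φ.toFun y - Φ.toFun y'‖ ≤ 5 / 2 * ‖y - y'‖) :=
  exists_collapse hΛ (fun s => {K.nrm s}) (fun s => K.slo s) (fun s => W.as s) F.ρs
    F.s_pos F.s_le (fun _ => width_marg) (fun _ _ _ => abs_marg_sub_le) ss_subset
    (lf_ss W) (fun _ _ h => disjoint_ss h)

theorem exists_K1 (hΛ : IsOpen Λ) (W : Wid K S) (F : Fac K) : ∃ Φ : ConHomeo Λ Λ,
    (∀ e, ∀ y ∈ W.se e, Φ.toFun y = collF (Wid.Je K e) (K.w (K.a e)) (W.ae e) (F.ρe e) y) ∧
    (∀ y, (∀ e, y ∉ W.se e) → Φ.toFun y = y) ∧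
    (∀ y y', ‖Φ.toFun y - Φ.toFun y'‖ ≤ 5 / 2 * ‖y - y'‖) := by
  refine exists_collapse hΛ (fun e => Wid.Je K e) (fun e => K.w (K.a e)) (fun e => W.ae e) F.ρe
    F.e_pos F.e_le (fun _ => width_marg) (fun _ _ _ => abs_marg_sub_le)
    (fun e => (se_subset e).trans (S.tube_sub e)) ?_ (fun _ _ h => disjoint_se h)
  intro z hz
  obtain ⟨U, hU, hfin⟩ := S.lfTube z hz
  exact ⟨U, hU, hfin.subset fun e he => he.mono (inter_subset_inter_left _ (se_subset e))⟩

theorem width_const {J : Finset (Fin 3)} {w : ℝ} (hw : 0 ≤ w) : Width J (fun _ : V => w) where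
  nonneg := fun _ => hw
  indep := fun _ _ _ => rfl
  cont := continuous_const
  conical := conicalOn_const _ (IsOpen.conicalSet isOpen_univ)

theorem exists_K0 (hΛ : IsOpen Λ) (W : Wid K S) (F : Fac K) : ∃ Φ : ConHomeo Λ Λ,
    (∀ i, ∀ y ∈ W.sv i, Φ.toFun y = collF Finset.univ (K.w i) (fun _ => W.wv i) (F.ρv i) y) ∧
    (∀ y, (∀ i, y ∉ W.sv i) → Φ.toFun y = y) ∧
    (∀ y y', ‖Φ.toFun y - Φ.toFun y'‖ ≤ 5 / 2 * ‖y - y'‖) := by
  refine exists_collapse hΛ (fun _ => Finset.univ) (fun i => K.w i) (fun i _ => W.wv i) F.ρv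
    F.v_pos F.v_le (fun i => width_const (W.wv_pos i).le)
    (fun _ _ _ => by rw [sub_self, abs_zero]; positivity)
    (fun i => (sv_subset i).trans (S.U_sub i)) ?_ (fun _ _ h => disjoint_sv h)
  intro z hz
  obtain ⟨U, hU, hfin⟩ := S.lfU z hz
  exact ⟨U, hU, hfin.subset fun e he => he.mono (inter_subset_inter_left _ (sv_subset e))⟩

/-- zone of a square -/
def Zs (W : Wid K S) (s : K.S) : Set V :=
  {y | 0 < W.as s y ∧ |y (K.nrm s) - K.slo s (K.nrm s)| ≤ W.as s y}

/-- zone of an edge -/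
def Ze (W : Wid K S) (e : K.G) : Set V :=
  {y | 0 < W.ae e y ∧ ∀ k, k ≠ K.dir e → |y k - K.w (K.a e) k| ≤ W.ae e y}

/-- zone of a vertex -/
def Zv (W : Wid K S) (i : K.W) : Set V := closedBall (K.w i) (W.wv i)

theorem Zs_nJ {s : K.S} (h : y ∈ Zs W s) : nJ {K.nrm s} (K.slo s) y ≤ W.as s y :=
  (nJ_le_iff h.1.le).2 fun k hk => by rw [Finset.mem_singleton.1 hk]; exact h.2

theorem Zs_subset {s : K.S} : Zs W s ⊆ W.ss s := fun y h => by
  have := Zs_nJ h
  show nJ {K.nrm s} (K.slo s) y < 2 * W.as s y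
  linarith [h.1]

theorem Ze_nJ {e : K.G} (h : y ∈ Ze W e) : nJ (Wid.Je K e) (K.w (K.a e)) y ≤ W.ae e y :=
  (nJ_le_iff h.1.le).2 fun k hk => h.2 k (mem_Je.1 hk)

theorem Ze_subset {e : K.G} : Ze W e ⊆ W.se e := fun y h => by
  have := Ze_nJ h
  show nJ (Wid.Je K e) (K.w (K.a e)) y < 2 * W.ae e y
  linarith [h.1]

theorem Zv_nJ {i : K.W} (h : y ∈ Zv W i) : nJ Finset.univ (K.w i) y ≤ W.wv i := by
  rw [nJ_le_iff (W.wv_pos i).le]
  intro k _
  have h1 := norm_le_pi_norm (y - K.w i) k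
  rw [Pi.sub_apply, Real.norm_eq_abs] at h1
  have h2 := mem_closedBall.1 h
  rw [dist_eq_norm] at h2
  exact h1.trans h2

theorem Zv_subset {i : K.W} : Zv W i ⊆ W.sv i := fun y h => by
  have := Zv_nJ h
  show nJ Finset.univ (K.w i) y < 2 * W.wv i
  linarith [W.wv_pos i]

/-- the collapse of the coordinate normal to the square `s` -/
noncomputable def down (K : BoxCx Λ v) (F : Fac K) (s : K.S) (y : V) : V :=
  Function.update y (K.nrm s)
    (K.slo s (K.nrm s) + F.ρs s * (y (K.nrm s) - K.slo s (K.nrm s)))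

/-- the collapse of a family of neighbourhoods -/
structure IsKill (W : Wid K S) (F : Fac K) (Φ : ConHomeo Λ Λ) : Prop where
  cube : ∀ p, Φ.toFun '' K.cube p = K.cube p
  sq : ∀ s, Φ.toFun '' K.sq s = K.sq s
  edge : ∀ e, Φ.toFun '' K.edge e = K.edge e
  vert : ∀ i, Φ.toFun (K.w i) = K.w i
  lip : ∀ y y', ‖Φ.toFun y - Φ.toFun y'‖ ≤ 16 * ‖y - y'‖
  zs : ∀ s, ∀ y ∈ Zs W s, ∀ y' ∈ Zs W s, ∀ L, (∀ k, k ≠ K.nrm s → |y k - y' k| ≤ L) →
    F.ρs s * ‖y - y'‖ ≤ L → ‖Φ.toFun y - Φ.toFun y'‖ ≤ 7 * L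
  ze : ∀ e, ∀ y ∈ Ze W e, ∀ y' ∈ Ze W e, ∀ L, |y (K.dir e) - y' (K.dir e)| ≤ L →
    F.ρe e * ‖y - y'‖ ≤ L → ‖Φ.toFun y - Φ.toFun y'‖ ≤ 7 * L
  zv : ∀ i, ∀ y ∈ Zv W i, ∀ y' ∈ Zv W i, ‖Φ.toFun y - Φ.toFun y'‖ ≤
    7 * (F.ρv i * ‖y - y'‖)
  fix : ∀ y, (∀ s, y ∈ W.ss s → y (K.nrm s) = K.slo s (K.nrm s)) → (∀ e, y ∉ W.se e) →
    (∀ i, y ∉ W.sv i) → Φ.toFun y = y
  tans : ∀ s, ∀ y ∈ Zs W s, (∀ e, down K F s y ∉ W.se e) → (∀ i, down K F s y ∉ W.sv i) →
    Φ.toFun y = down K F s y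
  tane : ∀ e, ∀ y ∈ Ze W e, (∀ y' : V, y' (K.dir e) = y (K.dir e) → y' ∈ Ze W e →
    ∀ i, y' ∉ W.sv i) → Φ.toFun y (K.dir e) = y (K.dir e)
  tane2 : ∀ e, ∀ y ∈ Ze W e, ∀ z ∈ Ze W e, (∀ y' : V, y' (K.dir e) = y (K.dir e) →
    y' ∈ Ze W e → ∀ i, y' ∉ W.sv i) → (∀ y' : V, y' (K.dir e) = z (K.dir e) →
    y' ∈ Ze W e → ∀ i, y' ∉ W.sv i) → ∀ k, k ≠ K.dir e →
    |Φ.toFun y k - Φ.toFun z k| ≤ 5 / 2 * (F.ρe e * ‖y - z‖)

/-- a homeomorphism which maps every tile into itself maps every tile onto itself -/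
theorem image_cube {Φ : ConHomeo Λ Λ} (h : ∀ p, ∀ y ∈ K.cube p, Φ.toFun y ∈ K.cube p) (p : K.T) :
    Φ.toFun '' K.cube p = K.cube p := by
  refine Subset.antisymm (by rintro _ ⟨y, hy, rfl⟩; exact h p y hy) ?_
  have hcomp : IsCompact (Φ.toFun '' K.cube p) :=
    isCompact_Icc.image_of_continuousOn (Φ.cont.mono (K.sub p))
  have hint : {z : V | ∀ k, K.lo p k < z k ∧ z k < K.hi p k} ⊆ Φ.toFun '' K.cube p := by
    intro z hz
    have hzΛ : z ∈ Λ := K.sub p ⟨fun k => (hz k).1.le, fun k => (hz k).2.le⟩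
    obtain ⟨q, hq⟩ := K.cover _ (Φ.mapsTo_inv hzΛ)
    have e1 : Φ.toFun (Φ.invFun z) = z := Φ.right_inv hzΛ
    have h1 := h q _ hq
    rw [e1] at h1
    have hpq : p = q := by
      by_contra hne
      exact K.dis p q hne z hz h1
    subst hpq
    exact ⟨_, hq, e1⟩
  have hcl := closure_minimal hint hcomp.isClosed
  refine Subset.trans ?_ hcl
  rw [← TM.interior_Icc3, TM.closure_interior_Icc3 (K.lt p)]
  exact Subset.rfl

theorem exists_kill (hΛ : IsOpen Λ) (W : Wid K S) (F : Fac K) : ∃ Φ : ConHomeo Λ Λ,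
    IsKill W F Φ := by
  obtain ⟨Φ2, a2, b2, l2⟩ := exists_K2 hΛ W F
  obtain ⟨Φ1, a1, b1, l1⟩ := exists_K1 hΛ W F
  obtain ⟨Φ0, a0, b0, l0⟩ := exists_K0 hΛ W F
  -- tiles
  have t2 : ∀ p, ∀ y ∈ K.cube p, Φ2.toFun y ∈ K.cube p := by
    intro p y hy
    by_cases h : ∃ s, y ∈ W.ss s
    · obtain ⟨s, hs⟩ := h
      rw [a2 s y hs]
      have h1 := tile_of_ss hs hy (slo_mem s)
      have key := fun k => collF_between (J := {K.nrm s}) (c := K.slo s) (a := W.as s) (k := k)
        (F.s_pos s) (F.s_le s) (fun _ => ⟨h1.1 k, h1.2 k⟩) ⟨hy.1 k, hy.2 k⟩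
      exact ⟨fun k => (key k).1, fun k => (key k).2⟩
    · push Not at h
      rw [b2 y h]; exact hy
  have t1 : ∀ p, ∀ y ∈ K.cube p, Φ1.toFun y ∈ K.cube p := by
    intro p y hy
    by_cases h : ∃ e, y ∈ W.se e
    · obtain ⟨e, he⟩ := h
      rw [a1 e y he]
      have h1 := (inTube_of_se he).tile hy (TM.wa_mem K e)
      have key := fun k => collF_between (J := Wid.Je K e) (c := K.w (K.a e)) (a := W.ae e) (k := k)
        (F.e_pos e) (F.e_le e) (fun _ => ⟨h1.1 k, h1.2 k⟩) ⟨hy.1 k, hy.2 k⟩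
      exact ⟨fun k => (key k).1, fun k => (key k).2⟩
    · push Not at h
      rw [b1 y h]; exact hy
  have t0 : ∀ p, ∀ y ∈ K.cube p, Φ0.toFun y ∈ K.cube p := by
    intro p y hy
    by_cases h : ∃ i, y ∈ W.sv i
    · obtain ⟨i, hi⟩ := h
      rw [a0 i y hi]
      have h1 := tile_of_sv hi hy
      have key := fun k => collF_between (J := Finset.univ) (c := K.w i) (a := fun _ => W.wv i)
        (k := k) (F.v_pos i) (F.v_le i) (fun _ => ⟨h1.1 k, h1.2 k⟩) ⟨hy.1 k, hy.2 k⟩
      exact ⟨fun k => (key k).1, fun k => (key k).2⟩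
    · push Not at h
      rw [b0 y h]; exact hy
  have e2 : ∀ e, ∀ y ∈ K.edge e, Φ2.toFun y = y := fun e y hy =>
    b2 y fun s => edge_notMem_ss hy
  have e1 : ∀ e, ∀ y ∈ K.edge e, Φ1.toFun y = y := by
    intro e y hy
    by_cases h : ∃ e', y ∈ W.se e'
    · obtain ⟨e', he'⟩ := h
      have hee : e = e' := by
        by_contra hne
        exact edge_notMem_se hne hy he'
      subst hee
      rw [a1 e y he']
      funext k
      by_cases hk : k ∈ Wid.Je K e
      · have hn : nJ (Wid.Je K e) (K.w (K.a e)) y = 0 := by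
          refine le_antisymm ((nJ_le_iff le_rfl).2 fun k hk => ?_) nJ_nonneg
          rw [edge_coord hy (mem_Je.1 hk), sub_self, abs_zero]
        rw [collF_of_le (by rw [hn]; exact marg_nonneg) hk, edge_coord hy (mem_Je.1 hk)]
        ring
      · rw [collF_off hk]
    · push Not at h
      exact b1 y h
  have w0 : ∀ i, Φ0.toFun (K.w i) = K.w i := by
    intro i
    by_cases h : ∃ j, K.w i ∈ W.sv j
    · obtain ⟨j, hj⟩ := h
      have hij : i = j := by
        by_contra hne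
        refine (disjoint_sv (W := W) hne).notMem_of_mem_left (mem_sv.2 ?_) hj
        rw [sub_self, norm_zero]
        linarith [W.wv_pos i]
      subst hij
      rw [a0 i _ hj]
      funext k
      have hn : nJ Finset.univ (K.w i) (K.w i) = 0 := by
        refine le_antisymm ((nJ_le_iff le_rfl).2 fun k hk => ?_) nJ_nonneg
        rw [sub_self, abs_zero]
      rw [collF_of_le (by rw [hn]; exact (W.wv_pos i).le) (Finset.mem_univ k)]
      ring
    · push Not at h
      exact b0 _ h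
  have e0 : ∀ e, ∀ y ∈ K.edge e, Φ0.toFun y ∈ K.edge e := by
    intro e y hy
    by_cases h : ∃ i, y ∈ W.sv i
    · obtain ⟨i, hi⟩ := h
      have hie : i = K.a e ∨ i = K.b e :=
        S.U_edge i e y (sv_subset i hi) (TM.edge_subset_nb (by linarith [S.q_pos e]) hy)
      have h1 : K.w i ∈ K.edge e := by
        rcases hie with rfl | rfl
        · exact TM.wa_mem K e
        · exact TM.wb_mem K e
      rw [a0 i y hi]
      have key := fun k => collF_between (J := Finset.univ) (c := K.w i) (a := fun _ => W.wv i)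
        (k := k) (F.v_pos i) (F.v_le i) (fun _ => ⟨h1.1 k, h1.2 k⟩) ⟨hy.1 k, hy.2 k⟩
      exact ⟨fun k => (key k).1, fun k => (key k).2⟩
    · push Not at h
      rw [b0 y h]; exact hy
  set Φ : ConHomeo Λ Λ := (Φ2.trans Φ1).trans Φ0 with hΦ
  have hval : ∀ y, Φ.toFun y = Φ0.toFun (Φ1.toFun (Φ2.toFun y)) := fun y => rfl
  have tt : ∀ p, ∀ y ∈ K.cube p, Φ.toFun y ∈ K.cube p := fun p y hy =>
    t0 p _ (t1 p _ (t2 p y hy))
  have hcube := image_cube tt
  have hedge : ∀ e, ∀ y ∈ K.edge e, Φ.toFun y = Φ0.toFun y := fun e y hy => by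
    rw [hval, e2 e y hy, e1 e y hy]
  have hwe : ∀ i, ∃ e, K.w i ∈ K.edge e := by
    intro i
    obtain ⟨e, he | he⟩ := K.w_edge i
    · exact ⟨e, by rw [he]; exact TM.wa_mem K e⟩
    · exact ⟨e, by rw [he]; exact TM.wb_mem K e⟩
  have hvert : ∀ i, Φ.toFun (K.w i) = K.w i := by
    intro i
    obtain ⟨e, he⟩ := hwe i
    rw [hedge e _ he, w0]
  have keyE : ∀ e, ∀ y ∈ Ze W e, Φ2.toFun y (K.dir e) = y (K.dir e) ∧ Φ2.toFun y ∈ Ze W e := by
    intro e y hy
    by_cases h : ∃ s, y ∈ W.ss s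
    · obtain ⟨s, hs⟩ := h
      have hes := edge_subset_sq hs hy.1 (Ze_nJ hy)
      have hnd := nrm_ne_dir hes
      have hc : K.slo s (K.nrm s) = K.w (K.a e) (K.nrm s) :=
        (TM.nrm_eq (hes (TM.wa_mem K e))).symm
      have hd : Φ2.toFun y (K.dir e) = y (K.dir e) := by
        rw [a2 s y hs, collF_off (by simpa using hnd.symm)]
      have ha : W.ae e (Φ2.toFun y) = W.ae e y :=
        (width_marg).indep _ _ fun k hk => by
          have : k = K.dir e := by by_contra h; exact hk (mem_Je.2 h)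
          rw [this, hd]
      refine ⟨hd, by rw [ha]; exact hy.1, fun k hk => ?_⟩
      rw [ha]
      by_cases hkn : k = K.nrm s
      · subst hkn
        rw [a2 s y hs, ← hc]
        refine (abs_collF_sub_le (F.s_pos s) (F.s_le s) (Finset.mem_singleton_self _)).1.trans ?_
        rw [hc]
        exact hy.2 _ hk
      · rw [a2 s y hs, collF_off (by simpa using hkn)]
        exact hy.2 k hk
    · push Not at h
      rw [b2 y h]
      exact ⟨rfl, hy⟩
  have keyE1 : ∀ e, ∀ y ∈ Ze W e, Φ1.toFun (Φ2.toFun y) (K.dir e) = y (K.dir e) ∧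
      Φ1.toFun (Φ2.toFun y) ∈ Ze W e := by
    intro e y hy
    obtain ⟨hd, hz⟩ := keyE e y hy
    have e1 : Φ1.toFun (Φ2.toFun y) (K.dir e) = y (K.dir e) := by
      rw [a1 e _ (Ze_subset hz), collF_off notMem_Je, hd]
    have ha : W.ae e (Φ1.toFun (Φ2.toFun y)) = W.ae e (Φ2.toFun y) :=
      (width_marg).indep _ _ fun k hk => by
        have : k = K.dir e := by by_contra h; exact hk (mem_Je.2 h)
        rw [this, e1, hd]
    refine ⟨e1, by rw [ha]; exact hz.1, fun k hk => ?_⟩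
    rw [ha, a1 e _ (Ze_subset hz)]
    exact (abs_collF_sub_le (F.e_pos e) (F.e_le e) (mem_Je.2 hk)).1.trans (hz.2 k hk)
  refine ⟨Φ, hcube, ?_, ?_, hvert, ?_, ?_, ?_, ?_, ?_, ?_, ?_, ?_⟩
  · -- squares
    intro s
    have hinj : InjOn Φ.toFun (K.cube (K.sm s) ∪ K.cube (K.sp s)) :=
      Φ.left_inv.injOn.mono (union_subset (K.sub _) (K.sub _))
    have e : K.sq s = K.cube (K.sm s) ∩ K.cube (K.sp s) := K.s_eq s
    rw [e, hinj.image_inter subset_union_left subset_union_right, hcube, hcube]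
  · -- edges
    intro e
    have hsub : Φ.toFun '' K.edge e ⊆ K.edge e := by
      rintro _ ⟨y, hy, rfl⟩
      rw [hedge e y hy]
      exact e0 e y hy
    refine Subset.antisymm hsub ?_
    have hconn : IsPreconnected (Φ.toFun '' K.edge e) := by
      refine (convex_Icc _ _).isPreconnected.image _ (Φ.cont.mono ?_)
      obtain ⟨p, hp⟩ := K.edge_in e
      exact Subset.trans hp (K.sub p)
    have hconn2 : IsPreconnected ((fun x : V => x (K.dir e)) '' (Φ.toFun '' K.edge e)) :=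
      hconn.image _ (continuous_apply _).continuousOn
    intro z hz
    have h1 : K.w (K.a e) (K.dir e) ∈ (fun x : V => x (K.dir e)) '' (Φ.toFun '' K.edge e) :=
      ⟨_, ⟨_, TM.wa_mem K e, hvert _⟩, rfl⟩
    have h2 : K.w (K.b e) (K.dir e) ∈ (fun x : V => x (K.dir e)) '' (Φ.toFun '' K.edge e) :=
      ⟨_, ⟨_, TM.wb_mem K e, hvert _⟩, rfl⟩
    obtain ⟨x, hx, hxz⟩ := hconn2.Icc_subset h1 h2 ⟨hz.1 (K.dir e), hz.2 (K.dir e)⟩
    have hxe := hsub hx
    have : x = z := by
      funext k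
      by_cases hk : k = K.dir e
      · subst hk; exact hxz
      · rw [edge_coord hxe hk, edge_coord hz hk]
    rw [← this]; exact hx
  · -- Lipschitz
    intro y y'
    have h1 := l2 y y'
    have h2 := l1 (Φ2.toFun y) (Φ2.toFun y')
    have h3 := l0 (Φ1.toFun (Φ2.toFun y)) (Φ1.toFun (Φ2.toFun y'))
    rw [hval, hval]
    have h4 := norm_nonneg (y - y')
    linarith
  · -- squares
    intro s y hy y' hy' L hL hL'
    have h2 := l1 (Φ2.toFun y) (Φ2.toFun y')
    have h3 := l0 (Φ1.toFun (Φ2.toFun y)) (Φ1.toFun (Φ2.toFun y'))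
    have hL0 : 0 ≤ L := by
      have := F.s_pos s
      exact le_trans (by positivity) hL'
    have h5 : ‖Φ2.toFun y - Φ2.toFun y'‖ ≤ L := by
      rw [a2 s y (Zs_subset hy), a2 s y' (Zs_subset hy')]
      refine (pi_norm_le_iff_of_nonneg hL0).2 fun k => ?_
      rw [Pi.sub_apply, Real.norm_eq_abs, collF_zone (F.s_pos s) (Zs_nJ hy) (Zs_nJ hy')]
      split_ifs with hk
      · have h6 := norm_le_pi_norm (y - y') k
        rw [Pi.sub_apply, Real.norm_eq_abs] at h6
        exact (mul_le_mul_of_nonneg_left h6 (F.s_pos s).le).trans hL'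
      · exact hL k (by simpa using hk)
    rw [hval, hval]
    linarith
  · -- edges
    intro e y hy y' hy' L hL hL'
    have hL0 : 0 ≤ L := (abs_nonneg _).trans hL
    have h3 := l0 (Φ1.toFun (Φ2.toFun y)) (Φ1.toFun (Φ2.toFun y'))
    obtain ⟨hd, hz⟩ := keyE e y hy
    obtain ⟨hd', hz'⟩ := keyE e y' hy'
    have h5 : ‖Φ1.toFun (Φ2.toFun y) - Φ1.toFun (Φ2.toFun y')‖ ≤ 5 / 2 * L := by
      rw [a1 e _ (Ze_subset hz), a1 e _ (Ze_subset hz')]
      refine (pi_norm_le_iff_of_nonneg (by positivity)).2 fun k => ?_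
      rw [Pi.sub_apply, Real.norm_eq_abs, collF_zone (F.e_pos e) (Ze_nJ hz) (Ze_nJ hz')]
      split_ifs with hk
      · have h6 := norm_le_pi_norm (Φ2.toFun y - Φ2.toFun y') k
        rw [Pi.sub_apply, Real.norm_eq_abs] at h6
        have h7 := mul_le_mul_of_nonneg_left (h6.trans (l2 y y')) (F.e_pos e).le
        linarith
      · have hkd : k = K.dir e := by by_contra h; exact hk (mem_Je.2 h)
        rw [hkd, hd, hd']
        linarith
    rw [hval, hval]
    linarith
  · -- vertices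
    intro i y hy y' hy'
    have key2 : ∀ y ∈ Zv W i, Φ2.toFun y ∈ Zv W i := by
      intro y hy
      by_cases h : ∃ s, y ∈ W.ss s
      · obtain ⟨s, hs⟩ := h
        have h1 : ‖y - K.w i‖ ≤ S.r i := by
          have := mem_closedBall.1 hy
          rw [dist_eq_norm] at this
          exact this.trans (W.wv_le i)
        have hws := w_mem_sq hs h1
        have hc := TM.nrm_eq hws
        rw [Zv, mem_closedBall, dist_pi_le_iff (W.wv_pos i).le]
        intro k
        have h2 := norm_le_pi_norm (y - K.w i) k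
        rw [Pi.sub_apply, Real.norm_eq_abs] at h2
        have h3 := mem_closedBall.1 hy
        rw [dist_eq_norm] at h3
        rw [Real.dist_eq, a2 s y hs]
        by_cases hk : k = K.nrm s
        · subst hk
          rw [hc]
          refine (abs_collF_sub_le (F.s_pos s) (F.s_le s) (Finset.mem_singleton_self _)).1.trans ?_
          rw [← hc]
          exact h2.trans h3
        · rw [collF_off (by simpa using hk)]
          exact h2.trans h3
      · push Not at h
        rw [b2 y h]; exact hy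
    have key1 : ∀ y ∈ Zv W i, Φ1.toFun y ∈ Zv W i := by
      intro y hy
      by_cases h : ∃ e, y ∈ W.se e
      · obtain ⟨e, he⟩ := h
        have h1 : ‖y - K.w i‖ ≤ 2 * S.r i := by
          have := mem_closedBall.1 hy
          rw [dist_eq_norm] at this
          linarith [W.wv_le i, S.r_pos i]
        have hie := end_of_se he h1
        have hwi : K.w i ∈ K.edge e := by
          rcases hie with rfl | rfl
          · exact TM.wa_mem K e
          · exact TM.wb_mem K e
        rw [Zv, mem_closedBall, dist_pi_le_iff (W.wv_pos i).le]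
        intro k
        have h2 := norm_le_pi_norm (y - K.w i) k
        rw [Pi.sub_apply, Real.norm_eq_abs] at h2
        have h3 := mem_closedBall.1 hy
        rw [dist_eq_norm] at h3
        rw [Real.dist_eq, a1 e y he]
        by_cases hk : k ∈ Wid.Je K e
        · have hc : K.w i k = K.w (K.a e) k := edge_coord hwi (mem_Je.1 hk)
          rw [hc]
          refine (abs_collF_sub_le (F.e_pos e) (F.e_le e) hk).1.trans ?_
          rw [← hc]
          exact h2.trans h3
        · rw [collF_off hk]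
          exact h2.trans h3
      · push Not at h
        rw [b1 y h]; exact hy
    have hz := key1 _ (key2 y hy)
    have hz' := key1 _ (key2 y' hy')
    have h1 := l2 y y'
    have h2 := l1 (Φ2.toFun y) (Φ2.toFun y')
    have hv := F.v_pos i
    rw [hval, hval, a0 i _ (Zv_subset hz), a0 i _ (Zv_subset hz')]
    refine (pi_norm_le_iff_of_nonneg (by positivity)).2 fun k => ?_
    rw [Pi.sub_apply, Real.norm_eq_abs, collF_zone (a := fun _ => W.wv i) (F.v_pos i) (Zv_nJ hz)
      (Zv_nJ hz'), if_pos (Finset.mem_univ k)]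
    have h6 := norm_le_pi_norm (Φ1.toFun (Φ2.toFun y) - Φ1.toFun (Φ2.toFun y')) k
    rw [Pi.sub_apply, Real.norm_eq_abs] at h6
    have h7 : |Φ1.toFun (Φ2.toFun y) k - Φ1.toFun (Φ2.toFun y') k| ≤ 7 * ‖y - y'‖ := by
      linarith [norm_nonneg (y - y')]
    have h8 := mul_le_mul_of_nonneg_left h7 hv.le
    linarith
  · -- fixed points
    intro y h2 h1 h0
    have e2 : Φ2.toFun y = y := by
      by_cases h : ∃ s, y ∈ W.ss s
      · obtain ⟨s, hs⟩ := h
        rw [a2 s y hs]
        funext k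
        by_cases hk : k = K.nrm s
        · subst hk
          have hn : nJ {K.nrm s} (K.slo s) y = 0 := by
            refine le_antisymm ((nJ_le_iff le_rfl).2 fun k hk => ?_) nJ_nonneg
            rw [Finset.mem_singleton.1 hk, h2 s hs, sub_self, abs_zero]
          rw [collF_of_le (by rw [hn]; exact marg_nonneg) (Finset.mem_singleton_self _), h2 s hs]
          ring
        · rw [collF_off (by simpa using hk)]
      · push Not at h
        exact b2 y h
    rw [hval, e2, b1 y h1, b0 y h0]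
  · -- tangential coordinates in the plates
    intro s y hy h1 h0
    have e2 : Φ2.toFun y = down K F s y := by
      rw [a2 s y (Zs_subset hy)]
      funext k
      by_cases hk : k = K.nrm s
      · subst hk
        rw [collF_of_le (Zs_nJ hy) (Finset.mem_singleton_self _), down, Function.update_self]
      · rw [collF_off (by simpa using hk), down, Function.update_of_ne hk]
    rw [hval, e2, b1 _ h1, b0 _ h0]
  · -- tangential coordinate in the tubes
    intro e y hy h0
    obtain ⟨e1, hz1⟩ := keyE1 e y hy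
    rw [hval, b0 _ (h0 _ e1 hz1), e1]
  · -- normal coordinates in the tubes
    intro e y hy z hz h0 h0' k hk
    obtain ⟨e1, hz1⟩ := keyE1 e y hy
    obtain ⟨e1', hz1'⟩ := keyE1 e z hz
    obtain ⟨-, hy2⟩ := keyE e y hy
    obtain ⟨-, hz2⟩ := keyE e z hz
    rw [hval, hval, b0 _ (h0 _ e1 hz1), b0 _ (h0' _ e1' hz1'), a1 e _ (Ze_subset hy2),
      a1 e _ (Ze_subset hz2), collF_zone (F.e_pos e) (Ze_nJ hy2) (Ze_nJ hz2),
      if_pos (mem_Je.2 hk)]
    have h6 := norm_le_pi_norm (Φ2.toFun y - Φ2.toFun z) k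
    rw [Pi.sub_apply, Real.norm_eq_abs] at h6
    have h7 := mul_le_mul_of_nonneg_left (h6.trans (l2 y z)) (F.e_pos e).le
    linarith

/-- a point close to the inner part of a square is in no support of an edge or of a vertex -/
theorem inner_notMem {s : K.S} {μ : ℝ}
    (hm : ∀ k, k ≠ K.nrm s → K.slo s k + μ ≤ y k ∧ y k ≤ K.shi s k - μ)
    (hn : |y (K.nrm s) - K.slo s (K.nrm s)| ≤ W.ws s) (hμ : 0 < μ)
    (he : ∀ e, (K.edge e ⊆ K.cube (K.sm s) ∨ K.edge e ⊆ K.cube (K.sp s)) → 2 * W.we e ≤ μ)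
    (hv : ∀ i, (K.w i ∈ K.cube (K.sm s) ∨ K.w i ∈ K.cube (K.sp s)) → 2 * W.wv i ≤ μ)
    (hμ1 : μ ≤ W.ws s) :
    (∀ e, y ∉ W.se e) ∧ ∀ i, y ∉ W.sv i := by
  have hws := W.ws_pos s
  have hw1 := W.ws_le s
  have hw2 := W.ws_le' s
  obtain ⟨l1, l2⟩ := K.s_lev s
  have hna := abs_le.1 hn
  have hN : Near K s y := ⟨fun k hk => by
    have := hm k hk
    constructor <;> linarith, by linarith, by linarith⟩
  have hsub := TM.sq_subset K s
  have hlo := hsub.1 (slo_mem s)
  have hhi := hsub.1 (shi_mem s)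
  have hlo' := hsub.2 (slo_mem s)
  have hhi' := hsub.2 (shi_mem s)
  -- a point of the tile which is `μ`-close to `y` in the coordinate `k` is not on the side `k`
  have hside : ∀ p, (p = K.sm s ∨ p = K.sp s) → ∀ k, ∀ t : ℝ, |y k - t| < μ →
      (t = K.lo p k ∨ t = K.hi p k) → k = K.nrm s ∧ t = K.slo s (K.nrm s) := by
    intro p hp k t ht hside
    have ht' := abs_lt.1 ht
    by_cases hk : k = K.nrm s
    · subst hk
      refine ⟨rfl, ?_⟩
      rcases hp with rfl | rfl
      · rcases hside with h | h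
        · linarith
        · rw [h, l1]
      · rcases hside with h | h
        · rw [h, l2]
        · linarith
    · exfalso
      have h1 := hm k hk
      rcases hp with rfl | rfl
      · have a1 := hlo.1 k
        have a2 := hhi.2 k
        rcases hside with h | h <;> linarith
      · have a1 := hlo'.1 k
        have a2 := hhi'.2 k
        rcases hside with h | h <;> linarith
  obtain ⟨p, hp, hyp⟩ : ∃ p, (p = K.sm s ∨ p = K.sp s) ∧ y ∈ K.cube p := by
    rcases hN.mem with h | h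
    · exact ⟨_, Or.inl rfl, h⟩
    · exact ⟨_, Or.inr rfl, h⟩
  constructor
  · intro e hes
    have hT := inTube_of_se hes
    have hep := hT.tile hyp
    have hwe : 2 * W.we e ≤ μ := he e (by
      rcases hp with rfl | rfl
      · exact Or.inl hep
      · exact Or.inr hep)
    have hf : foot K e y ∈ K.edge e := foot_mem hT.lo.le hT.hi.le
    have hfa : foot K e y ≠ K.w (K.a e) := fun h => by
      have := congrFun h (K.dir e)
      rw [foot_dir] at this
      exact hT.lo.ne' this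
    have hfb : foot K e y ≠ K.w (K.b e) := fun h => by
      have := congrFun h (K.dir e)
      rw [foot_dir] at this
      exact hT.hi.ne this
    obtain ⟨-, k, hk, hks⟩ := K.edge_tile e p _ hf hfa hfb (hep hf)
    have hclose : ∀ k, k ≠ K.dir e → |y k - K.w (K.a e) k| < μ := fun k hk =>
      (abs_le_of_se hes hk).trans_le (by linarith [ae_le (W := W) e (y := y)])
    obtain ⟨hkn, hkt⟩ := hside p hp k _ (hclose k hk) hks
    -- the foot is in the open square
    refine K.sqo_edge s (foot K e y) ?_ (fun j hj => ?_) e hf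
    · rw [← hkn, foot_ne hk, hkt, hkn]
    · by_cases hjd : j = K.dir e
      · subst hjd
        rw [foot_dir]
        have := hm _ hj
        constructor <;> linarith
      · rw [foot_ne hjd]
        have h1 := abs_lt.1 (hclose j hjd)
        have h2 := hm j hj
        constructor <;> linarith
  · intro i hi
    have hip := tile_of_sv hi hyp
    have hwi : 2 * W.wv i ≤ μ := hv i (by
      rcases hp with rfl | rfl
      · exact Or.inl hip
      · exact Or.inr hip)
    have hclose : ∀ k, |y k - K.w i k| < μ := by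
      intro k
      have h4 := norm_le_pi_norm (y - K.w i) k
      rw [Pi.sub_apply, Real.norm_eq_abs] at h4
      exact h4.trans_lt ((mem_sv.1 hi).trans_le hwi)
    obtain ⟨k, hks⟩ := K.w_tile i p hip
    obtain ⟨hkn, hkt⟩ := hside p hp k _ (hclose k) hks
    obtain ⟨e, he'⟩ := K.w_edge i
    have hie : K.w i ∈ K.edge e := by
      rcases he' with rfl | rfl
      · exact TM.wa_mem K e
      · exact TM.wb_mem K e
    refine K.sqo_edge s (K.w i) ?_ (fun j hj => ?_) e hie
    · rw [← hkn]; rw [← hkn] at hkt; exact hkt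
    · have h1 := abs_lt.1 (hclose j)
      have h2 := hm j hj
      constructor <;> linarith

/-- on the inner part of the plates the tangential coordinates do not change -/
theorem IsKill.tan_plate {F : Fac K} {Φ : ConHomeo Λ Λ} (H : IsKill W F Φ) {s : K.S} {μ : ℝ}
    (hy : y ∈ Zs W s)
    (hm : ∀ k, k ≠ K.nrm s → K.slo s k + μ ≤ y k ∧ y k ≤ K.shi s k - μ) (hμ : 0 < μ)
    (he : ∀ e, (K.edge e ⊆ K.cube (K.sm s) ∨ K.edge e ⊆ K.cube (K.sp s)) → 2 * W.we e ≤ μ)
    (hv : ∀ i, (K.w i ∈ K.cube (K.sm s) ∨ K.w i ∈ K.cube (K.sp s)) → 2 * W.wv i ≤ μ)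
    (hμ1 : μ ≤ W.ws s) : Φ.toFun y = down K F s y := by
  have hn : |down K F s y (K.nrm s) - K.slo s (K.nrm s)| ≤ W.ws s := by
    rw [down, Function.update_self, add_sub_cancel_left, abs_mul, abs_of_pos (F.s_pos s)]
    have h1 := hy.2.trans (as_le s)
    have h2 := F.s_le s
    have h3 := F.s_pos s
    have h4 := abs_nonneg (y (K.nrm s) - K.slo s (K.nrm s))
    nlinarith
  have hm' : ∀ k, k ≠ K.nrm s → K.slo s k + μ ≤ down K F s y k ∧
      down K F s y k ≤ K.shi s k - μ := fun k hk => by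
    rw [down, Function.update_of_ne hk]; exact hm k hk
  obtain ⟨h1, h2⟩ := inner_notMem hm' hn hμ he hv hμ1
  exact H.tans s y hy h1 h2

/-- on the inner part of the tubes the tangential coordinate does not change -/
theorem IsKill.tan_tube {F : Fac K} {Φ : ConHomeo Λ Λ} (H : IsKill W F Φ) {e : K.G}
    (hy : y ∈ Ze W e) (ha : K.w (K.a e) (K.dir e) + 2 * W.wv (K.a e) ≤ y (K.dir e))
    (hb : y (K.dir e) ≤ K.w (K.b e) (K.dir e) - 2 * W.wv (K.b e)) :
    Φ.toFun y (K.dir e) = y (K.dir e) := by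
  refine H.tane e y hy fun y' hd hy' i hi => ?_
  have h1 := end_of_se (Ze_subset hy') (i := i) (by
    have := sv_subset i hi
    rw [mem_closedBall, dist_eq_norm] at this
    exact this)
  have h2 := norm_le_pi_norm (y' - K.w i) (K.dir e)
  rw [Pi.sub_apply, Real.norm_eq_abs, hd] at h2
  have h3 := abs_lt.1 (h2.trans_lt (mem_sv.1 hi))
  rcases h1 with rfl | rfl
  · linarith [h3.2]
  · linarith [h3.1]

/-- on the inner part of the tubes the normal coordinates are collapsed -/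
theorem IsKill.nrm_tube {F : Fac K} {Φ : ConHomeo Λ Λ} (H : IsKill W F Φ) {e : K.G}
    (hy : y ∈ Ze W e) (ha : K.w (K.a e) (K.dir e) + 2 * W.wv (K.a e) ≤ y (K.dir e))
    (hb : y (K.dir e) ≤ K.w (K.b e) (K.dir e) - 2 * W.wv (K.b e))
    (hz : z ∈ Ze W e) (ha' : K.w (K.a e) (K.dir e) + 2 * W.wv (K.a e) ≤ z (K.dir e))
    (hb' : z (K.dir e) ≤ K.w (K.b e) (K.dir e) - 2 * W.wv (K.b e)) {k : Fin 3}
    (hk : k ≠ K.dir e) : |Φ.toFun y k - Φ.toFun z k| ≤ 5 / 2 * (F.ρe e * ‖y - z‖) := by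
  have key : ∀ y : V, K.w (K.a e) (K.dir e) + 2 * W.wv (K.a e) ≤ y (K.dir e) →
      y (K.dir e) ≤ K.w (K.b e) (K.dir e) - 2 * W.wv (K.b e) →
      ∀ y' : V, y' (K.dir e) = y (K.dir e) → y' ∈ Ze W e → ∀ i, y' ∉ W.sv i := by
    intro y ha hb y' hd hy' i hi
    have h1 := end_of_se (Ze_subset hy') (i := i) (by
      have := sv_subset i hi
      rw [mem_closedBall, dist_eq_norm] at this
      exact this)
    have h2 := norm_le_pi_norm (y' - K.w i) (K.dir e)
    rw [Pi.sub_apply, Real.norm_eq_abs, hd] at h2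
    have h3 := abs_lt.1 (h2.trans_lt (mem_sv.1 hi))
    rcases h1 with rfl | rfl
    · linarith [h3.2]
    · linarith [h3.1]
  exact H.tane2 e y hy z hz (key y ha hb) (key z ha' hb') k hk

/-- points of a square away from its relative boundary are fixed -/
theorem IsKill.fix_sq {F : Fac K} {Φ : ConHomeo Λ Λ} (H : IsKill W F Φ) {s : K.S}
    (hy : y ∈ K.sq s) {μ : ℝ} (hμ : 0 < μ)
    (hm : ∀ k, k ≠ K.nrm s → K.slo s k + μ ≤ y k ∧ y k ≤ K.shi s k - μ)
    (he : ∀ e, K.edge e ⊆ K.sq s → 2 * W.we e ≤ μ)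
    (hv : ∀ i, K.w i ∈ K.sq s → 2 * W.wv i ≤ μ) : Φ.toFun y = y := by
  have hyo : y ∈ K.sqo s := ⟨TM.nrm_eq hy, fun k hk => by
    have := hm k hk
    constructor <;> linarith⟩
  have hsub := TM.sq_subset K s
  refine H.fix y (fun s' hs' => ?_) (fun e hes => ?_) (fun i hi => ?_)
  · have hss : s' = s := (near_self hs').sq hyo
    rw [hss]; exact TM.nrm_eq hy
  · have hT := inTube_of_se hes
    have h1 := hT.tile (hsub.1 hy)
    have h2 := hT.tile (hsub.2 hy)
    have hesq : K.edge e ⊆ K.sq s := by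
      intro x hx
      show x ∈ Icc (K.slo s) (K.shi s)
      rw [K.s_eq]
      exact ⟨h1 hx, h2 hx⟩
    have hf : foot K e y ∈ K.edge e := foot_mem hT.lo.le hT.hi.le
    have hfs := hesq hf
    have hno : foot K e y ∉ K.sqo s := fun hc => K.sqo_edge s _ hc.1 hc.2 e hf
    refine hno ⟨TM.nrm_eq hfs, fun k hk => ?_⟩
    by_cases hkd : k = K.dir e
    · subst hkd
      rw [foot_dir]
      have := hm _ hk
      constructor <;> linarith
    · rw [foot_ne hkd]
      have h3 := abs_lt.1 (abs_le_of_se hes hkd)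
      have h4 := ae_le (W := W) e (y := y)
      have h5 := he e hesq
      have h6 := hm k hk
      constructor <;> linarith
  · have h1 := S.U_tile i _ y (sv_subset i hi) (hsub.1 hy)
    have h2 := S.U_tile i _ y (sv_subset i hi) (hsub.2 hy)
    have hws : K.w i ∈ K.sq s := by
      show K.w i ∈ Icc (K.slo s) (K.shi s)
      rw [K.s_eq]
      exact ⟨h1, h2⟩
    have hno : K.w i ∉ K.sqo s := by
      intro hc
      obtain ⟨e, he' | he'⟩ := K.w_edge i
      · exact K.sqo_edge s _ hc.1 hc.2 e (by rw [he']; exact TM.wa_mem K e)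
      · exact K.sqo_edge s _ hc.1 hc.2 e (by rw [he']; exact TM.wb_mem K e)
    refine hno ⟨TM.nrm_eq hws, fun k hk => ?_⟩
    have h3 := mem_sv.1 hi
    have h4 := norm_le_pi_norm (y - K.w i) k
    rw [Pi.sub_apply, Real.norm_eq_abs] at h4
    have h5 := abs_lt.1 (h4.trans_lt (h3.trans_le (hv i hws)))
    have h6 := hm k hk
    constructor <;> linarith

end Vale.Agent.P073.H471
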