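import Vale.Agent.P073.H471.Cell
import Vale.Agent.P073.Net.GlueFam
import Vale.Agent.P073.Net.Len

/-!
# P073, block FF: the radial expansions of a locally finite family of cubes
-/

open Set Metric Topology Filter
open scoped ENNReal NNReal

namespace Vale.Agent.P073.H471

open _root_.P073 _root_.P073.Net
open Vale.Agent.P073.St (V)

/-- a locally finite family of closed cubes in `Λ` with disjoint interiors -/
structure Cubes {ι : Type*} (Λ : Set V) (z : ι → V) (σ : ι → ℝ) : Prop where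
  pos : ∀ i, 0 < σ i
  sub : ∀ i, closedBall (z i) (σ i) ⊆ Λ
  disj : ∀ i j, i ≠ j → Disjoint (ball (z i) (σ i)) (ball (z j) (σ j))
  fin : ∀ y ∈ Λ, ∃ U ∈ 𝓝 y, {i | (closedBall (z i) (σ i) ∩ U).Nonempty}.Finite

/-- a subfamily -/
theorem Cubes.restrict {ι ι' : Type*} {Λ : Set V} {z : ι → V} {σ : ι → ℝ} (W : Cubes Λ z σ)
    {e : ι' → ι} (he : Function.Injective e) : Cubes Λ (z ∘ e) (σ ∘ e) where
  pos i := W.pos _
  sub i := W.sub _
  disj i j h := W.disj _ _ fun hc => h (he hc)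
  fin y hy := by
    obtain ⟨U, hU, hf⟩ := W.fin y hy
    refine ⟨U, hU, ?_⟩
    exact Set.Finite.preimage (f := e) (s := {i | (closedBall (z i) (σ i) ∩ U).Nonempty})
      he.injOn hf

/-! ### local to global -/

/-- local to global on an interval -/
theorem norm_sub_le_of_right {F : Type*} [NormedAddCommGroup F] {f : ℝ → F} {a b L : ℝ}
    (hab : a ≤ b) (hf : ContinuousOn f (Icc a b))
    (h : ∀ t ∈ Ico a b, ∃ δ > 0, ∀ s ∈ Icc 0 δ, t + s ≤ b → ‖f (t + s) - f t‖ ≤ L * s) :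
    ‖f b - f a‖ ≤ L * (b - a) := by
  have hcl : IsClosed ({t | ‖f t - f a‖ ≤ L * (t - a)} ∩ Icc a b) := by
    have h1 : ContinuousOn (fun t => ‖f t - f a‖ - L * (t - a)) (Icc a b) := by fun_prop
    have h2 := h1.preimage_isClosed_of_isClosed isClosed_Icc (isClosed_Iic (a := (0:ℝ)))
    convert h2 using 1
    ext t
    simp only [mem_inter_iff, mem_ofPred_eq, mem_preimage, mem_Iic, sub_nonpos]
    tauto
  refine hcl.mem_of_ge_of_forall_exists_gt (by simp) hab ?_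
  rintro x ⟨hx, hxI⟩
  obtain ⟨δ, hδ, hd⟩ := h x hxI
  have hs : 0 < min δ (b - x) := lt_min hδ (by linarith [hxI.2])
  refine ⟨x + min δ (b - x), ?_, by linarith, by linarith [min_le_right δ (b - x)]⟩
  have h1 := hd (min δ (b - x)) ⟨hs.le, min_le_left _ _⟩ (by linarith [min_le_right δ (b - x)])
  have hx' : ‖f x - f a‖ ≤ L * (x - a) := hx
  show ‖f (x + min δ (b - x)) - f a‖ ≤ L * (x + min δ (b - x) - a)
  calc ‖f (x + min δ (b - x)) - f a‖
      = ‖(f (x + min δ (b - x)) - f x) + (f x - f a)‖ := by congr 1; abel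
    _ ≤ L * min δ (b - x) + L * (x - a) := (norm_add_le _ _).trans (add_le_add h1 hx')
    _ = _ := by ring

/-- variation, local to global -/
theorem eVariationOn_le_of_local {A B : Type*} [PseudoEMetricSpace A] [PseudoEMetricSpace B]
    {f : ℝ → A} {g : ℝ → B} {C : ℝ≥0∞} {a b : ℝ} (hab : a ≤ b)
    (h : ∀ t ∈ Icc a b, ∃ δ > 0, ∀ s ∈ Icc a b, ∀ s' ∈ Icc a b, |s - t| < δ → |s' - t| < δ →
      edist (f s) (f s') ≤ C * edist (g s) (g s')) :
    eVariationOn f (Icc a b) ≤ C * eVariationOn g (Icc a b) := by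
  have hloc : ∀ {I : Set ℝ}, (∀ s ∈ I, ∀ s' ∈ I, edist (f s) (f s') ≤ C * edist (g s) (g s')) →
      eVariationOn f I ≤ C * eVariationOn g I := by
    intro I hI
    refine iSup_le fun p => ?_
    calc ∑ i ∈ Finset.range p.1, edist (f (p.2.1 (i + 1))) (f (p.2.1 i))
        ≤ ∑ i ∈ Finset.range p.1, C * edist (g (p.2.1 (i + 1))) (g (p.2.1 i)) :=
          Finset.sum_le_sum fun i _ => hI _ (p.2.2.2 _) _ (p.2.2.2 _)
      _ = C * ∑ i ∈ Finset.range p.1, edist (g (p.2.1 (i + 1))) (g (p.2.1 i)) :=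
          (Finset.mul_sum _ _ _).symm
      _ ≤ _ := by
          gcongr
          exact eVariationOn.sum_le p.2.2.1 p.2.2.2
  let S : Set ℝ := {t | t ∈ Icc a b ∧ eVariationOn f (Icc a t) ≤ C * eVariationOn g (Icc a t)}
  have haS : a ∈ S := by
    refine ⟨left_mem_Icc.2 hab, ?_⟩
    rw [Icc_self, eVariationOn.subsingleton _ subsingleton_singleton]
    exact zero_le
  have hbdd : BddAbove S := ⟨b, fun t ht => ht.1.2⟩
  set T := sSup S with hT
  have hTI : T ∈ Icc a b := ⟨le_csSup hbdd haS, csSup_le ⟨a, haS⟩ fun t ht => ht.1.2⟩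
  obtain ⟨δ, hδ, hd⟩ := h T hTI
  obtain ⟨s, hsS, hs⟩ := exists_lt_of_lt_csSup ⟨a, haS⟩ (show T - δ < T by linarith)
  have hsT : s ≤ T := le_csSup hbdd hsS
  have key : ∀ t ∈ Icc a b, s ≤ t → t < T + δ → t ∈ S := by
    intro t ht hst htT
    refine ⟨ht, ?_⟩
    have e1 := eVariationOn.Icc_add_Icc f (s := univ) hsS.1.1 hst (mem_univ _)
    have e2 := eVariationOn.Icc_add_Icc g (s := univ) hsS.1.1 hst (mem_univ _)
    simp only [univ_inter] at e1 e2
    rw [← e1, ← e2, mul_add]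
    refine add_le_add hsS.2 (hloc fun u hu v hv => ?_)
    refine hd u ⟨hsS.1.1.trans hu.1, hu.2.trans ht.2⟩ v ⟨hsS.1.1.trans hv.1, hv.2.trans ht.2⟩ ?_ ?_
    · rw [abs_lt]; exact ⟨by linarith [hu.1], by linarith [hu.2]⟩
    · rw [abs_lt]; exact ⟨by linarith [hv.1], by linarith [hv.2]⟩
  have hbT : b ∈ S := by
    rcases hTI.2.eq_or_lt with hb | hb
    · exact key b (right_mem_Icc.2 hab) (hsS.1.2) (by linarith)
    · exfalso
      have h1 : min b (T + δ / 2) ∈ S := by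
        refine key _ ⟨le_min hab (by linarith [hTI.1]), min_le_left _ _⟩
          (le_min hsS.1.2 (by linarith)) ((min_le_right _ _).trans_lt (by linarith))
      have h2 := le_csSup hbdd h1
      have h3 : T < min b (T + δ / 2) := lt_min hb (by linarith)
      linarith
  exact hbT.2

/-- the sup norm length is at most the Euclidean length -/
theorem var_le_len (q : ℝ → V) (s : Set ℝ) : var q s ≤ len q s := by
  have h : var q s ≤ 1 * len q s := by
    refine eVariationOn_le_of_edist fun x _ y _ => ?_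
    rw [edist_toLp, edist_dist, dist_eq_norm, one_mul]
    exact ENNReal.ofReal_le_ofReal (norm_le_euc _)
  rwa [one_mul] at h

/-- a convex closed set meets a right neighbourhood of a point of a line in all or nothing -/
theorem germ_dichotomy {E : Type*} [NormedAddCommGroup E] [NormedSpace ℝ E] {K : Set E}
    (hK : IsClosed K) (hc : Convex ℝ K) (p d : E) :
    (∃ δ > 0, ∀ s ∈ Icc (0:ℝ) δ, p + s • d ∈ K) ∨ (∃ δ > 0, ∀ s ∈ Ioc (0:ℝ) δ, p + s • d ∉ K) := by
  by_cases h : ∃ δ > 0, ∀ s ∈ Ioc (0:ℝ) δ, p + s • d ∉ K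
  · exact Or.inr h
  · left
    push Not at h
    have hp : p ∈ K := by
      choose! s hs hsK using h
      have h0 : Tendsto (fun n : ℕ => s (1 / ((n:ℝ) + 1))) atTop (𝓝 0) :=
        squeeze_zero (fun n => (hs _ (by positivity)).1.le) (fun n => (hs _ (by positivity)).2)
          tendsto_one_div_add_atTop_nhds_zero_nat
      have h1 : Tendsto (fun n : ℕ => p + s (1 / ((n:ℝ) + 1)) • d) atTop (𝓝 (p + (0:ℝ) • d)) :=
        tendsto_const_nhds.add (h0.smul_const d)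
      rw [zero_smul, add_zero] at h1
      exact hK.mem_of_tendsto h1 (Eventually.of_forall fun n => hsK _ (by positivity))
    obtain ⟨s, hs, hsK⟩ := h 1 one_pos
    refine ⟨s, hs.1, fun t ht => ?_⟩
    have h2 : p + t • d = p + (t / s) • ((p + s • d) - p) := by
      rw [add_sub_cancel_left, smul_smul, div_mul_cancel₀ _ hs.1.ne']
    rw [h2]
    exact hc.add_smul_sub_mem hp hsK ⟨div_nonneg ht.1 hs.1.le, (div_le_one hs.1).2 ht.2⟩

variable {ι : Type*} {Λ : Set V} {z c : ι → V} {σ κ : ι → ℝ} {m : ι → ℕ}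

/-- **The radial expansions of a locally finite family of cubes.** -/
theorem exists_stage (hΛ : IsOpen Λ) (W : Cubes Λ z σ) (hc : ∀ i, ‖c i - z i‖ < σ i)
    (hκ : ∀ i, 0 < κ i) (hκ1 : ∀ i, κ i < 1 / 2) :
    ∃ T : ConHomeo Λ Λ,
      (∀ i, ∀ y ∈ closedBall (z i) (σ i),
        T.toFun y = (ffc (z i) (σ i) (c i) (W.pos i) (hc i) (κ i) (hκ i) (hκ1 i) (m i)).toFun y) ∧
      (∀ i, ∀ y ∈ closedBall (z i) (σ i),
        T.invFun y = (ffc (z i) (σ i) (c i) (W.pos i) (hc i) (κ i) (hκ i) (hκ1 i) (m i)).invFun y) ∧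
      (∀ y, (∀ i, y ∉ ball (z i) (σ i)) → T.toFun y = y ∧ T.invFun y = y) ∧
      (∀ i, ∀ y ∈ ball (z i) (σ i), T.toFun y ∈ ball (z i) (σ i) ∧
        T.invFun y ∈ ball (z i) (σ i)) := by
  have hid : ∀ i x, σ i ≤ ‖x - z i‖ →
      (ffc (z i) (σ i) (c i) (W.pos i) (hc i) (κ i) (hκ i) (hκ1 i) (m i)).toFun x = x :=
    fun i x hx => ffc_of_ge hx
  have hidi : ∀ i x, σ i ≤ ‖x - z i‖ →
      (ffc (z i) (σ i) (c i) (W.pos i) (hc i) (κ i) (hκ i) (hκ1 i) (m i)).invFun x = x := by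
    intro i x hx
    have h1 := hid i x hx
    have h2 := (ffc (z i) (σ i) (c i) (W.pos i) (hc i) (κ i) (hκ i) (hκ1 i)
      (m i)).left_inv (mem_univ x)
    rwa [h1] at h2
  obtain ⟨T, h1, h2, h3, h4⟩ := exists_glue_ambient hΛ
    (fun i => ffc (z i) (σ i) (c i) (W.pos i) (hc i) (κ i) (hκ i) (hκ1 i) (m i))
    (fun i => closedBall (z i) (σ i)) W.sub
    (fun i x hx => hid i x (by
      rw [mem_closedBall, dist_eq_norm, not_le] at hx
      exact hx.le)) W.fin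
    (fun i j hij x hx hx' => hid i x (by
      by_contra hlt
      rw [not_le] at hlt
      have h5 : x ∈ ball (z i) (σ i) := by rwa [mem_ball, dist_eq_norm]
      have h6 : x ∈ closure (ball (z j) (σ j)) := by
        rwa [closure_ball _ (W.pos j).ne']
      obtain ⟨y, hy⟩ := mem_closure_iff.1 h6 _ isOpen_ball h5
      exact disjoint_left.1 (W.disj i j hij) hy.1 hy.2))
  have hin : ∀ i, ball (z i) (σ i) ⊆ closedBall (z i) (σ i) := fun i => ball_subset_closedBall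
  refine ⟨T, h1, h3, fun y hy => ?_, fun i y hy => ⟨?_, ?_⟩⟩
  · have hy' : ∀ i, σ i ≤ ‖y - z i‖ := fun i => by
      have := hy i
      rwa [mem_ball, dist_eq_norm, not_lt] at this
    by_cases hex : ∃ i, y ∈ closedBall (z i) (σ i)
    · obtain ⟨i, hi⟩ := hex
      exact ⟨by rw [h1 i y hi]; exact hid i y (hy' i), by rw [h3 i y hi]; exact hidi i y (hy' i)⟩
    · push Not at hex
      exact ⟨h2 y hex, h4 y hex⟩
  · rw [h1 i y (hin i hy), mem_ball, dist_eq_norm]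
    rw [mem_ball, dist_eq_norm] at hy
    exact ffc_mem hy
  · rw [h3 i y (hin i hy)]
    by_contra hn
    rw [mem_ball, dist_eq_norm, not_lt] at hn
    have h5 := hid i _ hn
    rw [(ffc (z i) (σ i) (c i) (W.pos i) (hc i) (κ i) (hκ i) (hκ1 i)
      (m i)).right_inv (mem_univ y)] at h5
    rw [← h5] at hn
    rw [mem_ball, dist_eq_norm] at hy
    linarith

/-- the data of a stage: what is known about the map -/
structure IsStage (W : Cubes Λ z σ) (hc : ∀ i, ‖c i - z i‖ < σ i)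
    (hκ : ∀ i, 0 < κ i) (hκ1 : ∀ i, κ i < 1 / 2) (m : ι → ℕ) (T : ConHomeo Λ Λ) : Prop where
  eq : ∀ i, ∀ y ∈ closedBall (z i) (σ i),
    T.toFun y = (ffc (z i) (σ i) (c i) (W.pos i) (hc i) (κ i) (hκ i) (hκ1 i) (m i)).toFun y
  inv_eq : ∀ i, ∀ y ∈ closedBall (z i) (σ i),
    T.invFun y = (ffc (z i) (σ i) (c i) (W.pos i) (hc i) (κ i) (hκ i) (hκ1 i) (m i)).invFun y
  off : ∀ y, (∀ i, y ∉ ball (z i) (σ i)) → T.toFun y = y ∧ T.invFun y = y
  mem : ∀ i, ∀ y ∈ ball (z i) (σ i), T.toFun y ∈ ball (z i) (σ i) ∧ T.invFun y ∈ ball (z i) (σ i)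

theorem exists_isStage (hΛ : IsOpen Λ) (W : Cubes Λ z σ) (hc : ∀ i, ‖c i - z i‖ < σ i)
    (hκ : ∀ i, 0 < κ i) (hκ1 : ∀ i, κ i < 1 / 2) (m : ι → ℕ) :
    ∃ T : ConHomeo Λ Λ, IsStage W hc hκ hκ1 m T := by
  obtain ⟨T, h1, h2, h3, h4⟩ := exists_stage (m := m) hΛ W hc hκ hκ1
  exact ⟨T, ⟨h1, h2, h3, h4⟩⟩

namespace IsStage

variable {W : Cubes Λ z σ} {hc : ∀ i, ‖c i - z i‖ < σ i} {hκ : ∀ i, 0 < κ i}
  {hκ1 : ∀ i, κ i < 1 / 2} {T : ConHomeo Λ Λ}

/-- the map moves points inside their cubes only -/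
theorem dist_le (H : IsStage W hc hκ hκ1 m T) {i : ι} {y : V} (hy : y ∈ closedBall (z i) (σ i)) :
    T.toFun y ∈ closedBall (z i) (σ i) := by
  by_cases h : y ∈ ball (z i) (σ i)
  · exact ball_subset_closedBall (H.mem i y h).1
  · rw [H.eq i y hy]
    rw [mem_ball, dist_eq_norm, not_lt] at h
    rw [ffc_of_ge h]
    exact hy

/-- the image of a point off the core is in the shell -/
theorem shell (H : IsStage W hc hκ hκ1 m T) (hc2 : ∀ i, ‖c i - z i‖ ≤ σ i / 2) {i : ι} {y : V}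
    (hy : y ∈ closedBall (z i) (σ i)) (h : 3 / 2 * (1 / 2) ^ m i * σ i < ‖y - c i‖) :
    (1 - κ i) ^ m i * σ i < ‖T.toFun y - z i‖ := by
  rw [H.eq i y hy]
  exact ffc_core (hc2 i) h

/-- points of the middle cube come from the core -/
theorem core (H : IsStage W hc hκ hκ1 m T) (hc2 : ∀ i, ‖c i - z i‖ ≤ σ i / 2) {i : ι} {y : V}
    (hy : y ∈ Λ) (h : ‖T.toFun y - z i‖ ≤ (1 - κ i) ^ m i * σ i) :
    y ∈ closedBall (z i) (σ i) ∧ ‖y - c i‖ ≤ 3 / 2 * (1 / 2) ^ m i * σ i := by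
  have h1 : (1 - κ i) ^ m i ≤ 1 :=
    pow_le_one₀ (by linarith [hκ1 i]) (by linarith [hκ i])
  have h2 : T.toFun y ∈ closedBall (z i) (σ i) := by
    rw [mem_closedBall, dist_eq_norm]
    nlinarith [W.pos i]
  have h3 : y ∈ closedBall (z i) (σ i) := by
    by_cases h4 : T.toFun y ∈ ball (z i) (σ i)
    · have h5 := (H.mem i _ h4).2
      rw [T.left_inv hy] at h5
      exact ball_subset_closedBall h5
    · have h5 : (T.toFun y) ∈ sphere (z i) (σ i) := by
        rw [mem_sphere]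
        rw [mem_closedBall] at h2
        rw [mem_ball, not_lt] at h4
        exact le_antisymm h2 h4
      have h6 : ∀ j, T.toFun y ∉ ball (z j) (σ j) := by
        intro j hj
        rcases eq_or_ne i j with rfl | hij
        · exact h4 hj
        · have h6 : T.toFun y ∈ closure (ball (z i) (σ i)) := by
            rwa [closure_ball _ (W.pos i).ne']
          obtain ⟨w, hw⟩ := mem_closure_iff.1 h6 _ isOpen_ball hj
          exact disjoint_left.1 (W.disj i j hij) hw.2 hw.1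
      have h7 := (H.off _ h6).2
      rw [T.left_inv hy] at h7
      rw [h7]
      exact h2
  refine ⟨h3, ?_⟩
  by_contra hn
  push Not at hn
  exact absurd (H.shell hc2 h3 hn) (not_lt.2 h)

/-- **Local Lipschitz estimate.** -/
theorem local_lip (H : IsStage W hc hκ hκ1 m T) (hΛ : IsOpen Λ)
    (hc2 : ∀ i, ‖c i - z i‖ ≤ σ i / 2) {y : V} (hy : y ∈ Λ) {L : ℝ} (hL : 12 ≤ L)
    (hyL : ∀ i, y ∈ closedBall (z i) (σ i) → 12 * σ i < L * ‖y - c i‖) :
    ∃ δ > 0, ball y δ ⊆ Λ ∧ ∀ y' ∈ ball y δ, ∀ y'' ∈ ball y δ,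
      ‖T.toFun y' - T.toFun y''‖ ≤ L * ‖y' - y''‖ := by
  obtain ⟨U, hU, hf⟩ := W.fin y hy
  have hev : ∀ᶠ x in 𝓝 y, x ∈ Λ ∧ x ∈ U ∧
      ∀ i ∈ {i | (closedBall (z i) (σ i) ∩ U).Nonempty},
        x ∈ closedBall (z i) (σ i) → 12 * σ i < L * ‖x - c i‖ := by
    refine Filter.Eventually.and (hΛ.mem_nhds hy) (Filter.Eventually.and hU ?_)
    rw [eventually_all_finite hf]
    intro i _
    by_cases hyi : y ∈ closedBall (z i) (σ i)
    · have h1 : ContinuousAt (fun x => L * ‖x - c i‖) y := by fun_prop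
      filter_upwards [h1.eventually (lt_mem_nhds (hyL i hyi))] with x hx _ using hx
    · filter_upwards [isClosed_closedBall.isOpen_compl.mem_nhds hyi] with x hx hx2
      exact absurd hx2 hx
  obtain ⟨δ, hδ, hball⟩ := Metric.eventually_nhds_iff_ball.1 hev
  refine ⟨δ, hδ, fun x hx => (hball x hx).1, fun y' hy' y'' hy'' => ?_⟩
  have hall : ∀ x ∈ ball y δ, ∀ i, x ∈ closedBall (z i) (σ i) → 12 * σ i < L * ‖x - c i‖ :=
    fun x hx i hxi => (hball x hx).2.2 i ⟨x, hxi, (hball x hx).2.1⟩ hxi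
  set d := y'' - y' with hd
  have hseg : ∀ t ∈ Icc (0:ℝ) 1, y' + t • d ∈ ball y δ := fun t ht =>
    (convex_ball y δ).add_smul_sub_mem hy' hy'' ht
  have hcont : ContinuousOn (fun t : ℝ => T.toFun (y' + t • d)) (Icc 0 1) :=
    T.cont.comp (by fun_prop) fun t ht => (hball _ (hseg t ht)).1
  have key := norm_sub_le_of_right (L := L * ‖d‖) zero_le_one hcont ?_
  · simp only [zero_smul, add_zero, one_smul, sub_zero, mul_one] at key
    rw [hd, add_sub_cancel] at key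
    rw [norm_sub_rev, norm_sub_rev y' y'']
    exact key
  intro t ht
  set q := y' + t • d with hq
  have hqb : q ∈ ball y δ := hseg t ⟨ht.1, ht.2.le⟩
  have hadd : ∀ s, y' + (t + s) • d = q + s • d := fun s => by rw [hq]; module
  simp only [hadd]
  by_cases hex : ∃ i, ∃ δ' > 0, ∀ s ∈ Icc (0:ℝ) δ', q + s • d ∈ closedBall (z i) (σ i)
  · obtain ⟨i, δ', hδ', hin⟩ := hex
    refine ⟨δ', hδ', fun s hs hts => ?_⟩
    have hq2 : q + s • d ∈ ball y δ := by
      rw [← hadd]; exact hseg _ ⟨by linarith [ht.1, hs.1], hts⟩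
    have h0 := hin 0 ⟨le_rfl, hδ'.le⟩
    rw [zero_smul, add_zero] at h0
    rw [H.eq i _ (hin s hs), H.eq i q h0]
    have hp := W.pos i
    have hr : 12 * σ i / L ≤ σ i := by
      rw [div_le_iff₀ (by linarith)]; nlinarith
    have e1 := hall _ hq2 i (hin s hs)
    have e2 := hall _ hqb i h0
    refine (ffc_lip (hc2 i) (r := 12 * σ i / L) (by positivity) hr ?_ ?_).trans (le_of_eq ?_)
    · rw [div_le_iff₀ (by linarith)]; linarith
    · rw [div_le_iff₀ (by linarith)]; linarith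
    · rw [add_sub_cancel_left, norm_smul, Real.norm_of_nonneg hs.1]
      field_simp
  · push Not at hex
    have hall2 : ∀ i, ∃ δ' > 0, ∀ s ∈ Ioc (0:ℝ) δ', q + s • d ∉ closedBall (z i) (σ i) := by
      intro i
      rcases germ_dichotomy isClosed_closedBall (convex_closedBall (z i) (σ i)) q d with h | h
      · obtain ⟨δ', hδ', hh⟩ := h
        obtain ⟨s, hs, hn⟩ := hex i δ' hδ'
        exact absurd (hh s hs) hn
      · exact h
    have hq0 : ∀ i, q ∉ ball (z i) (σ i) := by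
      intro i hi
      obtain ⟨δ', hδ', hh⟩ := hall2 i
      have h1 : Tendsto (fun s : ℝ => q + s • d) (𝓝[>] 0) (𝓝 (q + (0:ℝ) • d)) := by
        refine Tendsto.mono_left ?_ nhdsWithin_le_nhds
        exact (continuous_const.add (continuous_id.smul continuous_const)).tendsto 0
      rw [zero_smul, add_zero] at h1
      obtain ⟨s, hs1, hs2⟩ := ((h1.eventually (isOpen_ball.mem_nhds hi)).and
        (Ioc_mem_nhdsGT hδ')).exists
      exact hh s hs2 (ball_subset_closedBall hs1)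
    have hfin : ∀ᶠ s in 𝓝[>] (0:ℝ), ∀ i ∈ {i | (closedBall (z i) (σ i) ∩ U).Nonempty},
        q + s • d ∉ closedBall (z i) (σ i) := by
      rw [eventually_all_finite hf]
      intro i _
      obtain ⟨δ', hδ', hh⟩ := hall2 i
      filter_upwards [Ioc_mem_nhdsGT hδ'] with s hs using hh s hs
    obtain ⟨δ', hδ', hh⟩ := (mem_nhdsGT_iff_exists_Ioc_subset).1 hfin
    refine ⟨δ', hδ', fun s hs hts => ?_⟩
    rcases hs.1.eq_or_lt with h0 | h0
    · rw [← h0, zero_smul, add_zero, sub_self, norm_zero, mul_zero]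
    · have hq2 : q + s • d ∈ ball y δ := by
        rw [← hadd]; exact hseg _ ⟨by linarith [ht.1, hs.1], hts⟩
      have hs3 : ∀ i, q + s • d ∉ ball (z i) (σ i) := by
        intro i hi
        exact hh ⟨h0, hs.2⟩ i ⟨_, ball_subset_closedBall hi, (hball _ hq2).2.1⟩
          (ball_subset_closedBall hi)
      rw [(H.off _ hs3).1, (H.off _ hq0).1, add_sub_cancel_left, norm_smul,
        Real.norm_of_nonneg hs.1]
      nlinarith [mul_nonneg hs.1 (norm_nonneg d)]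

/-- Lipschitz estimate along a segment -/
theorem seg_lip (H : IsStage W hc hκ hκ1 m T) (hΛ : IsOpen Λ)
    (hc2 : ∀ i, ‖c i - z i‖ ≤ σ i / 2) {y y' : V} (hy : segment ℝ y y' ⊆ Λ) {L : ℝ} (hL : 12 ≤ L)
    (hyL : ∀ x ∈ segment ℝ y y', ∀ i, x ∈ closedBall (z i) (σ i) → 12 * σ i < L * ‖x - c i‖) :
    ‖T.toFun y - T.toFun y'‖ ≤ L * ‖y - y'‖ := by
  have hseg : ∀ t ∈ Icc (0:ℝ) 1, y + t • (y' - y) ∈ segment ℝ y y' := fun t ht => by
    rw [segment_eq_image']
    exact ⟨t, ht, rfl⟩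
  have hcont : ContinuousOn (fun t : ℝ => T.toFun (y + t • (y' - y))) (Icc 0 1) :=
    T.cont.comp (by fun_prop) fun t ht => hy (hseg t ht)
  have key := norm_sub_le_of_right (L := L * ‖y' - y‖) zero_le_one hcont ?_
  · simp only [zero_smul, add_zero, one_smul, sub_zero, mul_one, add_sub_cancel] at key
    rw [norm_sub_rev, norm_sub_rev y y']
    exact key
  intro t ht
  have ht1 := hseg t ⟨ht.1, ht.2.le⟩
  obtain ⟨δ, hδ, -, hδL⟩ := H.local_lip hΛ hc2 (hy ht1) hL (hyL _ ht1)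
  refine ⟨δ / 2 / (‖y' - y‖ + 1), by positivity, fun s hs _ => ?_⟩
  have h1 : y + (t + s) • (y' - y) - (y + t • (y' - y)) = s • (y' - y) := by module
  have h2 := hδL (y + (t + s) • (y' - y)) (by
    rw [mem_ball, dist_eq_norm, h1, norm_smul, Real.norm_of_nonneg hs.1]
    have h3 := hs.2
    rw [le_div_iff₀ (by positivity)] at h3
    nlinarith [norm_nonneg (y' - y), hs.1]) (y + t • (y' - y)) (mem_ball_self hδ)
  rw [h1, norm_smul, Real.norm_of_nonneg hs.1] at h2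
  linarith

/-- edge lengths (sup norm) -/
theorem var_le (H : IsStage W hc hκ hκ1 m T) (hΛ : IsOpen Λ)
    (hc2 : ∀ i, ‖c i - z i‖ ≤ σ i / 2) {γ : ℝ → V} {a b : ℝ} (hab : a ≤ b)
    (hγ : ContinuousOn γ (Icc a b)) (hγΛ : ∀ t ∈ Icc a b, γ t ∈ Λ) {L : ℝ} (hL : 12 ≤ L)
    (hyL : ∀ t ∈ Icc a b, ∀ i, γ t ∈ closedBall (z i) (σ i) → 12 * σ i < L * ‖γ t - c i‖) :
    var (fun t => T.toFun (γ t)) (Icc a b) ≤ ENNReal.ofReal L * var γ (Icc a b) := by
  refine eVariationOn_le_of_local hab fun t ht => ?_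
  obtain ⟨δ, hδ, -, hδL⟩ := H.local_lip hΛ hc2 (hγΛ t ht) hL (hyL t ht)
  obtain ⟨δ', hδ', hh⟩ := Metric.continuousWithinAt_iff.1 (hγ t ht) δ hδ
  refine ⟨δ', hδ', fun s hs s' hs' h1 h2 => ?_⟩
  rw [edist_dist, edist_dist, dist_eq_norm, dist_eq_norm, ← ENNReal.ofReal_mul (by linarith)]
  refine ENNReal.ofReal_le_ofReal (hδL _ ?_ _ ?_)
  · exact mem_ball.2 (hh hs (by rwa [Real.dist_eq]))
  · exact mem_ball.2 (hh hs' (by rwa [Real.dist_eq]))

/-- edge lengths (Euclidean) -/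
theorem len_le (H : IsStage W hc hκ hκ1 m T) (hΛ : IsOpen Λ)
    (hc2 : ∀ i, ‖c i - z i‖ ≤ σ i / 2) {γ : ℝ → V} {a b : ℝ} (hab : a ≤ b)
    (hγ : ContinuousOn γ (Icc a b)) (hγΛ : ∀ t ∈ Icc a b, γ t ∈ Λ) {L : ℝ} (hL : 12 ≤ L)
    (hyL : ∀ t ∈ Icc a b, ∀ i, γ t ∈ closedBall (z i) (σ i) → 12 * σ i < L * ‖γ t - c i‖) :
    len (fun t => T.toFun (γ t)) (Icc a b) ≤ ENNReal.ofReal (2 * L) * len γ (Icc a b) := by
  refine (len_le_var _ _).trans ?_
  rw [ENNReal.ofReal_mul (by norm_num), mul_assoc, ENNReal.ofReal_ofNat]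
  gcongr
  refine (H.var_le hΛ hc2 hab hγ hγΛ hL hyL).trans ?_
  gcongr
  exact var_le_len _ _

end IsStage

/-- **The stage with prescribed cores and shells**: after `T` the points off the balls
`‖y - c i‖ < τ i` miss the closed middle cubes `‖y - z i‖ ≤ (1 - k i) σ i`. -/
theorem exists_ffstage (hΛ : IsOpen Λ) (W : Cubes Λ z σ) (hc2 : ∀ i, ‖c i - z i‖ ≤ σ i / 2)
    {τ k : ι → ℝ} (hτ : ∀ i, 0 < τ i) (hk : ∀ i, 0 < k i) (hk1 : ∀ i, k i < 1 / 2) :
    ∃ (κ : ι → ℝ) (m : ι → ℕ) (hc : ∀ i, ‖c i - z i‖ < σ i) (hκ : ∀ i, 0 < κ i)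
      (hκ1 : ∀ i, κ i < 1 / 2) (T : ConHomeo Λ Λ), IsStage W hc hκ hκ1 m T ∧
      (∀ i, (1 - κ i) ^ m i = 1 - k i) ∧ (∀ i, 3 / 2 * (1 / 2) ^ m i * σ i < τ i) ∧
      ∀ i, ∀ y ∈ closedBall (z i) (σ i), τ i ≤ ‖y - c i‖ → (1 - k i) * σ i < ‖T.toFun y - z i‖ := by
  choose m hm hmτ using fun i => exists_core (hτ i) (σ i)
  choose κ hκ hκ1 hκm using fun i => exists_kap (hk i) (hk1 i) (hm i)
  have hc : ∀ i, ‖c i - z i‖ < σ i := fun i => by linarith [hc2 i, W.pos i]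
  obtain ⟨T, hT⟩ := exists_isStage hΛ W hc hκ hκ1 m
  refine ⟨κ, m, hc, hκ, hκ1, T, hT, hκm, hmτ, fun i y hy h => ?_⟩
  rw [← hκm i]
  exact hT.shell hc2 hy ((hmτ i).trans_le h)

end Vale.Agent.P073.H471
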