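import Vale.Agent.P073.H142.EstKill
import Vale.Agent.P073.H267.Num
import Vale.Agent.P073.H581.TileBX
import Vale.Agent.P073.H581.OutCl2
import Vale.Agent.P073.H73.K2S

/-!
# P073, [TAIL-OUT]: the last step of `K2C`

`f` is the map before the collapse (`KILL`).  The structure `Last` lists what is needed about `f`;
`outS_of_last` gives the conclusion `OutS` of `K2C` for `g = Φ ∘ f`.
-/

open Set Metric Topology Filter
open scoped ENNReal

namespace Vale.Agent.P073.H471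

open _root_.P073 _root_.P073.Net _root_.P073.PA691 _root_.P073.TM
open Vale.Agent.P073.St (V)
open Vale.Agent.P073.SQ (ev)
open Vale.Agent.P073.H73 (Mesh sqr faceL onSeg Adapted Out OutS ELip offY)
open Vale.Agent.P073.H193 (Edges edges)
open Vale.Agent.P073.H267
open Vale.Agent.P073.H581 (NearAt ImgAt TileAt TileIff)
open _root_.P073.H142 (FStar Num ConeF ConeAt)

variable {Ω Λ : Set V} {M : Mesh Ω} {v : V} {K : BoxCx Λ v} {S : Rad K} {W : Wid K S}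
  {R : Fac K} {f : V → V} {N δ : M.κ → ℝ} {Φ : ConHomeo Λ Λ} {k : M.κ}

/-! ### The edges -/

theorem edge_lip (H : Small W R f M.F N δ) (HΦ : IsKill W R Φ) {A : Set V} (hA : A ⊆ M.F k)
    (hc : Convex ℝ A) (hf : ContinuousOn f A) {L : ℝ} (hL : 0 ≤ L) (hδ : δ k ≤ L)
    (h : ∀ x ∈ A, ConeAt W L A f x) : ∀ x ∈ A, ∀ y ∈ A,
      ‖Φ.toFun (f x) - Φ.toFun (f y)‖ ≤ 8 * L * ‖x - y‖ :=
  _root_.P073.H142.lip_of_local (g := fun x => Φ.toFun (f x)) hc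
    fun x hx => ConeAt.est H HΦ hA hf hx hL hδ (h x hx)

theorem elip_face {g h : V → V} {C₁ D₀ ε : ℝ} (hC₁ : 0 ≤ C₁) (hε : 0 < ε)
    (hD₀ : 0 ≤ D₀) {b : (edges M).ε → ℝ} (hb : Num k h D₀ ε b)
    (hg : ∀ e, (edges M).seg e ⊆ M.F k → ∀ x ∈ (edges M).seg e, ∀ y ∈ (edges M).seg e,
      ‖g x - g y‖ ≤ 8 * (C₁ * (b e / ‖(edges M).b e - (edges M).a e‖)) * ‖x - y‖) :
    ∀ e, H304.IsEdge M e → segment ℝ e.1 e.2 ⊆ M.F k → ∀ ℓ : ℝ, 0 ≤ ℓ →
      len (onSeg h e) (Icc 0 1) ≤ ENNReal.ofReal ℓ → ∀ x ∈ segment ℝ e.1 e.2,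
      ∀ y ∈ segment ℝ e.1 e.2,
      ‖g x - g y‖ ≤ 8 * C₁ * D₀ * ((ℓ + ε) / ‖e.2 - e.1‖) * ‖x - y‖ := by
  intro e he hek ℓ hℓ hlen x hx y hy
  obtain ⟨e', he', hne'⟩ : ∃ e' : (edges M).ε,
      segment ℝ ((edges M).a e') ((edges M).b e') = segment ℝ e.1 e.2 ∧ True := by
    rcases _root_.P073.H950.isEdge_iff.1 he with h1 | h1
    · exact ⟨⟨(e.1, e.2), h1⟩, rfl, trivial⟩
    · exact ⟨⟨(e.2, e.1), h1⟩, segment_symm ℝ _ _, trivial⟩
  have hsub : (edges M).seg e' ⊆ M.F k := by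
    show segment ℝ ((edges M).a e') ((edges M).b e') ⊆ M.F k
    rw [he']; exact hek
  have hnorm : ‖(edges M).b e' - (edges M).a e'‖ = ‖e.2 - e.1‖ :=
    _root_.P073.H950.norm_eq_of_seg_eq (e := ((edges M).a e', (edges M).b e')) (e' := e) he'
  have hlen' : len (onSeg h ((edges M).a e', (edges M).b e')) (Icc 0 1) =
      len (onSeg h e) (Icc 0 1) :=
    _root_.P073.H950.len_eq_of_seg_eq (e := ((edges M).a e', (edges M).b e')) (e' := e)
      ((edges M).ne e') he.ne he' h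
  have h1 := hg e' hsub x (by show x ∈ segment ℝ _ _; rw [he']; exact hx) y
    (by show y ∈ segment ℝ _ _; rw [he']; exact hy)
  rw [hnorm] at h1
  refine h1.trans (mul_le_mul_of_nonneg_right ?_ (norm_nonneg _))
  obtain ⟨t, ht, -, h2⟩ := hb.le
  have h3 : b e' ≤ D₀ * (ℓ + ε) := by
    have h4 : ENNReal.ofReal (b e') ≤ ENNReal.ofReal (D₀ * (ℓ + ε)) := by
      rw [ENNReal.ofReal_mul hD₀, ENNReal.ofReal_add hℓ hε.le]
      refine (h2 e' hsub).trans ?_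
      rw [hlen']
      gcongr
    exact (ENNReal.ofReal_le_ofReal_iff (by positivity)).1 h4
  have hpos : 0 < ‖e.2 - e.1‖ := by rw [norm_pos_iff, sub_ne_zero]; exact he.ne.symm
  calc 8 * (C₁ * (b e' / ‖e.2 - e.1‖)) ≤ 8 * (C₁ * (D₀ * (ℓ + ε) / ‖e.2 - e.1‖)) := by
        gcongr
    _ = 8 * C₁ * D₀ * ((ℓ + ε) / ‖e.2 - e.1‖) := by ring

/-! ### The last map -/

/-- The estimates for the map `f` (before the collapse) on the face `k`: the cone estimates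
`ConeF`, and their analogue on the edges. -/
def FaceOK (W : Wid K S) (h f : V → V) (C₁ D₀ ε : ℝ) (k : M.κ) : Prop :=
  ∃ (T : FStar (edges M) k) (b : (edges M).ε → ℝ), Num k h D₀ ε b ∧
    (∀ e, (edges M).seg e ⊆ M.F k → 0 < b e) ∧ ConeF W T C₁ b f ∧
    ∀ e, (edges M).seg e ⊆ M.F k → ∀ x ∈ (edges M).seg e,
      ConeAt W (C₁ * (b e / ‖(edges M).b e - (edges M).a e‖)) ((edges M).seg e) f x

/-- smallness for the collapse -/
def SmallFor (W : Wid K S) (h f : V → V) (C₁ D₀ ε : ℝ) (k : M.κ) (t : ℝ) : Prop :=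
  FaceOK W h f C₁ D₀ ε k → ∃ (T : FStar (edges M) k) (b : (edges M).ε → ℝ),
    Num k h D₀ ε b ∧ (∀ e, (edges M).seg e ⊆ M.F k → 0 < b e) ∧ ConeF W T C₁ b f ∧
    (∀ e, (edges M).seg e ⊆ M.F k → ∀ x ∈ (edges M).seg e,
      ConeAt W (C₁ * (b e / ‖(edges M).b e - (edges M).a e‖)) ((edges M).seg e) f x) ∧
    (∀ e, (edges M).seg e ⊆ M.F k → t ≤ T.con C₁ b e) ∧
    ∀ e, (edges M).seg e ⊆ M.F k → t ≤ C₁ * (b e / ‖(edges M).b e - (edges M).a e‖)

theorem exists_smallFor (W : Wid K S) (h f : V → V) {C₁ D₀ ε : ℝ} (hC₁ : 0 < C₁) (k : M.κ) :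
    ∃ t₀ > 0, ∀ t ≤ t₀, SmallFor W h f C₁ D₀ ε k t := by
  by_cases H : FaceOK W h f C₁ D₀ ε k
  · obtain ⟨T, b, h1, h2, h3, h4⟩ := H
    obtain ⟨t1, ht1, h5⟩ := T.exists_eps hC₁ h2
    obtain ⟨t2, ht2, h6⟩ : ∃ t2 > 0, ∀ e, (edges M).seg e ⊆ M.F k →
        t2 ≤ C₁ * (b e / ‖(edges M).b e - (edges M).a e‖) := by
      obtain ⟨t, ht, hle⟩ := Boxes.exists_pos_le ((edges M).fin_face k)
        (fun e => if 0 < b e then C₁ * (b e / ‖(edges M).b e - (edges M).a e‖) else 1)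
        (fun e => by
          have h7 := _root_.P073.H142.elen_pos (edges M) e
          show 0 < if 0 < b e then _ else _
          split_ifs with h8
          · positivity
          · exact one_pos)
      refine ⟨t, ht, fun e he => ?_⟩
      have h8 := hle e he
      rwa [if_pos (h2 e he)] at h8
    refine ⟨min t1 t2, lt_min ht1 ht2, fun t ht _ => ⟨T, b, h1, h2, h3, h4, fun e he => ?_,
      fun e he => ?_⟩⟩
    · exact (ht.trans (min_le_left _ _)).trans (h5 e he)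
    · exact (ht.trans (min_le_right _ _)).trans (h6 e he)
  · exact ⟨1, one_pos, fun t _ h => absurd h H⟩

/-- the constant `D` -/
noncomputable def tD (p C₁ D₀ D₁ : ℝ) : ℝ :=
  4 * (2 * (D₁ * 16)) + 2 * (_root_.P073.H155.dp p * (8 * C₁ * D₀) ^ p * 2 ^ (p - 1)) + 8 * C₁ * D₀

/-- the constant `C` -/
noncomputable def tC (C₁ D₀ c : ℝ) : ℝ := 8 * C₁ * (1 + 12 * c ^ 2) * (D₀ * 2)

/-- **The facts about the last map `f`** (before the collapse). `C₁`, `D₀` are the constants on the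
faces in `G`, and `C₁'`, `D₀'` those on all faces. -/
structure Last (w : V) (ρ : V → ℝ) (W : Wid K S) (M : Mesh Ω) (h f : ConHomeo Ω Λ) (P : Set M.ι)
    (Y : Set M.κ) (ε : M.κ → ℝ) (C₁ D₀ C₁' D₀' D₁ : ℝ) : Prop where
  near : NearAt D₁ ρ M h.toFun f.toFun
  img : ImgAt M P h.toFun f.toFun
  tile : TileAt ρ w M P h.toFun f.toFun
  good : ∀ k ∈ offY M Y, FaceOK W h.toFun f.toFun C₁ D₀ (ε k) k
  all : ∀ k, FaceOK W h.toFun f.toFun C₁' D₀' (ε k) k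

section

variable {ρ : V → ℝ} {W' : Wid K S} {P : Set M.ι} {Y : Set M.κ} {h f : ConHomeo Ω Λ}
  {ε t : M.κ → ℝ} {C₁ D₀ C₁' D₀' D₁ p : ℝ}

/-- the length clause of `K2C` -/
abbrev LenC (h : V → V) : V × V → ℝ≥0∞ → Prop := fun e ℓ => len (onSeg h e) (Icc 0 1) ≤ ℓ

theorem mesh_sub' (M : Mesh Ω) (k : M.κ) : M.F k ⊆ Ω := H193.mesh_sub M k

/-- the clauses of `Out` and `ELip` for a set of faces -/
theorem out_of (C : Cells ρ v K) (hρ : SizeFn Λ ρ) (hp : 1 ≤ p) (hC₁ : 0 < C₁) (hD₀ : 0 ≤ D₀)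
    (hD₁ : 1 ≤ D₁)
    (hA : H73.Aligned v ρ M h.toFun P) {G : Set M.κ}
    (near : NearAt D₁ ρ M h.toFun f.toFun) (img : ImgAt M P h.toFun f.toFun)
    (tile : TileAt ρ v M P h.toFun f.toFun) (hε : ∀ k, 0 < ε k)
    (good : ∀ k ∈ G, SmallFor W h.toFun f.toFun C₁ D₀ (ε k) k (t k))
    (good' : ∀ k ∈ G, FaceOK W h.toFun f.toFun C₁ D₀ (ε k) k)
    (H : Small W R f.toFun M.F N t) (HΦ : IsKill W R Φ) :
    Out p (tD p C₁ D₀ D₁) (tC C₁ D₀) v ρ M h.toFun P G ε (f.trans Φ) (LenC h.toFun) ∧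
      ELip (tD p C₁ D₀ D₁) M G ε (f.trans Φ) (LenC h.toFun) := by
  have hval : ∀ x, (f.trans Φ).toFun x = Φ.toFun (f.toFun x) := fun x => rfl
  have hΦt : TileIff Λ ρ v Φ.toFun := H581.tileIff_kill C hρ HΦ
  have hdp := _root_.P073.H155.dp_pos p
  have hD1 : 4 * (2 * (D₁ * 16)) ≤ tD p C₁ D₀ D₁ := by
    have h1 : 0 ≤ 2 * (_root_.P073.H155.dp p * (8 * C₁ * D₀) ^ p * 2 ^ (p - 1)) := by positivity
    have h2 : 0 ≤ 8 * C₁ * D₀ := by positivity
    unfold tD; linarith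
  have hD2 : 2 * (_root_.P073.H155.dp p * (8 * C₁ * D₀) ^ p * 2 ^ (p - 1)) ≤
      tD p C₁ D₀ D₁ := by
    have h2 : 0 ≤ 8 * C₁ * D₀ := by positivity
    unfold tD; linarith
  have hD3 : 8 * C₁ * D₀ ≤ tD p C₁ D₀ D₁ := by
    have h1 : 0 ≤ 2 * (_root_.P073.H155.dp p * (8 * C₁ * D₀) ^ p * 2 ^ (p - 1)) := by positivity
    unfold tD; linarith
  refine ⟨⟨?_, ?_, ?_, ?_, ?_⟩, ?_⟩
  · -- close
    intro k x hx m z ht hxt
    have hxΩ := mesh_sub' M k hx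
    have hp' : ∀ y ∈ Λ, 0 ≤ ρ y := fun y hy => (hρ.pos y hy).le
    have n1 := near k x hx
    have n2 : H581.Near 16 ρ (f.toFun x) (Φ.toFun (f.toFun x)) :=
      H581.Near.of_tileIff hρ hΦt (f.mapsTo hxΩ)
    have n3 := n1.trans n2 hD₁ (by norm_num) (hp' _ (h.mapsTo hxΩ))
      (hp' _ (Φ.mapsTo (f.mapsTo hxΩ)))
    have n4 := n3.close hρ (by positivity) ht hxt
    rw [hval]
    exact n4.trans (div_le_div_of_nonneg_right hD1 (by positivity))
  · -- lip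
    intro k hk E ℓ Kc hE hℓ x hx y hy
    obtain ⟨T, b, h1, h2, h3, h4, h5, h6⟩ := good k hk (good' k hk)
    have hest : T.Est (8 * C₁) b (fun x => Φ.toFun (f.toFun x)) :=
      ConeF.est hC₁.le (fun e he => (h2 e he).le) H HΦ (f.cont.mono (mesh_sub' M k)) h5 h3
    exact hest.lip' (by positivity) hD₀ (hε k) h1 hE hℓ x hx y hy
  · -- energy
    intro k hk E ℓ a l σ hσ hF hE hℓ
    obtain ⟨T, b, h1, h2, h3, h4, h5, h6⟩ := good k hk (good' k hk)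
    have hest : T.Est (8 * C₁) b (fun x => Φ.toFun (f.toFun x)) :=
      ConeF.est hC₁.le (fun e he => (h2 e he).le) H HΦ (f.cont.mono (mesh_sub' M k)) h5 h3
    refine (hest.energy' (by positivity) hD₀ hp (hε k) h1 hσ hF hE hℓ).trans ?_
    gcongr
  · -- image
    intro i hi
    have hB := H581.tbox_of_aligned (h := h) hA hi
    show (fun x => Φ.toFun (f.toFun x)) '' M.Q i = _
    rw [← hΦt.image_homeo hρ Φ hB, ← img i hi, image_image]
  · -- tile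
    intro i hi x hx m z ht hxt
    have hxQ : x ∈ M.Q i := (M.poly i).cpt.isClosed.frontier_subset hx
    exact (hΦt.iff m z ht _ (f.mapsTo (M.sub i hxQ))).2 (tile i hi x hx m z ht hxt)
  · -- elip
    intro k hk e he hek ℓ hℓ hlen x hx y hy
    obtain ⟨T, b, h1, h2, h3, h4, h5, h6⟩ := good k hk (good' k hk)
    have hedge : ∀ e, (edges M).seg e ⊆ M.F k → ∀ x ∈ (edges M).seg e,
        ∀ y ∈ (edges M).seg e, ‖Φ.toFun (f.toFun x) - Φ.toFun (f.toFun y)‖ ≤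
          8 * (C₁ * (b e / ‖(edges M).b e - (edges M).a e‖)) * ‖x - y‖ := by
      intro e he
      have h7 := h2 e he
      refine edge_lip H HΦ he (convex_segment _ _) (f.cont.mono (he.trans (mesh_sub' M k)))
        (by positivity) (h6 e he) (h4 e he)
    refine (elip_face (g := fun x => Φ.toFun (f.toFun x)) hC₁.le (hε k) hD₀ h1 hedge e he hek ℓ
      hℓ hlen x hx y hy).trans ?_
    have := hε k
    gcongr

/-- the faces are compact -/
theorem isCompact_face (M : Mesh Ω) (k : M.κ) : IsCompact (M.F k) :=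
  H155.Fat.isCompact (M.fat k)

/-- **[TAIL-OUT]** the conclusion of `K2C` from the facts about the last map before the
collapse; the sharp clauses are a hypothesis on all sufficiently strong collapses -/
theorem outS_of_last (hΩ : IsOpen Ω) (hΛ : IsOpen Λ) (C : Cells ρ v K) (hρ : SizeFn Λ ρ)
    (hp : 1 ≤ p) (hC₁ : 0 < C₁) (hD₀ : 0 ≤ D₀) (hC₁' : 0 < C₁') (hD₀' : 0 ≤ D₀') (hD₁ : 1 ≤ D₁)
    (hA : H73.Aligned v ρ M h.toFun P) (hε : ∀ k, 0 < ε k)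
    (L : Last v ρ W M h f P Y ε C₁ D₀ C₁' D₀' D₁) {μ r η₀ δ : ℝ}
    (hsharp : ∃ t₀ : M.κ → ℝ, (∀ k, 0 < t₀ k) ∧ ∀ (R : Fac K) (N t : M.κ → ℝ)
      (Φ : ConHomeo Λ Λ), (∀ k, 0 < t k) → (∀ k, t k ≤ t₀ k) → Small W R f.toFun M.F N t →
      IsKill W R Φ → H239.SharpOut p η₀ δ μ r v ρ M h.toFun univ Y ε (f.trans Φ)) :
    ∃ g : ConHomeo Ω Λ, OutS p (tD p C₁ D₀ D₁) (tC C₁ D₀) μ (tD p C₁' D₀' D₁) (tC C₁' D₀')
      r η₀ δ v ρ M h.toFun P Y ε g (LenC h.toFun) := by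
  obtain ⟨t₀, ht₀, hsharp⟩ := hsharp
  choose t₁ ht₁ h₁ using fun k => exists_smallFor W h.toFun f.toFun (D₀ := D₀) (ε := ε k) hC₁ k
  choose t₂ ht₂ h₂ using fun k => exists_smallFor W h.toFun f.toFun (D₀ := D₀') (ε := ε k) hC₁' k
  set t : M.κ → ℝ := fun k => min (t₀ k) (min (t₁ k) (t₂ k)) with ht
  have htpos : ∀ k, 0 < t k := fun k => lt_min (ht₀ k) (lt_min (ht₁ k) (ht₂ k))
  obtain ⟨R, N, H⟩ := exists_small hΩ f W M.F (isCompact_face M) (mesh_sub' M) M.ffin htpos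
  obtain ⟨Φ, HΦ⟩ := exists_kill hΛ W R
  have o1 := out_of C hρ hp hC₁ hD₀ hD₁ hA (G := offY M Y) (t := t) L.near L.img L.tile hε
    (fun k _ => h₁ k (t k) ((min_le_right _ _).trans (min_le_left _ _))) L.good H HΦ
  have o2 := out_of C hρ hp hC₁' hD₀' hD₁ hA (G := univ) (t := t) L.near L.img L.tile hε
    (fun k _ => h₂ k (t k) ((min_le_right _ _).trans (min_le_right _ _))) (fun k _ => L.all k) H
    HΦ
  exact ⟨f.trans Φ, o1.1, o2.1, o1.2, o2.2,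
    hsharp R N t Φ htpos (fun k => min_le_left _ _) H HΦ⟩

end

end Vale.Agent.P073.H471
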