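import Mathlib.MeasureTheory.Constructions.HaarToSphere
import Mathlib.MeasureTheory.Measure.Lebesgue.EqHaar
import Mathlib.MeasureTheory.Integral.Average
import Mathlib.Analysis.SpecialFunctions.Integrability.Basic
import Mathlib.MeasureTheory.Measure.Prod
import Mathlib.MeasureTheory.Measure.Haar.Unique

/-!
# P073, block FF2: choice of the centre of a radial expansion by averaging

For `0 ≤ p < 3` and a measurable map `f : X → ℝ³`, in every cube `B = closedBall a s` (sup norm)
there is a centre `c` in the middle half of the cube, outside of any prescribed null set, with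
`∫_{f ∈ B} (s / ‖f x - c‖)^p dν ≤ C_p ν(f ∈ B)`.
-/

open Set Metric Topology Filter MeasureTheory
open scoped ENNReal NNReal

namespace Vale.Agent.P073.H471

/-- the weight of the radial expansion -/
noncomputable def wt (p s : ℝ) (z : Fin 3 → ℝ) : ℝ≥0∞ :=
  (ENNReal.ofReal s / ENNReal.ofReal ‖z‖) ^ p

/-- the constant of the averaging lemma -/
noncomputable def Cw (p : ℝ) : ℝ≥0∞ := ∫⁻ z in ball (0 : Fin 3 → ℝ) 2, wt p 1 z

theorem measurable_wt (p s : ℝ) : Measurable (wt p s) := by
  unfold wt; fun_prop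

theorem wt_mono_s {p s t : ℝ} (hp : 0 ≤ p) (h : s ≤ t) (z : Fin 3 → ℝ) : wt p s z ≤ wt p t z := by
  unfold wt; gcongr

theorem wt_scale {p s : ℝ} (hs : 0 < s) (z : Fin 3 → ℝ) : wt p s z = wt p 1 (s⁻¹ • z) := by
  unfold wt
  congr 1
  rw [norm_smul, norm_inv, Real.norm_of_nonneg hs.le, ENNReal.ofReal_mul (by positivity),
    ENNReal.ofReal_inv_of_pos hs, ENNReal.ofReal_one]
  have h1 : ENNReal.ofReal s ≠ 0 := by simpa using hs
  have h2 : ENNReal.ofReal s ≠ ∞ := ENNReal.ofReal_ne_top
  rw [one_div, ENNReal.mul_inv (Or.inl (ENNReal.inv_ne_zero.2 h2))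
    (Or.inl (ENNReal.inv_ne_top.2 h1)), inv_inv, ENNReal.div_eq_inv_mul, mul_comm]

theorem Cw_ne_top {p : ℝ} (hp3 : p < 3) : Cw p ≠ ∞ := by
  have hi : IntegrableOn (fun x : Fin 3 → ℝ => ‖x‖ ^ (-p)) (ball 0 2) volume := by
    rw [integrableOn_fun_norm_addHaar volume (f := fun t : ℝ => t ^ (-p))]
    have h3 : Module.finrank ℝ (Fin 3 → ℝ) - 1 = 2 := by simp
    rw [h3]
    have h4 : IntegrableOn (fun y : ℝ => y ^ (2 - p)) (Ioo 0 2) volume := by
      have := (intervalIntegral.intervalIntegrable_rpow' (a := 0) (b := 2) (r := 2 - p)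
        (by linarith)).1
      exact this.mono_set Ioo_subset_Ioc_self
    refine h4.congr_fun (fun y hy => ?_) measurableSet_Ioo
    simp only [smul_eq_mul]
    rw [sub_eq_add_neg, Real.rpow_add hy.1]
    norm_num
  have h1 := hi.lintegral_lt_top
  refine ne_of_lt (lt_of_le_of_lt (le_of_eq ?_) h1)
  rw [Cw]
  have hne : ∀ᵐ z : Fin 3 → ℝ ∂(volume.restrict (ball 0 2)), z ≠ 0 := by
    refine ae_restrict_of_ae ?_
    exact (measure_singleton (0 : Fin 3 → ℝ) : volume _ = 0) |> compl_mem_ae_iff.2
  refine lintegral_congr_ae ?_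
  filter_upwards [hne] with z hz
  have hz' : 0 < ‖z‖ := norm_pos_iff.2 hz
  rw [wt, ENNReal.ofReal_one, one_div, ENNReal.inv_rpow, ← ENNReal.rpow_neg,
    ENNReal.ofReal_rpow_of_pos hz']

/-- the average over the centres, for one point -/
theorem lintegral_wt_le {p s : ℝ} (hs : 0 < s) {a y : Fin 3 → ℝ}
    (hy : y ∈ closedBall a s) :
    ∫⁻ c in closedBall a (s / 2), wt p s (y - c) ≤ Cw p * volume (closedBall a (s / 2)) := by
  have hsub : closedBall a (s / 2) ⊆ ball y (2 * s) := by
    intro c hc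
    rw [mem_ball]
    rw [mem_closedBall] at hc hy
    have := dist_triangle c a y
    rw [dist_comm a y] at this
    linarith
  calc ∫⁻ c in closedBall a (s / 2), wt p s (y - c)
      ≤ ∫⁻ c in ball y (2 * s), wt p s (y - c) := lintegral_mono_set hsub
    _ = ∫⁻ c, (ball (0 : Fin 3 → ℝ) (2 * s)).indicator (wt p s) (y - c) := by
        rw [← lintegral_indicator measurableSet_ball]
        refine lintegral_congr fun c => ?_
        by_cases h : c ∈ ball y (2 * s)
        · rw [indicator_of_mem h, indicator_of_mem]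
          rw [mem_ball_zero_iff, ← dist_eq_norm, dist_comm]; exact h
        · rw [indicator_of_notMem h, indicator_of_notMem]
          rw [mem_ball_zero_iff, ← dist_eq_norm, dist_comm]; exact h
    _ = ∫⁻ z, (ball (0 : Fin 3 → ℝ) (2 * s)).indicator (wt p s) z :=
        lintegral_sub_left_eq_self _ y
    _ = ∫⁻ z, (ball (0 : Fin 3 → ℝ) 2).indicator (wt p 1) (s⁻¹ • z) := by
        refine lintegral_congr fun z => ?_
        have hiff : z ∈ ball (0 : Fin 3 → ℝ) (2 * s) ↔ s⁻¹ • z ∈ ball (0 : Fin 3 → ℝ) 2 := by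
          rw [mem_ball_zero_iff, mem_ball_zero_iff, norm_smul, norm_inv,
            Real.norm_of_nonneg hs.le, inv_mul_eq_div, div_lt_iff₀ hs]
        by_cases h : z ∈ ball (0 : Fin 3 → ℝ) (2 * s)
        · rw [indicator_of_mem h, indicator_of_mem (hiff.1 h), wt_scale hs]
        · rw [indicator_of_notMem h, indicator_of_notMem (fun h' => h (hiff.2 h'))]
    _ = ∫⁻ z, (ball (0 : Fin 3 → ℝ) 2).indicator (wt p 1) z
          ∂(Measure.map (fun z : Fin 3 → ℝ => s⁻¹ • z) volume) := by
        rw [lintegral_map ((measurable_wt p 1).indicator measurableSet_ball) (by fun_prop)]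
    _ = ENNReal.ofReal (s ^ 3) * Cw p := by
        have := Measure.map_addHaar_smul (volume : Measure (Fin 3 → ℝ)) (r := s⁻¹)
          (inv_ne_zero hs.ne')
        have e : (fun z : Fin 3 → ℝ => s⁻¹ • z) = (s⁻¹ • ·) := rfl
        rw [e, this, lintegral_smul_measure, lintegral_indicator measurableSet_ball, Cw,
          smul_eq_mul]
        congr 2
        simp only [Module.finrank_fintype_fun_eq_card, Fintype.card_fin, inv_pow, inv_inv]
        exact abs_of_pos (by positivity)
    _ = Cw p * volume (closedBall a (s / 2)) := by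
        rw [Real.volume_pi_closedBall _ (by positivity), mul_comm]
        simp only [Fintype.card_fin]
        congr 3
        ring

/-- **FF2**: the choice of the centre -/
theorem exists_center {p s : ℝ} {X : Type*} [MeasurableSpace X] (ν : Measure X)
    [SFinite ν] {f : X → Fin 3 → ℝ} (hf : AEMeasurable f ν) (a : Fin 3 → ℝ)
    (hs : 0 < s) {N : Set (Fin 3 → ℝ)} (hN : volume N = 0) :
    ∃ c ∈ closedBall a (s / 2), c ∉ N ∧
      ∫⁻ x in f ⁻¹' closedBall a s, wt p s (f x - c) ∂ν ≤ Cw p * ν (f ⁻¹' closedBall a s) := by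
  classical
  set B := closedBall a s with hB
  set A := closedBall a (s / 2) with hA
  set g := hf.mk f with hg
  have hgm : Measurable g := hf.measurable_mk
  have hfg : f =ᵐ[ν] g := hf.ae_eq_mk
  have hBm : MeasurableSet B := isClosed_closedBall.measurableSet
  have hAm : MeasurableSet A := isClosed_closedBall.measurableSet
  have hpre : f ⁻¹' B =ᵐ[ν] g ⁻¹' B := by
    filter_upwards [hfg] with x hx
    show (f x ∈ B) = (g x ∈ B)
    rw [hx]
  have hset : ν (f ⁻¹' B) = ν (g ⁻¹' B) := measure_congr hpre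
  have hint : ∀ c, ∫⁻ x in f ⁻¹' B, wt p s (f x - c) ∂ν = ∫⁻ x in g ⁻¹' B, wt p s (g x - c) ∂ν := by
    intro c
    rw [Measure.restrict_congr_set hpre]
    refine lintegral_congr_ae (ae_restrict_of_ae ?_)
    filter_upwards [hfg] with x hx
    rw [hx]
  have hv : volume A ≠ 0 := by
    rw [hA, Real.volume_pi_closedBall _ (by positivity)]
    exact (ENNReal.ofReal_pos.2 (by positivity)).ne'
  have hvt : volume A ≠ ∞ := measure_closedBall_lt_top.ne
  have : IsFiniteMeasure (volume.restrict A) :=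
    ⟨by rw [Measure.restrict_apply_univ]; exact hvt.lt_top⟩
  have hrest : (volume.restrict A) ≠ 0 := by
    intro h
    rw [Measure.restrict_eq_zero] at h
    exact hv h
  have hjoint : Measurable (fun q : (Fin 3 → ℝ) × X => wt p s (g q.2 - q.1)) :=
    (measurable_wt p s).comp ((hgm.comp measurable_snd).sub measurable_fst)
  have hm : Measurable (fun c => ∫⁻ x in g ⁻¹' B, wt p s (g x - c) ∂ν) :=
    hjoint.lintegral_prod_right'
  have hN' : (volume.restrict A) (N ∪ Aᶜ) = 0 := by
    refine measure_union_null ?_ ?_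
    · exact le_antisymm ((Measure.restrict_apply_le _ _).trans hN.le) bot_le
    · rw [Measure.restrict_apply hAm.compl]; simp
  obtain ⟨c, hc, hle⟩ := exists_notMem_null_le_laverage hrest hm.aemeasurable hN'
  rw [mem_union, not_or, notMem_compl_iff] at hc
  refine ⟨c, hc.2, hc.1, ?_⟩
  rw [hint, hset]
  refine hle.trans ?_
  rw [setLAverage_eq]
  have hsw : ∫⁻ c in A, ∫⁻ x in g ⁻¹' B, wt p s (g x - c) ∂ν =
      ∫⁻ x in g ⁻¹' B, (∫⁻ c in A, wt p s (g x - c)) ∂ν :=
    lintegral_lintegral_swap hjoint.aemeasurable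
  rw [hsw]
  refine ENNReal.div_le_of_le_mul ?_
  calc ∫⁻ x in g ⁻¹' B, (∫⁻ c in A, wt p s (g x - c)) ∂ν
      ≤ ∫⁻ x in g ⁻¹' B, Cw p * volume A ∂ν := by
        refine setLIntegral_mono' (hgm hBm) fun x hx => ?_
        exact lintegral_wt_le hs hx
    _ = Cw p * ν (g ⁻¹' B) * volume A := by
        rw [setLIntegral_const]; ring

end Vale.Agent.P073.H471
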