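import Vale.Agent.P073.H471.SoftOne

/-!
# P073, block KILL-SOFT: the soft collapse with one-sided estimates

`exists_soft1`: the map of `H212.exists_soft` with the estimates
`Φ y' j - Φ y j ≤ max 0 (y' j - y j) + small` in the coordinates which are not collapsed.
-/

open Set Metric Topology Filter

namespace Vale.Agent.P073.H471

open _root_.P073 _root_.P073.Net _root_.P073.PA691 _root_.P073.H236
open _root_.P073.PR720 (LF)
open Vale.Agent.P073.St (V)
open Vale.Agent.P073.H212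

variable {Λ : Set V} {v : V} {K : BoxCx Λ v} {S : Rad K} {W : Wid K S} {y y' : V}

/-- one-sided version of `SoftL` -/
def SoftL1 (ν : ℝ) (T : V → V) : Prop :=
  ∀ y y' i, T y i - T y' i ≤ max 0 (y i - y' i) + ν * ‖y - y'‖

theorem SoftL1.soft {ν : ℝ} {T : V → V} (h : SoftL1 ν T) : SoftL ν T := by
  intro y y' i
  have h1 := h y y' i
  have h2 := h y' y i
  rw [norm_sub_rev] at h2
  have h3 : max 0 (y i - y' i) ≤ |y i - y' i| := max_le (abs_nonneg _) (le_abs_self _)
  have h4 : max 0 (y' i - y i) ≤ |y i - y' i| :=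
    max_le (abs_nonneg _) (by rw [abs_sub_comm]; exact le_abs_self _)
  rw [abs_le]
  constructor <;> linarith

theorem SoftL1.comp {ν ν' : ℝ} {T T' : V → V} (h : SoftL1 ν T) (h' : SoftL1 ν' T') (hν : 0 ≤ ν)
    (hν' : 0 ≤ ν') : SoftL1 (ν + ν' * (1 + ν)) (fun y => T' (T y)) := by
  intro y y' i
  have h1 := h' (T y) (T y') i
  have h2 := h y y' i
  have h3 := mul_le_mul_of_nonneg_left (h.soft.norm hν y y') hν'
  have h4 : max 0 (T y i - T y' i) ≤ max 0 (y i - y' i) + ν * ‖y - y'‖ :=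
    max_le (by have := le_max_left 0 (y i - y' i); positivity) h2
  show T' (T y) i - T' (T y') i ≤ _
  linarith

/-- **the soft collapse**, with one-sided estimates -/
structure IsSoft1 (B : Boxes W) (μ : ℝ) (F : Fac K) (Φ : ConHomeo Λ Λ) : Prop
    extends IsSoft B μ F Φ where
  zs1 : ∀ s, ∀ y ∈ Zs W s, ∀ y' ∈ Zs W s, ∀ L, (∀ k, k ≠ K.nrm s → |y' k - y k| ≤ L) → ∀ j,
    Φ.toFun y' j - Φ.toFun y j ≤
      (if j = K.nrm s then 0 else max 0 (y' j - y j)) + μ * L + 2 * (F.ρs s * ‖y' - y‖)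
  ze1 : ∀ e, ∀ y ∈ B.E e, ∀ y' ∈ B.E e, ∀ j,
    Φ.toFun y' j - Φ.toFun y j ≤ (if j = K.dir e then max 0 (y' j - y j) else 0) +
      μ * |y' (K.dir e) - y (K.dir e)| + 7 * (F.ρe e * ‖y' - y‖)

section edges

variable {B : Boxes W} {R : ℝ}

/-- `H212.exists_K1` with the one-sided estimate -/
theorem exists_K11 (hΛ : IsOpen Λ) (hR : SoftN B R) (F : Fac K) (d : Fin 3) :
    ∃ Φ : ConHomeo Λ Λ,
      (∀ e, K.dir e = d → ∀ y ∈ B.E e, ∀ k, k ≠ d →
        Φ.toFun y k = K.w (K.a e) k + F.ρe e * (y k - K.w (K.a e) k)) ∧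
      (∀ y, Φ.toFun y d = y d) ∧
      (∀ y, (∀ e, K.dir e = d → F.ρe e ≠ 1 → y ∉ KE B R e) → Φ.toFun y = y) ∧
      (∀ e, K.dir e = d → ∀ y ∈ KE B R e, ∀ k, Φ.toFun y k ∈ uIcc (cE W e k) (y k)) ∧
      SoftL1 (4 / R) Φ.toFun := by
  obtain ⟨Φ, h1, h2, h3, h4, h5⟩ := exists_squeeze1 (ι := {e : K.G // K.dir e = d}) hΛ
    (Finset.univ.erase d) (R := R) (fun e => F.ρe e.1) (fun e => F.e_pos _) (fun e => F.e_le _)
    (by linarith [hR.R60]) (fun e => cE W e.1) (fun e => aE B e.1) (fun e => B.T e.1)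
    (fun e => B.T_pos _)
    (fun e j hj => by
      have : j ≠ K.dir e.1 := by rw [e.2]; exact Finset.ne_of_mem_erase hj
      simp only [aE, if_neg this])
    (fun e => (KE_sub hR e.1).trans (S.tube_sub e.1))
    (fun e e' hne => KE_disjoint hR (fun h => hne (Subtype.ext h)) (e.2.trans e'.2.symm))
    (fun z hz => by
      obtain ⟨U, hU, hfin⟩ := S.lfTube z hz
      refine ⟨U, hU, ?_⟩
      have : {b : {e : K.G // K.dir e = d} |
          ((cor (cE W b.1) fun i => aE B b.1 i + R * B.T b.1) ∩ U).Nonempty} ⊆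
          Subtype.val ⁻¹' {e | (K.nb e (2 * S.q e) ∩ U).Nonempty} := by
        intro b hb
        exact hb.mono (inter_subset_inter_left _ (KE_sub hR b.1))
      exact (hfin.preimage Subtype.val_injective.injOn).subset this)
  refine ⟨Φ, ?_, ?_, ?_, ?_, h5⟩
  · intro e he y hy k hk
    have h6 := h1 ⟨e, he⟩ y (mem_cor_E.2 hy) k (Finset.mem_erase.2 ⟨hk, Finset.mem_univ _⟩)
    have h7 : cE W e k = K.w (K.a e) k := by
      have : k ≠ K.dir e := by rw [he]; exact hk
      simp only [cE, if_neg this]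
    rw [h6, h7]
  · intro y
    exact h2 y d (Finset.notMem_erase _ _)
  · intro y hy
    exact h3 y fun e he => hy e.1 e.2 he
  · intro e he y hy k
    exact (h4 ⟨e, he⟩ y hy k).1

/-- `H212.exists_K0` with the one-sided estimate -/
theorem exists_K01 (hΛ : IsOpen Λ) (hR : SoftN B R) (F : Fac K) :
    ∃ Φ : ConHomeo Λ Λ,
      (∀ i, ∀ y ∈ Zv W i, ∀ k, Φ.toFun y k = K.w i k + F.ρv i * (y k - K.w i k)) ∧
      (∀ y, (∀ i, F.ρv i ≠ 1 → y ∉ closedBall (K.w i) (W.wv i + R * W.wv i)) →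
        Φ.toFun y = y) ∧
      (∀ i, ∀ y ∈ closedBall (K.w i) (2 * S.r i), ∀ k, Φ.toFun y k ∈ uIcc (K.w i k) (y k)) ∧
      SoftL1 (4 / R) Φ.toFun := by
  have h60 := hR.R60
  have key : ∀ i : K.W, (cor (K.w i) fun _ => W.wv i + R * W.wv i) ⊆
      closedBall (K.w i) (2 * S.r i) := by
    intro i y hy
    have h1 := hR.v_r i
    have h2 := W.wv_pos i
    have h3 := S.r_pos i
    rw [mem_closedBall, dist_pi_le_iff (by linarith)]
    intro k
    rw [Real.dist_eq]
    refine (hy k).trans ?_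
    have : W.wv i ≤ R * W.wv i := by nlinarith
    linarith
  have keyb : ∀ i : K.W, (cor (K.w i) fun _ => W.wv i + R * W.wv i) =
      closedBall (K.w i) (W.wv i + R * W.wv i) := by
    intro i
    have h2 := W.wv_pos i
    have h3 : 0 ≤ W.wv i + R * W.wv i := by positivity
    ext y
    rw [mem_closedBall, dist_pi_le_iff h3]
    rfl
  obtain ⟨Φ, h1, h2, h3, h4, h5⟩ := exists_squeeze1 (ι := K.W) hΛ
    Finset.univ (R := R) F.ρv F.v_pos F.v_le
    (by linarith [hR.R60]) (fun i => K.w i) (fun i _ => W.wv i) W.wv W.wv_pos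
    (fun i j _ => rfl)
    (fun i => (key i).trans (S.U_sub i))
    (fun i i' hne => (S.U_disj i i' hne).mono (key i) (key i'))
    (fun z hz => by
      obtain ⟨U, hU, hfin⟩ := S.lfU z hz
      exact ⟨U, hU, hfin.subset fun e he => he.mono (inter_subset_inter_left _ (key e))⟩)
  refine ⟨Φ, ?_, ?_, ?_, h5⟩
  · intro i y hy k
    refine h1 i y (fun j => ?_) k (Finset.mem_univ _)
    have h6 := mem_closedBall.1 hy
    rw [dist_eq_norm] at h6
    exact (norm_le_pi_norm (y - K.w i) j).trans h6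
  · intro y hy
    exact h3 y fun i hi => by rw [keyb]; exact hy i hi
  · intro i y hy k
    by_cases h : ∃ j, y ∈ cor (K.w j) fun _ => W.wv j + R * W.wv j
    · obtain ⟨j, hj⟩ := h
      have hij : i = j := by
        by_contra hne
        exact Set.disjoint_left.1 (S.U_disj i j hne) hy (key j hj)
      subst hij
      exact (h4 i y hj k).1
    · push Not at h
      rw [h3 y fun j _ => h j]
      exact right_mem_uIcc

theorem collF_one {J : Finset (Fin 3)} {c : V} {a : V → ℝ} (y : V) : collF J c a 1 y = y := by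
  funext k
  rw [collF]
  split_ifs with hk
  · unfold qq; ring
  · rfl

/-- **the soft collapse exists**, with one-sided estimates and the support -/
theorem exists_soft1_off (hΛ : IsOpen Λ) (hR : SoftN B R) (F : Fac K) :
    ∃ Φ : ConHomeo Λ Λ, IsSoft1 B (20 / R) F Φ ∧
      ∀ y, (∀ s, F.ρs s ≠ 1 → y ∉ W.ss s) → (∀ e, F.ρe e ≠ 1 → y ∉ KE B R e) →
        (∀ i, F.ρv i ≠ 1 → y ∉ closedBall (K.w i) (W.wv i + R * W.wv i)) →
        Φ.toFun y = y := by
  have h60 := hR.R60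
  have hR0 : 0 < R := by linarith
  obtain ⟨Φ2, a2, b2, l2⟩ := H471.exists_K2 hΛ W F
  choose Ψ p1 p2 p3 p4 p5 using exists_K11 hΛ hR F
  obtain ⟨Φ0, q1, q2, q3, q4⟩ := exists_K01 hΛ hR F
  set ν : ℝ := 4 / R with hν
  have hν0 : 0 ≤ ν := by positivity
  have hν1 : ν ≤ 1 / 15 := by rw [hν, div_le_iff₀ hR0]; linarith
  have hμ : 20 / R = 5 * ν := by rw [hν]; ring
  -- the composition of the maps at the edges and at the vertices
  set T1 : V → V := fun y => (Ψ 2).toFun ((Ψ 1).toFun ((Ψ 0).toFun y)) with hT1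
  set T : V → V := fun y => Φ0.toFun (T1 y) with hT
  have hS : ∀ d, SoftL1 ν (Ψ d).toFun := fun d => p5 d
  have hS0 : SoftL1 ν Φ0.toFun := q4
  have s1 := (hS 0).comp (hS 1) hν0 hν0
  have n1 : 0 ≤ ν + ν * (1 + ν) := by positivity
  have s2 := s1.comp (hS 2) n1 hν0
  have n2 : 0 ≤ ν + ν * (1 + ν) + ν * (1 + (ν + ν * (1 + ν))) := by positivity
  have s3 := s2.comp hS0 n2 hν0
  have hT1L : SoftL (1 / 4) T1 := by
    intro y y' i
    refine (s2.soft y y' i).trans ?_
    have h1 : ν + ν * (1 + ν) + ν * (1 + (ν + ν * (1 + ν))) ≤ 1 / 4 := by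
      have e1 : ν + ν * (1 + ν) ≤ 1 / 6 := by nlinarith
      nlinarith
    have := norm_nonneg (y - y')
    nlinarith
  have hTL1 : SoftL1 (5 * ν) T := by
    intro y y' i
    refine (s3 y y' i).trans ?_
    have e1 : ν + ν * (1 + ν) ≤ 32 / 15 * ν := by nlinarith
    have e2 : ν + ν * (1 + ν) + ν * (1 + (ν + ν * (1 + ν))) ≤ 7 / 2 * ν := by nlinarith
    have e3 : ν + ν * (1 + ν) + ν * (1 + (ν + ν * (1 + ν))) +
        ν * (1 + (ν + ν * (1 + ν) + ν * (1 + (ν + ν * (1 + ν))))) ≤ 5 * ν := by nlinarith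
    have := norm_nonneg (y - y')
    nlinarith
  have hTL : SoftL (5 * ν) T := hTL1.soft
  have hn1 : ∀ y y', ‖T1 y - T1 y'‖ ≤ 5 / 4 * ‖y - y'‖ := fun y y' => by
    have := hT1L.norm (by norm_num) y y'
    linarith
  have hn : ∀ y y', ‖T y - T y'‖ ≤ 4 / 3 * ‖y - y'‖ := fun y y' => by
    have := hTL.norm (by positivity) y y'
    have h2 := norm_nonneg (y - y')
    nlinarith
  set Φ : ConHomeo Λ Λ := (((Φ2.trans (Ψ 0)).trans (Ψ 1)).trans (Ψ 2)).trans Φ0 with hΦ
  have hval : ∀ y, Φ.toFun y = T (Φ2.toFun y) := fun y => rfl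
  -- tiles
  have t2 : ∀ p, ∀ y ∈ K.cube p, Φ2.toFun y ∈ K.cube p := by
    intro p y hy
    by_cases h : ∃ s, y ∈ W.ss s
    · obtain ⟨s, hs⟩ := h
      rw [a2 s y hs]
      have h1 := tile_of_ss hs hy (slo_mem s)
      have key := fun k => collF_between (J := {K.nrm s}) (c := K.slo s) (a := W.as s) (k := k)
        (F.s_pos s) (F.s_le s) (fun _ => ⟨h1.1 k, h1.2 k⟩) ⟨hy.1 k, hy.2 k⟩
      exact ⟨fun k => (key k).1, fun k => (key k).2⟩
    · push Not at h
      rw [b2 y h]; exact hy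
  have cEw : ∀ e k, k ≠ K.dir e → cE W e k = K.w (K.a e) k := fun e k hk => by
    simp only [cE, if_neg hk]
  have btw : ∀ {a b c t : ℝ}, a ≤ b → b ≤ c → ∀ {x : ℝ}, a ≤ x → x ≤ c → t ∈ uIcc b x →
      a ≤ t ∧ t ≤ c := by
    intro a b c t h1 h2 x h3 h4 ht
    have h5 : uIcc b x ⊆ Icc a c := uIcc_subset_Icc ⟨h1, h2⟩ ⟨h3, h4⟩
    exact h5 ht
  have t1 : ∀ d p, ∀ y ∈ K.cube p, (Ψ d).toFun y ∈ K.cube p := by
    intro d p y hy
    by_cases h : ∃ e, K.dir e = d ∧ y ∈ KE B R e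
    · obtain ⟨e, he, hye⟩ := h
      have h1 := KE_tile hR hye hy (TM.wa_mem K e)
      have key : ∀ k, K.lo p k ≤ (Ψ d).toFun y k ∧ (Ψ d).toFun y k ≤ K.hi p k := by
        intro k
        by_cases hk : k = d
        · rw [hk, p2 d y]
          exact ⟨hy.1 d, hy.2 d⟩
        · have h2 := p4 d e he y hye k
          rw [cEw e k (by rw [he]; exact hk)] at h2
          exact btw (h1.1 k) (h1.2 k) (hy.1 k) (hy.2 k) h2
      exact ⟨fun k => (key k).1, fun k => (key k).2⟩
    · push Not at h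
      rw [p3 d y fun e he _ => h e he]; exact hy
  have t0 : ∀ p, ∀ y ∈ K.cube p, Φ0.toFun y ∈ K.cube p := by
    intro p y hy
    by_cases h : ∃ i, y ∈ closedBall (K.w i) (2 * S.r i)
    · obtain ⟨i, hi⟩ := h
      have h1 := S.U_tile i p y hi hy
      have key : ∀ k, K.lo p k ≤ Φ0.toFun y k ∧ Φ0.toFun y k ≤ K.hi p k := fun k =>
        btw (h1.1 k) (h1.2 k) (hy.1 k) (hy.2 k) (q3 i y hi k)
      exact ⟨fun k => (key k).1, fun k => (key k).2⟩
    · push Not at h
      rw [q2 y fun i _ hi => h i (closedBall_subset_closedBall ?_ hi)]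
      · exact hy
      · have h1 := hR.v_r i
        have h2 := W.wv_pos i
        have h3 : W.wv i ≤ R * W.wv i := by nlinarith
        linarith
  have tt : ∀ p, ∀ y ∈ K.cube p, Φ.toFun y ∈ K.cube p := fun p y hy =>
    t0 p _ (t1 2 p _ (t1 1 p _ (t1 0 p _ (t2 p y hy))))
  -- edges
  have e1 : ∀ d e, ∀ y ∈ B.E e, (Ψ d).toFun y ∈ B.E e ∧
      (Ψ d).toFun y (K.dir e) = y (K.dir e) ∧ ∀ k, k ≠ K.dir e → (Ψ d).toFun y k =
        K.w (K.a e) k + (if K.dir e = d then F.ρe e else 1) * (y k - K.w (K.a e) k) := by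
    intro d e y hy
    by_cases hd : K.dir e = d
    · have h1 : (Ψ d).toFun y (K.dir e) = y (K.dir e) := by rw [hd]; exact p2 d y
      have h2 : ∀ k, k ≠ K.dir e → (Ψ d).toFun y k =
          K.w (K.a e) k + F.ρe e * (y k - K.w (K.a e) k) := fun k hk =>
        p1 d e hd y hy k (by rw [← hd]; exact hk)
      refine ⟨⟨by rw [h1]; exact hy.1, fun k hk => ?_⟩, h1, fun k hk => ?_⟩
      · rw [h2 k hk, add_sub_cancel_left, abs_mul, abs_of_pos (F.e_pos e)]
        have h3 := hy.2 k hk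
        have h4 := F.e_le e
        have h5 := F.e_pos e
        have h6 := abs_nonneg (y k - K.w (K.a e) k)
        nlinarith
      · rw [if_pos hd]
        exact h2 k hk
    · have h1 : (Ψ d).toFun y = y :=
        p3 d y fun e' he' _ => notMem_KE hR (by rw [he']; exact hd) hy
      rw [h1]
      refine ⟨hy, rfl, fun k _ => ?_⟩
      rw [if_neg hd]; ring
  have e2 : ∀ e, ∀ y ∈ B.E e, T1 y (K.dir e) = y (K.dir e) ∧ ∀ k, k ≠ K.dir e →
      T1 y k = K.w (K.a e) k + F.ρe e * (y k - K.w (K.a e) k) := by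
    intro e y hy
    obtain ⟨m0, d0, f0⟩ := e1 0 e y hy
    obtain ⟨m1, d1, f1⟩ := e1 1 e _ m0
    obtain ⟨m2, d2, f2⟩ := e1 2 e _ m1
    refine ⟨by show (Ψ 2).toFun _ _ = _; rw [d2, d1, d0], fun k hk => ?_⟩
    show (Ψ 2).toFun _ k = _
    rw [f2 k hk, f1 k hk, f0 k hk]
    have h3 : ∀ d : Fin 3, d = 0 ∨ d = 1 ∨ d = 2 := by decide
    rcases h3 (K.dir e) with h | h | h <;> rw [h] <;> simp
  -- vertices
  have v1 : ∀ d i, ∀ y ∈ Zv W i, (Ψ d).toFun y ∈ Zv W i := by
    intro d i y hy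
    by_cases h : ∃ e, K.dir e = d ∧ y ∈ KE B R e
    · obtain ⟨e, he, hye⟩ := h
      have hyr : y ∈ closedBall (K.w i) (2 * S.r i) :=
        closedBall_subset_closedBall (by linarith [W.wv_le i, S.r_pos i]) hy
      have hie := S.U_edge i e y hyr (KE_sub hR e hye)
      have hwi : K.w i ∈ K.edge e := by
        rcases hie with rfl | rfl
        · exact TM.wa_mem K e
        · exact TM.wb_mem K e
      rw [Zv, mem_closedBall, dist_pi_le_iff (W.wv_pos i).le]
      intro k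
      have h2 := norm_le_pi_norm (y - K.w i) k
      rw [Pi.sub_apply, Real.norm_eq_abs] at h2
      have h3 := mem_closedBall.1 hy
      rw [dist_eq_norm] at h3
      rw [Real.dist_eq]
      by_cases hk : k = d
      · rw [hk, p2 d y, ← hk]
        exact h2.trans h3
      · have hk' : k ≠ K.dir e := by rw [he]; exact hk
        have h4 := p4 d e he y hye k
        rw [cEw e k hk'] at h4
        rw [edge_coord hwi hk']
        refine (abs_le_of_mem_uIcc h4).trans ?_
        rw [← edge_coord hwi hk']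
        exact h2.trans h3
    · push Not at h
      rw [p3 d y fun e he _ => h e he]; exact hy
  have v2 : ∀ i, ∀ y ∈ Zv W i, T1 y ∈ Zv W i := fun i y hy => v1 2 i _ (v1 1 i _ (v1 0 i y hy))
  -- squares
  have hzs : ∀ s, ∀ y ∈ Zs W s, ∀ y' ∈ Zs W s, ∀ L, (∀ k, k ≠ K.nrm s → |y' k - y k| ≤ L) →
      ∀ j, Φ.toFun y' j - Φ.toFun y j ≤
      (if j = K.nrm s then 0 else max 0 (y' j - y j)) + 20 / R * L +
        2 * (F.ρs s * ‖y' - y‖) := by
    intro s y hy y' hy' L hL j
    have hρ := F.s_pos s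
    have hN := norm_nonneg (y' - y)
    have hL0 : 0 ≤ L := by
      obtain ⟨k, hk⟩ : ∃ k : Fin 3, k ≠ K.nrm s := exists_ne _
      exact (abs_nonneg _).trans (hL k hk)
    have hz : ∀ k, |Φ2.toFun y' k - Φ2.toFun y k| =
        if k = K.nrm s then F.ρs s * |y' k - y k| else |y' k - y k| := by
      intro k
      rw [a2 s y (Zs_subset hy), a2 s y' (Zs_subset hy'),
        collF_zone (F.s_pos s) (Zs_nJ hy') (Zs_nJ hy)]
      simp
    have hk1 : ∀ k, |y' k - y k| ≤ ‖y' - y‖ := fun k => norm_le_pi_norm (y' - y) k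
    have h4 : 0 ≤ F.ρs s * ‖y' - y‖ := by positivity
    have hzn : ‖Φ2.toFun y' - Φ2.toFun y‖ ≤ L + F.ρs s * ‖y' - y‖ := by
      rw [pi_norm_le_iff_of_nonneg (by positivity)]
      intro k
      rw [Pi.sub_apply, Real.norm_eq_abs, hz]
      split_ifs with hk
      · have := mul_le_mul_of_nonneg_left (hk1 k) hρ.le
        linarith
      · have := hL k hk
        linarith
    rw [hval, hval, hμ]
    refine (hTL1 _ _ j).trans ?_
    have h5 : 5 * ν * ‖Φ2.toFun y' - Φ2.toFun y‖ ≤ 5 * ν * (L + F.ρs s * ‖y' - y‖) := by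
      gcongr
    have h6 : 5 * ν * (F.ρs s * ‖y' - y‖) ≤ 1 * (F.ρs s * ‖y' - y‖) := by
      gcongr
      linarith
    have h7 : max 0 (Φ2.toFun y' j - Φ2.toFun y j) ≤
        (if j = K.nrm s then 0 else max 0 (y' j - y j)) + F.ρs s * ‖y' - y‖ := by
      by_cases hj : j = K.nrm s
      · rw [if_pos hj, zero_add]
        refine max_le h4 ((le_abs_self _).trans ?_)
        rw [hz, if_pos hj]
        exact mul_le_mul_of_nonneg_left (hk1 j) hρ.le
      · rw [if_neg hj, a2 s y (Zs_subset hy), a2 s y' (Zs_subset hy'),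
          collF_off (by simpa using hj), collF_off (by simpa using hj)]
        linarith
    linarith
  have hze : ∀ e, ∀ y ∈ B.E e, ∀ y' ∈ B.E e, ∀ j,
      Φ.toFun y' j - Φ.toFun y j ≤ (if j = K.dir e then max 0 (y' j - y j) else 0) +
      20 / R * |y' (K.dir e) - y (K.dir e)| + 7 * (F.ρe e * ‖y' - y‖) := by
    intro e y hy y' hy' j
    have hρ := F.e_pos e
    have hN := norm_nonneg (y' - y)
    obtain ⟨d0, m0⟩ := keyE a2 b2 hy
    obtain ⟨d0', m0'⟩ := keyE a2 b2 hy'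
    obtain ⟨d1, f1⟩ := e2 e _ m0
    obtain ⟨d1', f1'⟩ := e2 e _ m0'
    have h2 := l2 y' y
    have hz : ∀ k, k ≠ K.dir e → |T1 (Φ2.toFun y') k - T1 (Φ2.toFun y) k| ≤
        5 / 2 * (F.ρe e * ‖y' - y‖) := by
      intro k hk
      rw [f1 k hk, f1' k hk]
      have e3 : K.w (K.a e) k + F.ρe e * (Φ2.toFun y' k - K.w (K.a e) k) -
          (K.w (K.a e) k + F.ρe e * (Φ2.toFun y k - K.w (K.a e) k)) =
          F.ρe e * (Φ2.toFun y' k - Φ2.toFun y k) := by ring
      rw [e3, abs_mul, abs_of_pos hρ]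
      have h3 := norm_le_pi_norm (Φ2.toFun y' - Φ2.toFun y) k
      rw [Pi.sub_apply, Real.norm_eq_abs] at h3
      have h4 := mul_le_mul_of_nonneg_left (h3.trans h2) hρ.le
      linarith
    have h8 : 0 ≤ F.ρe e * ‖y' - y‖ := by positivity
    have hzn : ‖T1 (Φ2.toFun y') - T1 (Φ2.toFun y)‖ ≤
        |y' (K.dir e) - y (K.dir e)| + 5 / 2 * (F.ρe e * ‖y' - y‖) := by
      rw [pi_norm_le_iff_of_nonneg (by positivity)]
      intro k
      rw [Pi.sub_apply, Real.norm_eq_abs]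
      by_cases hk : k = K.dir e
      · rw [hk, d1, d1', d0, d0']
        linarith
      · have := hz k hk
        have h4 := abs_nonneg (y' (K.dir e) - y (K.dir e))
        linarith
    rw [hval, hval, hμ]
    refine (hS0 (T1 (Φ2.toFun y')) (T1 (Φ2.toFun y)) j).trans ?_
    have h5 : ν * ‖T1 (Φ2.toFun y') - T1 (Φ2.toFun y)‖ ≤
        ν * (|y' (K.dir e) - y (K.dir e)| + 5 / 2 * (F.ρe e * ‖y' - y‖)) := by
      gcongr
    have h6 : ν * (5 / 2 * (F.ρe e * ‖y' - y‖)) ≤ 1 * (5 / 2 * (F.ρe e * ‖y' - y‖)) := by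
      gcongr
      linarith
    have h7 : 0 ≤ ν * |y' (K.dir e) - y (K.dir e)| := by positivity
    by_cases hj : j = K.dir e
    · rw [if_pos hj]
      have h9 : T1 (Φ2.toFun y') j - T1 (Φ2.toFun y) j = y' j - y j := by
        rw [hj, d1, d1', d0, d0']
      rw [h9]
      linarith
    · rw [if_neg hj]
      have h9 : max 0 (T1 (Φ2.toFun y') j - T1 (Φ2.toFun y) j) ≤ 5 / 2 * (F.ρe e * ‖y' - y‖) :=
        max_le (by positivity) ((le_abs_self _).trans (hz j hj))
      linarith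
  refine ⟨Φ, ⟨⟨image_cube tt, tt, ?_, ?_, ?_, ?_⟩, hzs, hze⟩, ?_⟩
  rotate_left 4
  · -- support
    intro y h2 h1 h0
    have e2 : Φ2.toFun y = y := by
      by_cases h : ∃ s, y ∈ W.ss s
      · obtain ⟨s, hs⟩ := h
        have h3 : F.ρs s = 1 := by
          by_contra hne
          exact h2 s hne hs
        rw [a2 s y hs, h3, collF_one]
      · push Not at h
        exact b2 y h
    have e3 : ∀ d, (Ψ d).toFun y = y := fun d => p3 d y fun e _ he => h1 e he
    have e4 : T1 y = y := by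
      show (Ψ 2).toFun ((Ψ 1).toFun ((Ψ 0).toFun y)) = y
      rw [e3 0, e3 1, e3 2]
    rw [hval, e2]
    show Φ0.toFun (T1 y) = y
    rw [e4]
    exact q2 y h0
  · -- Lipschitz
    intro y y'
    rw [hval, hval]
    have h1 := hn (Φ2.toFun y) (Φ2.toFun y')
    have h2 := l2 y y'
    have h3 := norm_nonneg (y - y')
    linarith
  · -- squares
    intro s y hy y' hy' L hL j
    have h1 := hzs s y hy y' hy' L (fun k hk => by rw [abs_sub_comm]; exact hL k hk) j
    have h2 := hzs s y' hy' y hy L hL j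
    rw [norm_sub_rev] at h1
    by_cases hj : j = K.nrm s
    · rw [if_pos hj] at h1 h2 ⊢
      rw [abs_le]
      constructor <;> linarith
    · rw [if_neg hj] at h1 h2 ⊢
      have h3 : max 0 (y j - y' j) ≤ |y j - y' j| := max_le (abs_nonneg _) (le_abs_self _)
      have h4 : max 0 (y' j - y j) ≤ |y j - y' j| :=
        max_le (abs_nonneg _) (by rw [abs_sub_comm]; exact le_abs_self _)
      rw [abs_le]
      constructor <;> linarith
  · -- edges
    intro e y hy y' hy' j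
    have h1 := hze e y hy y' hy' j
    have h2 := hze e y' hy' y hy j
    rw [norm_sub_rev, abs_sub_comm] at h1
    by_cases hj : j = K.dir e
    · rw [if_pos hj] at h1 h2 ⊢
      have h3 : max 0 (y j - y' j) ≤ |y j - y' j| := max_le (abs_nonneg _) (le_abs_self _)
      have h4 : max 0 (y' j - y j) ≤ |y j - y' j| :=
        max_le (abs_nonneg _) (by rw [abs_sub_comm]; exact le_abs_self _)
      rw [abs_le]
      constructor <;> linarith
    · rw [if_neg hj] at h1 h2 ⊢
      rw [abs_le]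
      constructor <;> linarith
  · -- vertices
    intro i y hy y' hy' j
    have hρ := F.v_pos i
    have m0 := v2 i _ (keyV2 a2 b2 hy)
    have m0' := v2 i _ (keyV2 a2 b2 hy')
    rw [hval, hval]
    show |Φ0.toFun (T1 (Φ2.toFun y)) j - Φ0.toFun (T1 (Φ2.toFun y')) j| ≤ _
    rw [q1 i _ m0 j, q1 i _ m0' j]
    have e3 : K.w i j + F.ρv i * (T1 (Φ2.toFun y) j - K.w i j) -
        (K.w i j + F.ρv i * (T1 (Φ2.toFun y') j - K.w i j)) =
        F.ρv i * (T1 (Φ2.toFun y) j - T1 (Φ2.toFun y') j) := by ring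
    rw [e3, abs_mul, abs_of_pos hρ]
    have h3 := norm_le_pi_norm (T1 (Φ2.toFun y) - T1 (Φ2.toFun y')) j
    rw [Pi.sub_apply, Real.norm_eq_abs] at h3
    have h4 := hn1 (Φ2.toFun y) (Φ2.toFun y')
    have h5 := l2 y y'
    have h6 : |T1 (Φ2.toFun y) j - T1 (Φ2.toFun y') j| ≤ 4 * ‖y - y'‖ := by
      have := norm_nonneg (y - y')
      linarith
    have h7 := mul_le_mul_of_nonneg_left h6 hρ.le
    linarith

/-- **the soft collapse exists**, with one-sided estimates -/
theorem exists_soft1 (hΛ : IsOpen Λ) (hR : SoftN B R) (F : Fac K) :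
    ∃ Φ : ConHomeo Λ Λ, IsSoft1 B (20 / R) F Φ := by
  obtain ⟨Φ, h, -⟩ := exists_soft1_off hΛ hR F
  exact ⟨Φ, h⟩

end edges

end Vale.Agent.P073.H471
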