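import Vale.Agent.P073.H471.Kill

/-!
# P073, block KILL: product boxes (plates, tubes, vertex cubes) inside the zones and the covering of
a neighbourhood of the two-skeleton
-/

open Set Metric Topology Filter

namespace Vale.Agent.P073.H471

open _root_.P073 _root_.P073.Net _root_.P073.PA691
open _root_.P073.PR720 (LF)
open Vale.Agent.P073.St (V)

variable {Λ : Set V} {v : V} {K : BoxCx Λ v} {S : Rad K} {W : Wid K S} {y y' z : V}

/-- widths below given bounds -/
theorem exists_wid (S : Rad K) (bv : K.W → ℝ) (be : K.G → ℝ) (bs : K.S → ℝ)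
    (hv : ∀ i, 0 < bv i) (he : ∀ e, 0 < be e) (hs : ∀ s, 0 < bs s) :
    ∃ W : Wid K S, (∀ i, W.wv i ≤ bv i) ∧ (∀ e, W.we e ≤ be e) ∧ (∀ s, W.ws s ≤ bs s) := by
  have h1 : ∀ s : K.S, 0 < K.hi (K.sm s) (K.nrm s) - K.lo (K.sm s) (K.nrm s) := fun s =>
    sub_pos.2 (K.lt _ _)
  have h2 : ∀ s : K.S, 0 < K.hi (K.sp s) (K.nrm s) - K.lo (K.sp s) (K.nrm s) := fun s =>
    sub_pos.2 (K.lt _ _)
  refine ⟨{ wv := fun i => min (bv i) (S.r i)
            we := fun e => min (be e) (S.q e)
            ws := fun s => min (bs s) (min ((K.hi (K.sm s) (K.nrm s) - K.lo (K.sm s) (K.nrm s)) / 4)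
              ((K.hi (K.sp s) (K.nrm s) - K.lo (K.sp s) (K.nrm s)) / 4))
            wv_pos := fun i => lt_min (hv i) (S.r_pos i)
            we_pos := fun e => lt_min (he e) (S.q_pos e)
            ws_pos := fun s => lt_min (hs s) (lt_min (by linarith [h1 s]) (by linarith [h2 s]))
            wv_le := fun i => min_le_right _ _
            we_le := fun e => min_le_right _ _
            ws_le := fun s => ?_
            ws_le' := fun s => ?_ }, fun i => min_le_left _ _, fun e => min_le_left _ _,
            fun s => min_le_left _ _⟩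
  · have := (min_le_right (bs s) (min ((K.hi (K.sm s) (K.nrm s) - K.lo (K.sm s) (K.nrm s)) / 4)
      ((K.hi (K.sp s) (K.nrm s) - K.lo (K.sp s) (K.nrm s)) / 4))).trans (min_le_left _ _)
    linarith
  · have := (min_le_right (bs s) (min ((K.hi (K.sm s) (K.nrm s) - K.lo (K.sm s) (K.nrm s)) / 4)
      ((K.hi (K.sp s) (K.nrm s) - K.lo (K.sp s) (K.nrm s)) / 4))).trans (min_le_right _ _)
    linarith

/-- half thickness `T` of the tubes, margin `u` and half thickness `τ` of the plates -/
structure Boxes (W : Wid K S) where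
  T : K.G → ℝ
  u : K.S → ℝ
  τ : K.S → ℝ
  T_pos : ∀ e, 0 < T e
  u_pos : ∀ s, 0 < u s
  τ_pos : ∀ s, 0 < τ s
  T_le : ∀ e, T e ≤ W.we e
  T_le_a : ∀ e, 8 * T e ≤ W.wv (K.a e)
  T_le_b : ∀ e, 8 * T e ≤ W.wv (K.b e)
  u_le : ∀ s e, K.edge e ⊆ K.sq s → 2 * u s ≤ T e
  τ_le : ∀ s, τ s ≤ W.ws s
  τ_le_u : ∀ s, 4 * τ s ≤ u s

namespace Boxes

variable (B : Boxes W)

/-- plate -/
def P (s : K.S) : Set V :=
  {y | (∀ k, k ≠ K.nrm s → K.slo s k + B.u s ≤ y k ∧ y k ≤ K.shi s k - B.u s) ∧
    |y (K.nrm s) - K.slo s (K.nrm s)| ≤ B.τ s}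

/-- tube -/
def E (e : K.G) : Set V :=
  {y | (K.w (K.a e) (K.dir e) + W.wv (K.a e) / 2 ≤ y (K.dir e) ∧
      y (K.dir e) ≤ K.w (K.b e) (K.dir e) - W.wv (K.b e) / 2) ∧
    ∀ k, k ≠ K.dir e → |y k - K.w (K.a e) k| ≤ B.T e}

theorem P_subset (s : K.S) : B.P s ⊆ Zs W s := by
  intro y hy
  have h1 : B.τ s ≤ W.as s y := le_marg (B.τ_le s) fun k hk => by
    have := hy.1 k (by simpa using hk)
    have h2 := B.τ_le_u s
    constructor <;> linarith
  exact ⟨(B.τ_pos s).trans_le h1, hy.2.trans h1⟩

theorem E_subset (e : K.G) : B.E e ⊆ Ze W e := by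
  intro y hy
  have h1 : B.T e ≤ W.ae e y := le_marg (B.T_le e) fun k hk => by
    have hk' : k = K.dir e := by by_contra h; exact hk (mem_Je.2 h)
    subst hk'
    have h2 := hy.1
    have h3 := B.T_le_a e
    have h4 := B.T_le_b e
    constructor <;> linarith
  exact ⟨(B.T_pos e).trans_le h1, fun k hk => (hy.2 k hk).trans h1⟩

/-- a neighbourhood of a point of an edge is in the tube or in a vertex cube -/
theorem near_edge (e : K.G) {x' : V} (hx' : x' ∈ K.edge e) :
    (∀ y : V, (∀ k, |y k - x' k| ≤ 3 / 4 * B.T e) → y ∈ B.E e) ∨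
    (∀ y : V, (∀ k, |y k - x' k| ≤ 3 / 4 * B.T e) → y ∈ Zv W (K.a e)) ∨
    ∀ y : V, (∀ k, |y k - x' k| ≤ 3 / 4 * B.T e) → y ∈ Zv W (K.b e) := by
  have hT := B.T_pos e
  have h3 := B.T_le_a e
  have h4 := B.T_le_b e
  have hwa := W.wv_pos (K.a e)
  have hwb := W.wv_pos (K.b e)
  by_cases ha : x' (K.dir e) < K.w (K.a e) (K.dir e) + 3 / 4 * W.wv (K.a e)
  · right; left
    intro y hy
    rw [Zv, mem_closedBall, dist_pi_le_iff hwa.le]
    intro k
    rw [Real.dist_eq, abs_le]
    have hk0 := abs_le.1 (hy k)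
    by_cases hk : k = K.dir e
    · subst hk
      have := hx'.1 (K.dir e)
      constructor <;> linarith
    · rw [edge_coord hx' hk] at hk0
      constructor <;> linarith
  by_cases hb : K.w (K.b e) (K.dir e) - 3 / 4 * W.wv (K.b e) < x' (K.dir e)
  · right; right
    intro y hy
    rw [Zv, mem_closedBall, dist_pi_le_iff hwb.le]
    intro k
    rw [Real.dist_eq, abs_le]
    have hk0 := abs_le.1 (hy k)
    by_cases hk : k = K.dir e
    · subst hk
      have := hx'.2 (K.dir e)
      constructor <;> linarith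
    · rw [edge_coord hx' hk, wab K e hk] at hk0
      constructor <;> linarith
  left
  push Not at ha hb
  intro y hy
  have hd := abs_le.1 (hy (K.dir e))
  refine ⟨⟨by linarith, by linarith⟩, fun k hk => ?_⟩
  have hk0 := hy k
  rw [edge_coord hx' hk] at hk0
  exact hk0.trans (by linarith)

/-- **quantitative covering**: the `t`-neighbourhoods of the frontier points of a tile are
contained in boxes -/
theorem cover_of {p : K.T} {t : ℝ} (ht : 0 ≤ t) (hτ : ∀ s, (p = K.sm s ∨ p = K.sp s) → t ≤ B.τ s)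
    (hT : ∀ e, K.edge e ⊆ K.cube p → 8 * t ≤ B.T e)
    (hR : ∀ i, K.w i ∈ K.cube p → t ≤ W.wv i) {x : V} (hx : x ∈ frontier (K.cube p)) :
    (∃ s, (p = K.sm s ∨ p = K.sp s) ∧ closedBall x t ⊆ B.P s) ∨
    (∃ e, K.edge e ⊆ K.cube p ∧ closedBall x t ⊆ B.E e) ∨
    ∃ i, K.w i ∈ K.cube p ∧ closedBall x t ⊆ Zv W i := by
  have hxf := TM.mem_frontier_Icc3.1 hx
  have hxc : x ∈ K.cube p := hxf.1
  have hball : ∀ y ∈ closedBall x t, ∀ k, |y k - x k| ≤ t := by
    intro y hy k
    rw [mem_closedBall, dist_eq_norm] at hy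
    have := norm_le_pi_norm (y - x) k
    rw [Pi.sub_apply, Real.norm_eq_abs] at this
    exact this.trans hy
  by_cases hE : ∃ e, x ∈ K.edge e
  · obtain ⟨e, he⟩ := hE
    by_cases ha : x = K.w (K.a e)
    · exact Or.inr (Or.inr ⟨K.a e, ha ▸ hxc, by
        rw [ha]; exact closedBall_subset_closedBall (hR _ (ha ▸ hxc))⟩)
    by_cases hb : x = K.w (K.b e)
    · exact Or.inr (Or.inr ⟨K.b e, hb ▸ hxc, by
        rw [hb]; exact closedBall_subset_closedBall (hR _ (hb ▸ hxc))⟩)
    have hep : K.edge e ⊆ K.cube p := (K.edge_tile e p x he ha hb hxc).1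
    have h8 := hT e hep
    have hTe := B.T_pos e
    rcases B.near_edge e he with h | h | h
    · exact Or.inr (Or.inl ⟨e, hep, fun y hy => h y fun k => (hball y hy k).trans (by linarith)⟩)
    · exact Or.inr (Or.inr ⟨K.a e, hep (TM.wa_mem K e), fun y hy => h y fun k =>
        (hball y hy k).trans (by linarith)⟩)
    · exact Or.inr (Or.inr ⟨K.b e, hep (TM.wb_mem K e), fun y hy => h y fun k =>
        (hball y hy k).trans (by linarith)⟩)
  · push Not at hE
    obtain ⟨s, hs, h1, h2⟩ := K.face_cover p x hxc hxf.2 hE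
    by_cases hin : ∀ k, k ≠ K.nrm s → K.slo s k + B.u s + t < x k ∧ x k < K.shi s k - B.u s - t
    · refine Or.inl ⟨s, hs, fun y hy => ⟨fun k hk => ?_, ?_⟩⟩
      · have h3 := abs_le.1 (hball y hy k)
        have h4 := hin k hk
        constructor <;> linarith
      · have h3 := hball y hy (K.nrm s)
        rw [h1] at h3
        exact h3.trans (hτ s hs)
    · push Not at hin
      obtain ⟨k, hk, hkk⟩ := hin
      have hsq : x ∈ K.sq s := sqo_subset_sq s ⟨h1, h2⟩
      have hut : 0 ≤ B.u s + t := by linarith [B.u_pos s]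
      -- the closest boundary point
      obtain ⟨x', hx's, hx'b, hxx⟩ : ∃ x' ∈ K.sq s,
          (∃ k, k ≠ K.nrm s ∧ (x' k = K.slo s k ∨ x' k = K.shi s k)) ∧
            ∀ j, |x j - x' j| ≤ B.u s + t := by
        by_cases hlo : K.slo s k + B.u s + t < x k
        · have hhi := hkk hlo
          refine ⟨Function.update x k (K.shi s k), ⟨fun j => ?_, fun j => ?_⟩,
            ⟨k, hk, Or.inr (by simp)⟩, fun j => ?_⟩
          · by_cases hj : j = k
            · subst hj; simpa using TM.slo_le_shi K s j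
            · simpa [hj] using hsq.1 j
          · by_cases hj : j = k
            · subst hj; simp
            · simpa [hj] using hsq.2 j
          · by_cases hj : j = k
            · subst hj
              have := (h2 j hk).2
              simp only [Function.update_self, abs_le]
              constructor <;> linarith [B.u_pos s]
            · simpa [hj] using hut
        · push Not at hlo
          refine ⟨Function.update x k (K.slo s k), ⟨fun j => ?_, fun j => ?_⟩,
            ⟨k, hk, Or.inl (by simp)⟩, fun j => ?_⟩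
          · by_cases hj : j = k
            · subst hj; simp
            · simpa [hj] using hsq.1 j
          · by_cases hj : j = k
            · subst hj; simpa using TM.slo_le_shi K s j
            · simpa [hj] using hsq.2 j
          · by_cases hj : j = k
            · subst hj
              have := (h2 j hk).1
              simp only [Function.update_self, abs_le]
              constructor <;> linarith [B.u_pos s]
            · simpa [hj] using hut
      obtain ⟨e, hes, hx'e⟩ := K.sq_bd s x' hx's hx'b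
      have hep : K.edge e ⊆ K.cube p := by
        have hes' : K.edge e ⊆ K.sq s := hes
        rcases hs with rfl | rfl
        · exact hes'.trans (TM.sq_subset K s).1
        · exact hes'.trans (TM.sq_subset K s).2
      have h8 := hT e hep
      have hu2 := B.u_le s e hes
      have hkey : ∀ y ∈ closedBall x t, ∀ k, |y k - x' k| ≤ 3 / 4 * B.T e := by
        intro y hy k
        have h3 := hball y hy k
        have h4 := hxx k
        have h5 := abs_sub_le (y k) (x k) (x' k)
        linarith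
      rcases B.near_edge e hx'e with h | h | h
      · exact Or.inr (Or.inl ⟨e, hep, fun y hy => h y (hkey y hy)⟩)
      · exact Or.inr (Or.inr ⟨K.a e, hep (TM.wa_mem K e), fun y hy => h y (hkey y hy)⟩)
      · exact Or.inr (Or.inr ⟨K.b e, hep (TM.wb_mem K e), fun y hy => h y (hkey y hy)⟩)

/-- the closest frontier point -/
theorem exists_frontier_near {p : K.T} {κ : ℝ} (hκ : 0 ≤ κ) (hy : y ∈ K.cube p)
    (hyk : ∃ k, y k ≤ K.lo p k + κ ∨ K.hi p k - κ ≤ y k) :
    ∃ x ∈ frontier (K.cube p), ‖y - x‖ ≤ κ := by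
  obtain ⟨k, hk | hk⟩ := hyk
  · refine ⟨Function.update y k (K.lo p k), TM.mem_frontier_Icc3.2 ⟨⟨fun j => ?_, fun j => ?_⟩,
      k, Or.inl (by simp)⟩, (pi_norm_le_iff_of_nonneg hκ).2 fun j => ?_⟩
    · by_cases hj : j = k
      · subst hj; simp
      · simpa [hj] using hy.1 j
    · by_cases hj : j = k
      · subst hj; simpa using (K.lt p j).le
      · simpa [hj] using hy.2 j
    · rw [Pi.sub_apply, Real.norm_eq_abs]
      by_cases hj : j = k
      · subst hj
        have := hy.1 j
        simp only [Function.update_self, abs_le]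
        constructor <;> linarith
      · simpa [hj] using hκ
  · refine ⟨Function.update y k (K.hi p k), TM.mem_frontier_Icc3.2 ⟨⟨fun j => ?_, fun j => ?_⟩,
      k, Or.inr (by simp)⟩, (pi_norm_le_iff_of_nonneg hκ).2 fun j => ?_⟩
    · by_cases hj : j = k
      · subst hj; simpa using (K.lt p j).le
      · simpa [hj] using hy.1 j
    · by_cases hj : j = k
      · subst hj; simp
      · simpa [hj] using hy.2 j
    · rw [Pi.sub_apply, Real.norm_eq_abs]
      by_cases hj : j = k
      · subst hj
        have := hy.2 j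
        simp only [Function.update_self, abs_le]
        constructor <;> linarith
      · simpa [hj] using hκ

/-- the same for points of the tile near the frontier -/
theorem cover_near {p : K.T} {t : ℝ} (ht : 0 ≤ t)
    (hτ : ∀ s, (p = K.sm s ∨ p = K.sp s) → t ≤ B.τ s)
    (hT : ∀ e, K.edge e ⊆ K.cube p → 8 * t ≤ B.T e)
    (hR : ∀ i, K.w i ∈ K.cube p → t ≤ W.wv i) (hy : y ∈ K.cube p)
    (hyk : ∃ k, y k ≤ K.lo p k + t / 2 ∨ K.hi p k - t / 2 ≤ y k) :
    (∃ s, (p = K.sm s ∨ p = K.sp s) ∧ closedBall y (t / 2) ⊆ B.P s) ∨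
    (∃ e, K.edge e ⊆ K.cube p ∧ closedBall y (t / 2) ⊆ B.E e) ∨
    ∃ i, K.w i ∈ K.cube p ∧ closedBall y (t / 2) ⊆ Zv W i := by
  obtain ⟨x, hxf, hxy⟩ := exists_frontier_near (by positivity) hy hyk
  have hsub : closedBall y (t / 2) ⊆ closedBall x t := by
    intro u hu
    rw [mem_closedBall, dist_eq_norm] at hu ⊢
    have := norm_sub_le_norm_sub_add_norm_sub u y x
    linarith
  rcases B.cover_of ht hτ hT hR hxf with ⟨s, hs, h⟩ | ⟨e, he, h⟩ | ⟨i, hi, h⟩
  · exact Or.inl ⟨s, hs, hsub.trans h⟩
  · exact Or.inr (Or.inl ⟨e, he, hsub.trans h⟩)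
  · exact Or.inr (Or.inr ⟨i, hi, hsub.trans h⟩)

theorem finite_edges (K : BoxCx Λ v) (p : K.T) : {e | K.edge e ⊆ K.cube p}.Finite := by
  refine (TM.lf_finite K.lfG (C := K.cube p) isCompact_Icc (K.sub p)).subset ?_
  exact fun e he => ⟨K.w (K.a e), TM.wa_mem K e, he (TM.wa_mem K e)⟩

theorem finite_vertices (S : Rad K) (p : K.T) : {i | K.w i ∈ K.cube p}.Finite := by
  refine (TM.lf_finite S.lfU (C := K.cube p) isCompact_Icc (K.sub p)).subset ?_
  exact fun i hi => ⟨K.w i, mem_closedBall_self (by linarith [S.r_pos i]), hi⟩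

/-- a positive function has a positive lower bound on a finite set -/
theorem exists_pos_le {α : Type*} {A : Set α} (hA : A.Finite) (f : α → ℝ) (hf : ∀ a, 0 < f a) :
    ∃ t, 0 < t ∧ ∀ a ∈ A, t ≤ f a := by
  have : ∀ F : Finset α, ∃ t, 0 < t ∧ ∀ e ∈ F, t ≤ f e := by
    classical
    intro F
    induction F using Finset.induction_on with
    | empty => exact ⟨1, one_pos, by simp⟩
    | insert a F _ ih =>
      obtain ⟨t, ht, h⟩ := ih
      refine ⟨min t (f a), lt_min ht (hf a), fun e he => ?_⟩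
      rcases Finset.mem_insert.1 he with rfl | he
      · exact min_le_right _ _
      · exact (min_le_left _ _).trans (h e he)
  obtain ⟨t, ht, h⟩ := this hA.toFinset
  exact ⟨t, ht, fun a ha => h a (hA.mem_toFinset.2 ha)⟩

/-- **the boxes cover a neighbourhood of the boundary of every tile** -/
theorem exists_cover (p : K.T) : ∃ κ, 0 < κ ∧ ∀ y ∈ K.cube p,
    (∃ k, y k ≤ K.lo p k + κ ∨ K.hi p k - κ ≤ y k) →
    (∃ s, (p = K.sm s ∨ p = K.sp s) ∧ closedBall y κ ⊆ B.P s) ∨
    (∃ e, K.edge e ⊆ K.cube p ∧ closedBall y κ ⊆ B.E e) ∨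
    ∃ i, K.w i ∈ K.cube p ∧ closedBall y κ ⊆ Zv W i := by
  obtain ⟨t1, ht1, h1⟩ := exists_pos_le (finite_squares K p) B.τ B.τ_pos
  obtain ⟨t2, ht2, h2⟩ := exists_pos_le (finite_edges K p) B.T B.T_pos
  obtain ⟨t3, ht3, h3⟩ := exists_pos_le (finite_vertices S p) W.wv W.wv_pos
  set t := min t1 (min (t2 / 8) t3) with ht
  have ht0 : 0 < t := lt_min ht1 (lt_min (by positivity) ht3)
  have a1 : t ≤ t1 := min_le_left _ _
  have a2 : t ≤ t2 / 8 := (min_le_right _ _).trans (min_le_left _ _)
  have a3 : t ≤ t3 := (min_le_right _ _).trans (min_le_right _ _)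
  refine ⟨t / 2, by positivity, fun y hy hyk => B.cover_near ht0.le (fun s hs => ?_)
    (fun e he => ?_) (fun i hi => ?_) hy hyk⟩
  · exact a1.trans (h1 s (hs.imp Eq.symm Eq.symm))
  · have := h2 e he
    linarith
  · exact a3.trans (h3 i hi)

end Boxes

/-- boxes with given upper bounds -/
theorem exists_boxes (W : Wid K S) (bT : K.G → ℝ) (bu bτ : K.S → ℝ) (hT : ∀ e, 0 < bT e)
    (hu : ∀ s, 0 < bu s) (hτ : ∀ s, 0 < bτ s) :
    ∃ B : Boxes W, (∀ e, B.T e ≤ bT e) ∧ (∀ s, B.u s ≤ bu s) ∧ (∀ s, B.τ s ≤ bτ s) := by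
  set T : K.G → ℝ := fun e => min (bT e) (min (W.we e) (min (W.wv (K.a e) / 8)
    (W.wv (K.b e) / 8))) with hTdef
  have hTp : ∀ e, 0 < T e := fun e => lt_min (hT e) (lt_min (W.we_pos e)
    (lt_min (by linarith [W.wv_pos (K.a e)]) (by linarith [W.wv_pos (K.b e)])))
  have hfin : ∀ s : K.S, {e | K.edge e ⊆ K.sq s}.Finite := by
    intro s
    refine (TM.lf_finite K.lfG (C := K.sq s) isCompact_Icc ?_).subset ?_
    · exact (TM.sq_subset K s).1.trans (K.sub _)
    · intro e he
      exact ⟨K.w (K.a e), TM.wa_mem K e, he (TM.wa_mem K e)⟩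
  have hex : ∀ s : K.S, ∃ t, 0 < t ∧ ∀ e, K.edge e ⊆ K.sq s → 2 * t ≤ T e := by
    intro s
    obtain ⟨t, ht, h⟩ : ∃ t, 0 < t ∧ ∀ e ∈ (hfin s).toFinset, t ≤ T e := by
      have : ∀ F : Finset K.G, ∃ t, 0 < t ∧ ∀ e ∈ F, t ≤ T e := by
        classical
        intro F
        induction F using Finset.induction_on with
        | empty => exact ⟨1, one_pos, by simp⟩
        | insert a F _ ih =>
          obtain ⟨t, ht, h⟩ := ih
          refine ⟨min t (T a), lt_min ht (hTp a), fun e he => ?_⟩
          rcases Finset.mem_insert.1 he with rfl | he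
          · exact min_le_right _ _
          · exact (min_le_left _ _).trans (h e he)
      exact this _
    refine ⟨t / 2, by positivity, fun e he => ?_⟩
    have := h e ((hfin s).mem_toFinset.2 he)
    linarith
  choose t ht ht' using hex
  refine ⟨{ T := T
            u := fun s => min (bu s) (t s)
            τ := fun s => min (bτ s) (min (W.ws s) (min (bu s) (t s) / 4))
            T_pos := hTp
            u_pos := fun s => lt_min (hu s) (ht s)
            τ_pos := fun s => lt_min (hτ s) (lt_min (W.ws_pos s)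
              (by have := lt_min (hu s) (ht s); linarith))
            T_le := fun e => (min_le_right _ _).trans (min_le_left _ _)
            T_le_a := fun e => ?_
            T_le_b := fun e => ?_
            u_le := fun s e he => ?_
            τ_le := fun s => (min_le_right _ _).trans (min_le_left _ _)
            τ_le_u := fun s => ?_ }, fun e => min_le_left _ _, fun s => min_le_left _ _,
            fun s => min_le_left _ _⟩
  · have : T e ≤ W.wv (K.a e) / 8 :=
      ((min_le_right _ _).trans (min_le_right _ _)).trans (min_le_left _ _)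
    linarith
  · have : T e ≤ W.wv (K.b e) / 8 :=
      ((min_le_right _ _).trans (min_le_right _ _)).trans (min_le_right _ _)
    linarith
  · have h1 := ht' s e he
    have h2 := min_le_right (bu s) (t s)
    linarith
  · have : min (bτ s) (min (W.ws s) (min (bu s) (t s) / 4)) ≤ min (bu s) (t s) / 4 :=
      (min_le_right _ _).trans (min_le_right _ _)
    linarith

end Vale.Agent.P073.H471
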