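import Vale.Agent.P073.H267.K3T2
import Vale.Agent.P073.H237.Plug1

/-!
# P073, H471: **[OSC-TOP] (x2)**, sets which miss the boxes of the hook of the plates

`A` is a cell, a face or an edge of the mesh (more generally: `h3 '' A = Pre κ h2 A`), `x ∈ A`, and
`h4 x` is in no box `HB (29 / 32) (3 / 4) s`.  Then `h2 z = h1 z` for the point `z ∈ A` with
`h2 z = κ (h3 x)` (`S3.eq2`), `h5 x = h4 x`, and `f5 x` is near `h1 z`: `S4.off_pt`, `S4.off_near`.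
`S4.off_osc`, `S4.off_face`: the oscillation, for sets which miss the boxes.
-/

open Set Metric Topology Filter
open scoped ENNReal

set_option linter.unusedSectionVars false
set_option autoImplicit false

namespace Vale.Agent.P073.H471.X2

open _root_.P073 _root_.P073.Net _root_.P073.PA691 _root_.P073.H236 _root_.P073.H579
  _root_.P073.H345
open _root_.P073.H142 (PS3 PS.map BxR)
open _root_.P073.H880.RP
open _root_.P073.H190 (IsS2)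
open _root_.P073.H228 (IsSg)
open Vale.Agent.P073.St (V)
open Vale.Agent.P073.H471 Vale.Agent.P073.H267

/-! ### moves of one coordinate in the support of a square -/

section moves

variable {Ω Λ : Set V} {v : V} {K : BoxCx Λ v} {S : Rad K} {W : Wid K S} {B : Boxes W}
  {G : Geo B} {S₀ : Set K.S} {y y' y'' : V} {s : K.S} {β : Bool} {c c' : ℝ}

/-- `y'` is `y` up to `c` in the coordinate `tg s β`, in the support of `s` -/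
structure Sp (G : Geo B) (s : K.S) (β : Bool) (c : ℝ) (y y' : V) : Prop where
  ne : ∀ i, i ≠ tg s β → y' i = y i
  le : |y' (tg s β) - y (tg s β)| ≤ c
  mem : y' ∈ PK G s

theorem Sp.refl (hc : 0 ≤ c) (hy : y ∈ PK G s) : Sp G s β c y y :=
  ⟨fun _ _ => rfl, by rw [sub_self, abs_zero]; exact hc, hy⟩

theorem coord_le {y y' : V} {c : ℝ} (h : ‖y' - y‖ ≤ c) (i : Fin 3) : |y' i - y i| ≤ c := by
  have h1 := norm_le_pi_norm (y' - y) i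
  rw [Pi.sub_apply, Real.norm_eq_abs] at h1
  exact h1.trans h

theorem Sp.of_K {s : S₀} {Kf : S₀ → Set V} (hK : ∀ b, Kf b ⊆ PK G b.1) {f : V → V} {c : ℝ}
    (hc : 0 ≤ c) (hy : y ∈ PK G s.1) (hm : y ∈ Kf s → f y ∈ Kf s)
    (hn : y ∈ Kf s → ∀ i, i ≠ tg s.1 β → f y i = y i) (hd : y ∈ Kf s → ‖f y - y‖ ≤ c)
    (ho : (∀ b, y ∉ Kf b) → f y = y) : Sp G s.1 β c y (f y) := by
  by_cases h : y ∈ Kf s
  · exact ⟨hn h, coord_le (hd h) _, hK s (hm h)⟩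
  · have h2 : f y = y := ho fun b hb => by
      have h3 := PK_unique (hK b hb) hy
      obtain rfl := Subtype.ext h3
      exact h hb
    rw [h2]
    exact Sp.refl hc hy

variable {L : PLev G}

theorem sp_isQ {κ : V → V} (h : IsQ (fun s : S₀ => L.bx β s.1) κ) {s : S₀} (hy : y ∈ PK G s.1) :
    Sp G s.1 β (L.c s.1 β) y (κ y) := by
  refine Sp.of_K (Kf := fun b : S₀ => (L.bx β b.1).K) (fun _ _ hb => (PLev.mem_bxK.1 hb).1)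
    (L.lvs s.1 β).c0.le hy (fun hb => h.mapsK hb) (fun hb i hi => ?_) (fun hb => ?_)
    fun ho => h.off y ho
  · rw [h.on s y hb]
    exact BX.Q_ne _ hi y
  · rw [h.on s y hb]
    exact BX.norm_Q_sub_le _ y

theorem sp_isS2 {F : Bool → BFam 3 S₀ Λ} {μ : S₀ → ℝ} {T : ConHomeo Λ Λ}
    (hB : ∀ s : S₀, BxR ((F β).B s) (L.bx β s.1)) (h : IsS2 (F β) μ T) {s : S₀}
    (μ0 : 0 ≤ μ s) (μD : 2 * μ s ≤ (F β).D s) (hy : y ∈ PK G s.1) :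
    Sp G s.1 β ((F β).D s) y (T.toFun y) := by
  refine Sp.of_K (Kf := fun b : S₀ => ((F β).B b).K)
    (fun b _ hb => (PLev.mem_bxK.1 ((hB b).sub_K hb)).1) ((F β).D0 s) hy
    (fun hb => h.mem μ0 hb) (fun hb i hi => h.ne hb ?_) (fun hb => h.norm_sub_le μ0 μD hb)
    fun ho => h.off y ho
  rw [(hB s).j]
  exact hi

theorem sp_isS2' {F : Bool → BFam 3 S₀ Λ} {μ : S₀ → ℝ} {T : ConHomeo Λ Λ}
    (hB : ∀ s : S₀, BxR ((F β).B s) (L.bx β s.1)) (h : IsS2 (F β) μ T) {s : S₀}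
    (μ0 : 0 ≤ μ s) (hy : y ∈ PK G s.1) :
    Sp G s.1 β |(F β).σ s (y (tg s.1 β)) - y (tg s.1 β)| y (T.toFun y) := by
  have hj : ((F β).B s).j = tg s.1 β := (hB s).j
  refine Sp.of_K (Kf := fun b : S₀ => ((F β).B b).K)
    (fun b _ hb => (PLev.mem_bxK.1 ((hB b).sub_K hb)).1) (abs_nonneg _) hy
    (fun hb => h.mem μ0 hb) (fun hb i hi => h.ne hb ?_)
    (fun hb => by have h1 := h.norm_sub_le' μ0 hb; rwa [hj] at h1) fun ho => h.off y ho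
  rw [hj]
  exact hi

theorem sp_isSg {F : Bool → BFam 3 S₀ Λ} {ς : S₀ → ℝ} {T : ConHomeo Λ Λ}
    (hB : ∀ s : S₀, BxR ((F β).B s) (L.bx β s.1)) (h : IsSg (F β) ς T) {s : S₀}
    (hy : y ∈ PK G s.1) : Sp G s.1 β ((F β).e s) y (T.toFun y) := by
  refine Sp.of_K (Kf := fun b : S₀ => ((F β).B b).K)
    (fun b _ hb => (PLev.mem_bxK.1 ((hB b).sub_K hb)).1) ((F β).he s).le hy
    (fun hb => h.mem hb) (fun hb i hi => h.ne hb ?_) (fun hb => h.norm_sub_le hb)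
    fun ho => h.off y ho
  rw [(hB s).j]
  exact hi

/-- two steps, one in each direction -/
structure Sp2 (G : Geo B) (s : K.S) (c : Bool → ℝ) (y y' : V) : Prop where
  nrm : y' (K.nrm s) = y (K.nrm s)
  le : ∀ β, |y' (tg s β) - y (tg s β)| ≤ c β
  mem : y' ∈ PK G s

theorem Sp.comp {c : Bool → ℝ} (h : Sp G s false (c false) y y') (h' : Sp G s true (c true) y' y'') :
    Sp2 G s c y y'' where
  nrm := by rw [h'.ne _ (tg_ne s true).symm, h.ne _ (tg_ne s false).symm]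
  le := by
    have hne : tg s false ≠ tg s true := tg_ne_not s false
    rintro (_ | _)
    · rw [h'.ne _ hne]; exact h.le
    · have h1 := h'.le
      rwa [h.ne _ hne.symm] at h1
  mem := h'.mem

end moves

end Vale.Agent.P073.H471.X2

namespace Vale.Agent.P073.H267.K3

open _root_.P073 _root_.P073.Net _root_.P073.PA691 _root_.P073.H236 _root_.P073.H579
open _root_.P073.H936 _root_.P073.H936.K3
open _root_.P073.H142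
open _root_.P073.H345 (PK tg PLev tg_ne tg_ne_not)
open _root_.P073.H880.RP
open _root_.P073.H190 (IsS2 PT2)
open _root_.P073.H919 (HkG HkGF HkGO ZbP sfam HB PI mem_HB HB_mono HB_PB mem_HB_iff κ_mem_iff esg esg_lt)
open _root_.P073.H429
open Vale.Agent.P073.H687
open Vale.Agent.P073.St (V)
open Vale.Agent.P073.H471 Vale.Agent.P073.H267 Vale.Agent.P073.H471.X2
open Vale.Agent.P073.H73 (Mesh)
open Vale.Agent.P073.H193 (Edges Cyc edges)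
open Vale.Agent.P073.H926
open Vale.Agent.P073.H238.K3

variable {c₀ n δ : ℝ} {j : ℕ} {Ω Λ : Set V} {v w : V} {ρ : V → ℝ} {M : Mesh Ω} {h : ConHomeo Ω Λ}
  {J₀ J : Set (ℕ × (Fin 3 → ℤ))} {P Z : Set M.ι} {K : BoxCx Λ w}
  {D : KIn3 c₀ n j δ v w ρ M h J₀ J P Z} {C : Cells ρ w K} {C₀ μT : ℝ}
  {X : S1 D C C₀ μT} {Y₂ : S2 X} {Ys : Set M.κ} {sc : Sharp}

/-- the sets of the mesh whose images are preimages -/
theorem S3.pre_face (Y₃ : S3 Y₂ Ys sc) (k : M.κ) :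
    Y₃.h3.toFun '' M.F k = Pre (Y₃.κ true ∘ Y₃.κ false) Λ Y₂.h2 (M.F k) := Y₃.ins.out.img_face k

/-- a point which the exchange moves is in the box of the hook -/
theorem S3.hook_of_PE (Y₃ : S3 Y₂ Ys sc) {x z : V} (hx : x ∈ Ω) (hz : z ∈ Ω)
    (hzx : Y₂.h2.toFun z = Y₃.κ true (Y₃.κ false (Y₃.h3.toFun x))) {s : K.S}
    (hs : s ∈ (D.dat C).S₀) (hPE : X.h1.toFun z ∈ (D.dat C).PE (D.G C) s) :
    Y₃.h3.toFun x ∈ HB (D.G C) 1 (1 / 2) s ∧ Y₃.h4.toFun x ∈ HB (D.G C) 1 (1 / 2) s := by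
  have hτ := (D.B C).τ_pos s
  have h2 : Y₂.h2.toFun z ∈ (D.dat C).PE (D.G C) s := (Y₂.ex.ex.box s hs z hz).2 hPE
  have h3 : Y₂.h2.toFun z ∈ HB (D.G C) 1 (1 / 2) s := by
    obtain ⟨e1, e2, e3⟩ := h2
    have k1 := Y₂.ex.ht.le s hs true
    have k2 := Y₂.ex.ht.le s hs false
    refine mem_HB.2 ⟨fun k hk => ?_, ?_⟩
    · rw [one_mul]; exact e1 k hk
    · rw [abs_le]
      constructor <;> linarith
  have h5 : Y₃.h3.toFun x ∈ HB (D.G C) 1 (1 / 2) s := by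
    refine (κ_mem_iff (G := D.G C) (φ := (Subtype.val : (D.dat C).S₀ → K.S))
      Subtype.val_injective (Y₃.ins.isQ false) (Y₃.ins.isQ true) (b := ⟨s, hs⟩) (by norm_num)
      (by norm_num) (by norm_num)).1 ?_
    rw [← hzx]
    exact h3
  have h7 : Y₃.h3.toFun x ∈ (D.G C).PB (7 / 8) s := HB_PB (by norm_num) (by norm_num) s h5
  have h1 : Y₃.h3.toFun x ∈ (D.G C).PB 1 s := HB_PB le_rfl (by norm_num) s h5
  refine ⟨h5, ?_⟩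
  rw [Y₃.map4 x hx, mem_HB_iff (by norm_num)]
  have h8 := Y₃.pt2.mem_PB (s := ⟨s, hs⟩) (c := 1) (by norm_num) le_rfl h1
  refine ⟨h8, ?_⟩
  have h9 := Y₃.pt2.nrm (s := ⟨s, hs⟩) h7
  change PS.map Y₃.T2 (Y₃.h3.toFun x) (K.nrm s) = _ at h9
  rw [h9]
  exact ((mem_HB_iff (by norm_num)).1 h5).2

/-- **off the boxes of the hook the exchange does nothing** -/
theorem S3.eq2 (Y₃ : S3 Y₂ Ys sc) {x z : V} (hx : x ∈ Ω) (hz : z ∈ Ω)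
    (hzx : Y₂.h2.toFun z = Y₃.κ true (Y₃.κ false (Y₃.h3.toFun x)))
    (hno : ∀ s ∈ (D.dat C).S₀, Y₃.h4.toFun x ∉ HB (D.G C) (29 / 32) (3 / 4) s) :
    Y₂.h2.toFun z = X.h1.toFun z :=
  Y₂.ex.ex.off z hz fun s hs hi => hno s hs (HB_mono (by norm_num) (by norm_num) s
    (Y₃.hook_of_PE hx hz hzx hs (interior_subset hi)).2)

/-- the point `z` of the preimage -/
theorem S3.exists_z (Y₃ : S3 Y₂ Ys sc) {A : Set V}
    (hpre : Y₃.h3.toFun '' A = Pre (Y₃.κ true ∘ Y₃.κ false) Λ Y₂.h2 A) {x : V} (hx : x ∈ A) :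
    ∃ z ∈ A, Y₂.h2.toFun z = Y₃.κ true (Y₃.κ false (Y₃.h3.toFun x)) := by
  have h7 : Y₃.h3.toFun x ∈ Y₃.h3.toFun '' A := ⟨x, hx, rfl⟩
  rw [hpre] at h7
  exact h7.2

/-- the point `x` over `z` -/
theorem S3.exists_x (Y₃ : S3 Y₂ Ys sc) {A : Set V} (hA : A ⊆ Ω)
    (hpre : Y₃.h3.toFun '' A = Pre (Y₃.κ true ∘ Y₃.κ false) Λ Y₂.h2 A) {z : V} (hz : z ∈ A) :
    ∃ x ∈ A, Y₂.h2.toFun z = Y₃.κ true (Y₃.κ false (Y₃.h3.toFun x)) := by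
  obtain ⟨y, hyΛ, hy⟩ := Y₃.ins.ins2.surj (Y₂.h2.mapsTo (hA hz))
  obtain ⟨x, hx, hxy⟩ : y ∈ Y₃.h3.toFun '' A := by
    rw [hpre]
    exact ⟨hyΛ, z, hz, hy.symm⟩
  refine ⟨x, hx, ?_⟩
  rw [hxy]
  exact hy.symm

/-- **(x2), the exact form at one point**: `x`, `z` with `h2 z = κ (h3 x)`, `h4 x` off the boxes -/
theorem S4.off_pt {Y₃ : S3 Y₂ Ys sc} (Y₄ : S4 Y₃) {x z : V} (hx : x ∈ Ω) (hz : z ∈ Ω)
    (hzx : Y₂.h2.toFun z = Y₃.κ true (Y₃.κ false (Y₃.h3.toFun x)))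
    (hno : ∀ s ∈ (D.dat C).S₀, Y₃.h4.toFun x ∉ HB (D.G C) (29 / 32) (3 / 4) s) :
    Y₂.h2.toFun z = X.h1.toFun z ∧ Y₄.h5.toFun x = Y₃.h4.toFun x ∧
      ((∀ s ∈ (D.dat C).S₀, X.h1.toFun z ∉ PK (D.G C) s) ∧
          Y₃.h3.toFun x = X.h1.toFun z ∧ Y₃.h4.toFun x = X.h1.toFun z ∧
          Y₄.f5.toFun x = X.h1.toFun z ∨
        ∃ s : (D.dat C).S₀, X.h1.toFun z ∈ PK (D.G C) s.1 ∧
          Sp2 (D.G C) s.1 (Y₃.c s.1) (Y₃.h3.toFun x) (X.h1.toFun z) ∧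
          Sp2 (D.G C) s.1 (fun β => |(Y₃.F β).σ s (Y₃.h3.toFun x (tg s.1 β)) -
            Y₃.h3.toFun x (tg s.1 β)|) (Y₃.h3.toFun x) (Y₃.h4.toFun x) ∧
          Sp2 (D.G C) s.1 (fun β => esg (Y₃.F β) (fun s => Y₄.q s * Y₄.r s) s) (Y₃.h4.toFun x)
            (Y₄.f5.toFun x)) := by
  have h5 : Y₄.h5.toFun x = Y₃.h4.toFun x :=
    Y₄.hko.off hx fun s hs => hno s.1 s.2 (interior_subset hs)
  have hmap5 : Y₄.f5.toFun x = PS.map Y₄.Tσ (Y₃.h4.toFun x) := by rw [Y₄.map5 x hx, h5]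
  have h2 := Y₃.eq2 hx hz hzx hno
  have h6' : Y₃.κ true (Y₃.κ false (Y₃.h3.toFun x)) = X.h1.toFun z := hzx.symm.trans h2
  refine ⟨h2, h5, ?_⟩
  have hmv : _root_.P073.H429.Mv (D.G C) (D.dat C).S₀ (Y₃.h3.toFun x) (X.h1.toFun z) := by
    rw [← h6']
    exact mv_kP (Y₃.ins.isQ false) (Y₃.ins.isQ true) _
  by_cases hK : ∃ s ∈ (D.dat C).S₀, Y₃.h3.toFun x ∈ PK (D.G C) s
  · right
    obtain ⟨s, hs, hsK⟩ := hK
    have a1 := sp_isQ (G := D.G C) (Y₃.ins.isQ false) (s := ⟨s, hs⟩) hsK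
    have a2 := sp_isQ (G := D.G C) (Y₃.ins.isQ true) (s := ⟨s, hs⟩) a1.mem
    have a3 := Sp.comp (c := Y₃.c s) a1 a2
    rw [h6'] at a3
    have b1 := sp_isS2' (G := D.G C) (Y₃.pt2.B false) (Y₃.pt2.isS false) (s := ⟨s, hs⟩)
      (Y₃.pt2.μ0 false _) hsK
    have b2 := sp_isS2' (G := D.G C) (Y₃.pt2.B true) (Y₃.pt2.isS true) (s := ⟨s, hs⟩)
      (Y₃.pt2.μ0 true _) b1.mem
    rw [b1.ne (tg s true) (tg_ne_not s false).symm] at b2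
    have b3 := Sp.comp (c := fun β => |(Y₃.F β).σ ⟨s, hs⟩ (Y₃.h3.toFun x (tg s β)) -
            Y₃.h3.toFun x (tg s β)|) b1 b2
    have b4 : Y₃.h4.toFun x = (Y₃.T2 true).toFun ((Y₃.T2 false).toFun (Y₃.h3.toFun x)) :=
      Y₃.map4 x hx
    rw [← b4] at b3
    have c1 := sp_isSg (G := D.G C)
      (F := fun β => sfam (Y₃.F β) (fun s => Y₄.q s * Y₄.r s) Y₄.p0 Y₄.p1) (β := false)
      (Y₄.sg.B false) (Y₄.sg.isS false) (s := ⟨s, hs⟩) b3.mem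
    have c2 := sp_isSg (G := D.G C)
      (F := fun β => sfam (Y₃.F β) (fun s => Y₄.q s * Y₄.r s) Y₄.p0 Y₄.p1) (β := true)
      (Y₄.sg.B true) (Y₄.sg.isS true) (s := ⟨s, hs⟩) c1.mem
    have c3 := Sp.comp (c := fun β => esg (Y₃.F β) (fun s => Y₄.q s * Y₄.r s) ⟨s, hs⟩) c1 c2
    have c4 : Y₄.f5.toFun x = (Y₄.Tσ true).toFun ((Y₄.Tσ false).toFun (Y₃.h4.toFun x)) := hmap5
    rw [← c4] at c3
    exact ⟨⟨s, hs⟩, a3.mem, a3, b3, c3⟩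
  · left
    push Not at hK
    have e1 := hmv.eq hK
    have e2 : Y₃.h4.toFun x = Y₃.h3.toFun x := by
      rw [Y₃.map4 x hx]
      exact (Y₃.mv2 _).eq hK
    have e3 : Y₄.f5.toFun x = Y₃.h4.toFun x := by
      rw [hmap5]
      exact (mv_sg3 Y₄.sg _).eq (by rw [e2]; exact hK)
    rw [e3, e2, e1]
    exact ⟨hK, rfl, rfl, rfl⟩

/-- the half gaps of the second staircases are small -/
theorem S4.esg_le {Y₃ : S3 Y₂ Ys sc} (Y₄ : S4 Y₃) (s : (D.dat C).S₀) (β : Bool) :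
    esg (Y₃.F β) (fun s => Y₄.q s * Y₄.r s) s ≤ Y₂.dP s.1 := by
  have h1 := esg_lt (F := Y₃.F β) Y₄.p0 s
  have h2 := Y₂.Lw.om_le_c s.1 β
  have h3 : stp ((Y₃.F β).B s).N ((Y₃.F β).B s).al ((Y₃.F β).B s).be = Y₂.Lw.om s.1 β := rfl
  rw [h3] at h1
  linarith

/-- the displacements together -/
theorem S4.disp_le {Y₃ : S3 Y₂ Ys sc} (Y₄ : S4 Y₃) (s : (D.dat C).S₀) (β : Bool) (t : ℝ) :
    Y₃.c s.1 β + |(Y₃.F β).σ s t - t| + esg (Y₃.F β) (fun s => Y₄.q s * Y₄.r s) s ≤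
      3 * Y₂.J s.1 := by
  have h1 := Y₄.esg_le s β
  have h2 := Y₃.c1 s.1 β
  have h4 : Y₂.L.c s.1 β = Y₂.dP s.1 / 8 := rfl
  have h5 : |(Y₃.F β).σ s t - t| ≤ Y₂.muP s.1 + Y₂.J s.1 := F3W_disp Y₂.Lw β s t
  have h6 := Y₂.Lw.δμ s.1
  have h7 := Y₂.muJ s.1
  have h8 := Y₂.Lw.δ0 s.1
  rw [h4] at h2
  linarith

/-- the displacements together, off the windows -/
theorem S4.disp_out {Y₃ : S3 Y₂ Ys sc} (Y₄ : S4 Y₃) (s : (D.dat C).S₀) (β : Bool) {t : ℝ}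
    (ht : t ∉ wnd Y₂.R Y₂.Q s.1 β) :
    Y₃.c s.1 β + |(Y₃.F β).σ s t - t| + esg (Y₃.F β) (fun s => Y₄.q s * Y₄.r s) s ≤
      2 * Y₂.muP s.1 := by
  have h1 := Y₄.esg_le s β
  have h2 := Y₃.c1 s.1 β
  have h4 : Y₂.L.c s.1 β = Y₂.dP s.1 / 8 := rfl
  have h5 : |(Y₃.F β).σ s t - t| ≤ Y₂.muP s.1 := F3W_disp_out Y₂.Lw β s ht
  have h6 := Y₂.Lw.δμ s.1
  have h8 := Y₂.Lw.δ0 s.1
  rw [h4] at h2
  linarith

/-- **(x2), pointwise**: if `h4 x` is off the boxes, `f5 x` is near `h1 z`; `b` is any bound of the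
displacements -/
theorem S4.off_near {Y₃ : S3 Y₂ Ys sc} (Y₄ : S4 Y₃) {A : Set V} (hA : A ⊆ Ω)
    (hpre : Y₃.h3.toFun '' A = Pre (Y₃.κ true ∘ Y₃.κ false) Λ Y₂.h2 A) {x : V} (hx : x ∈ A)
    (hno : ∀ s ∈ (D.dat C).S₀, Y₃.h4.toFun x ∉ HB (D.G C) (29 / 32) (3 / 4) s) {b : ℝ}
    (hb0 : 0 ≤ b) (hb : ∀ s : (D.dat C).S₀, (X.h1.toFun '' A ∩ PK (D.G C) s.1).Nonempty →
      ∀ β t, Y₃.c s.1 β + |(Y₃.F β).σ s t - t| + esg (Y₃.F β) (fun s => Y₄.q s * Y₄.r s) s ≤ b) :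
    ∃ z ∈ A, Y₂.h2.toFun z = Y₃.κ true (Y₃.κ false (Y₃.h3.toFun x)) ∧
      ∀ j, |Y₄.f5.toFun x j - X.h1.toFun z j| ≤ b := by
  obtain ⟨z, hz, hzx⟩ := Y₃.exists_z hpre hx
  refine ⟨z, hz, hzx, fun j => ?_⟩
  obtain ⟨-, -, h1⟩ := Y₄.off_pt (hA hx) (hA hz) hzx hno
  rcases h1 with ⟨-, -, -, h1⟩ | ⟨s, hs, a, b1, c1⟩
  · rw [h1, sub_self, abs_zero]
    exact hb0
  · by_cases hj : j = K.nrm s.1
    · subst hj
      rw [c1.nrm, b1.nrm, a.nrm, sub_self, abs_zero]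
      exact hb0
    · obtain ⟨β, rfl⟩ : ∃ β, j = tg s.1 β :=
        ⟨_root_.P073.H345.bt s.1 j, (_root_.P073.H345.tg_bt s.1 hj).symm⟩
      refine le_trans ?_ (hb s ⟨_, ⟨z, hz, rfl⟩, hs⟩ β (Y₃.h3.toFun x (tg s.1 β)))
      have e1 := abs_le.1 (a.le β)
      have e2 := abs_le.1 (b1.le β)
      have e3 := abs_le.1 (c1.le β)
      rw [abs_le]
      constructor <;> linarith [e1.1, e1.2, e2.1, e2.2, e3.1, e3.2]

/-- **(x2), pointwise, world without windows**: `2 muP` (tiny) -/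
theorem S4.off_nearQ {Y₃ : S3 Y₂ Ys sc} (Y₄ : S4 Y₃) {A : Set V} (hA : A ⊆ Ω)
    (hpre : Y₃.h3.toFun '' A = Pre (Y₃.κ true ∘ Y₃.κ false) Λ Y₂.h2 A) {x : V} (hx : x ∈ A)
    (hno : ∀ s ∈ (D.dat C).S₀, Y₃.h4.toFun x ∉ HB (D.G C) (29 / 32) (3 / 4) s)
    (hQ : ∀ s ∈ (D.dat C).S₀, ∀ β, Y₂.Q s β = ∅) {b : ℝ} (hb0 : 0 ≤ b)
    (hb : ∀ s ∈ (D.dat C).S₀, (X.h1.toFun '' A ∩ PK (D.G C) s).Nonempty → 2 * Y₂.muP s ≤ b) :
    ∃ z ∈ A, Y₂.h2.toFun z = Y₃.κ true (Y₃.κ false (Y₃.h3.toFun x)) ∧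
      ∀ j, |Y₄.f5.toFun x j - X.h1.toFun z j| ≤ b :=
  Y₄.off_near hA hpre hx hno hb0 fun s hs β t =>
    (Y₄.disp_out s β (t := t) (by
      unfold wnd
      rw [hQ s.1 s.2 β]
      simp)).trans (hb s.1 s.2 hs)

/-- **(x2), pointwise, all worlds**: `3 J` -/
theorem S4.off_nearJ {Y₃ : S3 Y₂ Ys sc} (Y₄ : S4 Y₃) {A : Set V} (hA : A ⊆ Ω)
    (hpre : Y₃.h3.toFun '' A = Pre (Y₃.κ true ∘ Y₃.κ false) Λ Y₂.h2 A) {x : V} (hx : x ∈ A)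
    (hno : ∀ s ∈ (D.dat C).S₀, Y₃.h4.toFun x ∉ HB (D.G C) (29 / 32) (3 / 4) s) {b : ℝ}
    (hb0 : 0 ≤ b)
    (hb : ∀ s ∈ (D.dat C).S₀, (X.h1.toFun '' A ∩ PK (D.G C) s).Nonempty → 3 * Y₂.J s ≤ b) :
    ∃ z ∈ A, Y₂.h2.toFun z = Y₃.κ true (Y₃.κ false (Y₃.h3.toFun x)) ∧
      ∀ j, |Y₄.f5.toFun x j - X.h1.toFun z j| ≤ b :=
  Y₄.off_near hA hpre hx hno hb0 fun s hs β t => (Y₄.disp_le s β t).trans (hb s.1 s.2 hs)

/-- **[OSC-TOP] (x2')**: pointwise, faces, world without windows -/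
theorem S4.off_pos {Y₃ : S3 Y₂ Ys sc} (Y₄ : S4 Y₃) {k : M.κ} {x : V} (hx : x ∈ M.F k)
    (hno : ∀ s ∈ (D.dat C).S₀, Y₃.h4.toFun x ∉ HB (D.G C) (29 / 32) (3 / 4) s)
    (hQ : ∀ s ∈ (D.dat C).S₀, ∀ β, Y₂.Q s β = ∅) {b : ℝ} (hb0 : 0 ≤ b)
    (hb : ∀ s ∈ (D.dat C).S₀, (X.h1.toFun '' M.F k ∩ PK (D.G C) s).Nonempty →
      2 * Y₂.muP s ≤ b) :
    ∃ z ∈ M.F k, Y₂.h2.toFun z = Y₃.κ true (Y₃.κ false (Y₃.h3.toFun x)) ∧
      ∀ j, |Y₄.f5.toFun x j - X.h1.toFun z j| ≤ b :=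
  Y₄.off_nearQ (Vale.Agent.P073.H193.mesh_sub M k) (Y₃.pre_face k) hx hno hQ hb0 hb

/-- **[OSC-TOP] (x2)**, faces which miss the boxes -/
theorem S4.off_face {Y₃ : S3 Y₂ Ys sc} (Y₄ : S4 Y₃) (k : M.κ)
    (hno : ∀ z ∈ M.F k, ∀ s ∈ (D.dat C).S₀,
      Y₃.h4.toFun z ∉ HB (D.G C) (29 / 32) (3 / 4) s)
    (hQ : ∀ s ∈ (D.dat C).S₀, ∀ β, Y₂.Q s β = ∅) {b : ℝ} (hb0 : 0 ≤ b)
    (hb : ∀ s ∈ (D.dat C).S₀, (X.h1.toFun '' M.F k ∩ PK (D.G C) s).Nonempty →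
      2 * Y₂.muP s ≤ b) : ∀ x ∈ M.F k, ∀ y ∈ M.F k, ∃ x' ∈ M.F k, ∃ y' ∈ M.F k, ∀ j,
      |Y₄.f5.toFun x j - Y₄.f5.toFun y j| ≤ |X.h1.toFun x' j - X.h1.toFun y' j| + 2 * b := by
  intro x hx y hy
  obtain ⟨x', hx', -, h1⟩ := Y₄.off_pos hx (hno x hx) hQ hb0 hb
  obtain ⟨y', hy', -, h2⟩ := Y₄.off_pos hy (hno y hy) hQ hb0 hb
  refine ⟨x', hx', y', hy', fun j => ?_⟩
  have e1 := abs_le.1 (h1 j)
  have e2 := abs_le.1 (h2 j)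
  have e3 := abs_le.1 (le_refl |X.h1.toFun x' j - X.h1.toFun y' j|)
  rw [abs_le]
  constructor <;> linarith [e1.1, e1.2, e2.1, e2.2, e3.1, e3.2]

end Vale.Agent.P073.H267.K3
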