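import Vale.Agent.P073.H471.DeepT
import Vale.Agent.P073.H73.K2S

/-!
# P073, block A00: `K2C` implies `K2AS` and `K2A` (the radial expansions)
-/

open Set Metric Topology Filter MeasureTheory
open scoped ENNReal

namespace Vale.Agent.P073.H471

open _root_.P073 _root_.P073.Net
open Vale.Agent.P073.St (V)
open Vale.Agent.P073.H73
open Vale.Agent.P073.SQ (ev)

variable {Ω Λ : Set V} {ρ : V → ℝ} {w : V}

theorem Fat.compact {c r : ℝ} {F : Set V} (h : Fat c r F) : IsCompact F := by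
  obtain ⟨φ, -, -⟩ := h.chart
  have hc : IsCompact usq := isCompact_Icc.prod isCompact_Icc
  have e : F = φ.toFun '' usq :=
    Subset.antisymm (fun y hy => ⟨φ.invFun y, φ.mapsTo_inv hy, φ.right_inv hy⟩)
      (by rintro _ ⟨x, hx, rfl⟩; exact φ.mapsTo hx)
  rw [e]
  exact hc.image_of_continuousOn φ.cont

theorem face_subset (M : Mesh Ω) (k : M.κ) : M.F k ⊆ Ω := by
  obtain ⟨i, j, -, h⟩ := M.two k
  exact h.trans (inter_subset_left.trans (M.sub i))

/-- a face of a cell is contained in its frontier -/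
theorem face_frontier (M : Mesh Ω) {k : M.κ} {i : M.ι} (h : M.F k ⊆ M.Q i) :
    M.F k ⊆ frontier (M.Q i) := by
  intro x hx
  obtain ⟨i', j', hne, h2⟩ := M.two k
  have hcl : IsClosed (M.Q i) := (M.poly i).cpt.isClosed
  rw [hcl.frontier_eq]
  refine ⟨h hx, fun hint => ?_⟩
  by_cases hi : i = i'
  · subst hi
    exact (M.disj i j' hne).notMem_of_mem_left hint (h2 hx).2
  · exact (M.disj i i' hi).notMem_of_mem_left hint (h2 hx).1

/-- the distance of the images of the faces from the centre of a tile -/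
theorem exists_tau (M : Mesh Ω) (h : ConHomeo Ω Λ) {Q : Set V} (hQ : IsCompact Q) (hQΛ : Q ⊆ Λ)
    (c : V) (hc : ∀ k, ∀ x ∈ M.F k, h.toFun x ∈ Q → h.toFun x ≠ c) :
    ∃ τ, 0 < τ ∧ ∀ k, ∀ x ∈ M.F k, h.toFun x ∈ Q → τ ≤ ‖h.toFun x - c‖ := by
  set C := h.invFun '' Q with hC
  have hCc : IsCompact C := hQ.image_of_continuousOn (h.cont_inv.mono hQΛ)
  have hCΩ : C ⊆ Ω := by rintro _ ⟨y, hy, rfl⟩; exact h.mapsTo_inv (hQΛ hy)
  have hfin := M.ffin C hCΩ hCc
  have hmem : ∀ k, ∀ x ∈ M.F k, h.toFun x ∈ Q → x ∈ C := fun k x hx hxQ =>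
    ⟨h.toFun x, hxQ, h.left_inv (face_subset M k hx)⟩
  have hone : ∀ k, ∃ τ, 0 < τ ∧ ∀ x ∈ M.F k ∩ C, τ ≤ ‖h.toFun x - c‖ := by
    intro k
    rcases (M.F k ∩ C).eq_empty_or_nonempty with he | hne
    · exact ⟨1, one_pos, fun x hx => by rw [he] at hx; exact absurd hx (notMem_empty x)⟩
    · have hcomp : IsCompact (M.F k ∩ C) := (Fat.compact (M.fat k)).inter hCc
      have hcont : ContinuousOn (fun x => ‖h.toFun x - c‖) (M.F k ∩ C) :=
        ((h.cont.mono (inter_subset_right.trans hCΩ)).sub continuousOn_const).norm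
      obtain ⟨x, hx, hmin⟩ := hcomp.exists_isMinOn hne hcont
      refine ⟨‖h.toFun x - c‖, ?_, fun y hy => hmin hy⟩
      rw [norm_pos_iff, sub_ne_zero]
      refine hc k x hx.1 ?_
      obtain ⟨y, hy, hyx⟩ := hx.2
      rw [← hyx, h.right_inv (hQΛ hy)]
      exact hy
  choose τ hτ hτm using hone
  have hall : ∀ F : Finset M.κ, ∃ t, 0 < t ∧ ∀ k ∈ F, t ≤ τ k := by
    classical
    intro F
    induction F using Finset.induction_on with
    | empty => exact ⟨1, one_pos, by simp⟩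
    | insert a F _ ih =>
      obtain ⟨t, ht, h⟩ := ih
      refine ⟨min t (τ a), lt_min ht (hτ a), fun e he => ?_⟩
      rcases Finset.mem_insert.1 he with rfl | he
      · exact min_le_right _ _
      · exact (min_le_left _ _).trans (h e he)
  obtain ⟨t, ht, htt⟩ := hall hfin.toFinset
  refine ⟨t, ht, fun k x hx hxQ => ?_⟩
  have hxC := hmem k x hx hxQ
  exact (htt k (hfin.mem_toFinset.2 ⟨x, hx, hxC⟩)).trans (hτm k x ⟨hx, hxC⟩)

/-- points of the frontier of an aligned cell are not mapped into open tiles -/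
theorem aligned_notMem {M : Mesh Ω} {h : ConHomeo Ω Λ} {P : Set M.ι} (hΩ : IsOpen Ω)
    (H : Aligned w ρ M h.toFun P) {i : M.ι} (hi : i ∈ P) {x : V} (hx : x ∈ frontier (M.Q i))
    (j : TI ρ w) : h.toFun x ∉ dyo w j.1.1 j.1.2 := by
  intro hxj
  have hcl : IsClosed (M.Q i) := (M.poly i).cpt.isClosed
  rw [hcl.frontier_eq] at hx
  have hsub : dyc w j.1.1 j.1.2 ⊆ h.toFun '' M.Q i := by
    rcases H.tile i hi j.1.1 j.1.2 j.2 with h1 | h1
    · exact h1
    · exact absurd ⟨x, hx.1, rfl⟩ (h1.notMem_of_mem_left hxj)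
  refine hx.2 ?_
  have hopen : IsOpen (Ω ∩ h.toFun ⁻¹' dyo w j.1.1 j.1.2) :=
    h.cont.isOpen_inter_preimage hΩ (KW.isOpen_dyo _ _ _)
  refine mem_interior.2 ⟨_, fun u hu => ?_, hopen, M.sub i hx.1, hxj⟩
  obtain ⟨q, hq, hqu⟩ := hsub (KW.dyo_subset_dyc _ _ _ hu.2)
  have : q = u := h.left_inv.injOn (M.sub i hq) hu.1 hqu
  rw [← this]; exact hq

/-- the constants of `K2AS` -/
noncomputable def DA (p₀ D : ℝ) : ℝ := 112 ^ p₀ * max D 0 + 112 * max D 0 + 1

theorem convex_sqr (a : V) (l : Fin 3) (σ : ℝ) : Convex ℝ (sqr a l σ) := by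
  intro x hx y hy s t hs ht hst
  refine ⟨?_, fun j => ?_⟩
  · simp only [Pi.add_apply, Pi.smul_apply, smul_eq_mul]
    rw [hx.1, hy.1, ← add_mul, hst, one_mul]
  · have h1 := abs_le.1 (hx.2 j)
    have h2 := abs_le.1 (hy.2 j)
    have e : (s • x + t • y) j - a j = s * (x j - a j) + t * (y j - a j) := by
      simp only [Pi.add_apply, Pi.smul_apply, smul_eq_mul]
      have : a j = (s + t) * a j := by rw [hst, one_mul]
      linear_combination -this
    rw [e, abs_le]
    have e1 : σ = s * σ + t * σ := by rw [← add_mul, hst, one_mul]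
    constructor <;> nlinarith [mul_le_mul_of_nonneg_left h1.1 hs, mul_le_mul_of_nonneg_left h1.2 hs,
      mul_le_mul_of_nonneg_left h2.1 ht, mul_le_mul_of_nonneg_left h2.2 ht]

/-- **`K2C` implies `K2AS`** -/
theorem k2as_of_k2c {p₀ : ℝ} (hp₀ : 0 ≤ p₀) (H : K2C p₀) : K2AS p₀ := by
  obtain ⟨D, C, H⟩ := H
  refine ⟨DA p₀ D, fun c => 112 * max (C c) 0, fun μ hμ => ?_⟩
  obtain ⟨D', C', r, hr, H⟩ := H μ hμ
  refine ⟨DA p₀ D', fun c => 112 * max (C' c) 0, r, hr, fun η₀ hη₀ hη₀4 => ?_⟩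
  obtain ⟨η, hη, hηη, δ, hδ, H⟩ := H η₀ hη₀ hη₀4
  have hη4 : η < 1 / 4 := hηη.trans_lt hη₀4
  have h112 : (1:ℝ) ≤ 112 ^ p₀ := Real.one_le_rpow (by norm_num) hp₀
  refine ⟨min (δ / 256) (min (1 / 64) (η₀ / 2)), by positivity, ?_⟩
  intro Ω Λ hΩ hΛ w ρ hρ M h P c hc hmiss hal Y ε hε
  set δ' := min (δ / 256) (min (1 / 64) (η₀ / 2)) with hδ'
  have hδ'0 : 0 < δ' := by positivity
  have hδ'1 : δ' ≤ δ / 256 := min_le_left _ _
  have hδ'2 : δ' ≤ 1 / 64 := (min_le_right _ _).trans (min_le_left _ _)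
  have hδ'3 : δ' ≤ η₀ / 2 := (min_le_right _ _).trans (min_le_right _ _)
  have hΛo : IsOpen Λ := TM.isOpen_Λ hρ
  have hΩo : IsOpen Ω := hΩ.1
  set W := cubes_tiles hρ w with hW
  set ci : TI ρ w → V := fun i => c i.1.1 i.1.2 with hci
  have hc2 : ∀ i, ‖ci i - zt ρ w i‖ ≤ st ρ w i / 2 := fun i => by
    refine (hc i.1.1 i.1.2 i.2).trans (le_of_eq ?_)
    rw [st]; ring
  have htau : ∀ i : TI ρ w, ∃ τ, 0 < τ ∧ ∀ k, ∀ x ∈ M.F k, h.toFun x ∈ dyc w i.1.1 i.1.2 →
      τ ≤ ‖h.toFun x - ci i‖ := fun i =>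
    exists_tau M h (KW.isCompact_dyc _ _ _) (KW.tile_subset hρ i.2) (ci i)
      fun k x hx hxi => (hmiss k x hx _ _ i.2 hxi).1
  choose τ hτ hτm using htau
  obtain ⟨T, hT, hsh⟩ := exists_exp hΛo W hc2 hτ
    (k := fun _ => η) (fun _ => hη) (fun _ => by linarith)
  set h1 : ConHomeo Ω Λ := h.trans T with hh1
  have hval : ∀ x, h1.toFun x = T.toFun (h.toFun x) := fun x => rfl
  have hfix : ∀ y, (∀ j : TI ρ w, y ∉ dyo w j.1.1 j.1.2) → T.toFun y = y := fun y hy =>
    (hT.off y fun j => by rw [B_eq]; exact hy j).1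
  -- tiles
  have htile : ∀ x ∈ Ω, ∀ m z, IsTile ρ w m z →
      (h1.toFun x ∈ dyc w m z ↔ h.toFun x ∈ dyc w m z) := by
    intro x hx m z hz
    exact hT.t_mem_iff W (i := ⟨(m, z), hz⟩) (h.mapsTo hx)
  -- (1) outside of the middle cubes
  have hA : ∀ k, ∀ x ∈ M.F k, ∀ m z, IsTile ρ w m z →
      h1.toFun x ∉ closedBall (H73.ctr w m z) ((1 - η) / 2 / 2 ^ m) := by
    intro k x hx m z hz hcon
    have hxΩ := face_subset M k hx
    set i : TI ρ w := ⟨(m, z), hz⟩ with hi
    have hst : (1 - η) / 2 / 2 ^ m = (1 - η) * st ρ w i := by rw [st]; ring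
    rw [hst] at hcon
    have h2 : h1.toFun x ∈ closedBall (zt ρ w i) (st ρ w i) :=
      closedBall_subset_closedBall (by nlinarith [st_pos i]) hcon
    have h3 : h.toFun x ∈ dyc w m z := by
      rw [← htile x hxΩ m z hz]
      rwa [cB_eq] at h2
    have h4 : h.toFun x ∈ closedBall (zt ρ w i) (st ρ w i) := by rw [cB_eq]; exact h3
    have h5 := hsh i (h.toFun x) h4 (hτm i k x hx h3)
    rw [mem_closedBall, dist_eq_norm] at hcon
    exact absurd hcon (not_le.2 h5)
  -- (2) the images of the faces are small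
  have hB : ∀ k, ∀ x ∈ M.F k, ∀ y ∈ M.F k, ∀ m z, IsTile ρ w m z → h1.toFun x ∈ dyc w m z →
      ‖h1.toFun x - h1.toFun y‖ ≤ δ / 2 ^ m := by
    intro k x hx y hy m z hz hxz
    have hxΩ := face_subset M k hx
    rw [htile x hxΩ m z hz] at hxz
    obtain ⟨hne, hosc⟩ := hmiss k x hx m z hz hxz
    have hosc := hosc y hy
    set i : TI ρ w := ⟨(m, z), hz⟩ with hi
    set p := h.toFun x
    set q := h.toFun y
    have hm : (0:ℝ) < 1 / 2 ^ m := by positivity
    set d := ‖p - c m z‖ with hd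
    have hd0 : 0 < d := by rw [hd, norm_pos_iff, sub_ne_zero]; exact hne
    have hcm : c m z ∈ dyc w m z := by
      rw [dyc_eq_closedBall, mem_closedBall, dist_eq_norm]
      refine (hc m z hz).trans ?_
      have : (1:ℝ) / 4 / 2 ^ m = 1 / 4 * (1 / 2 ^ m) := by ring
      have e2 : (1:ℝ) / 2 / 2 ^ m = 1 / 2 * (1 / 2 ^ m) := by ring
      rw [this, e2]; nlinarith
    have hd1 : d ≤ 1 / 2 ^ m := NC.dist_le hxz hcm
    have hpq : ‖p - q‖ ≤ δ' * (1 / 2 ^ m) := hosc.trans (mul_le_mul_of_nonneg_left hd1 hδ'0.le)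
    have hseg : ∀ u ∈ segment ℝ p q, ‖p - u‖ ≤ ‖p - q‖ := by
      intro u hu
      have := dist_add_dist_of_mem_segment hu
      rw [dist_eq_norm, dist_eq_norm, dist_eq_norm] at this
      linarith [norm_nonneg (u - q)]
    set L := 210 + 30 / (2 ^ m * d) with hL
    have h7 : 0 < 30 / (2 ^ m * d) := by positivity
    have key := hT.seg_lip (y := p) (y' := q) (L := L) ?_ (by linarith) ?_
    · rw [hval, hval]
      refine key.trans ?_
      have e1 : 30 / (2 ^ m * d) * ‖p - q‖ ≤ 30 * δ' * (1 / 2 ^ m) := by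
        rw [div_mul_eq_mul_div, div_le_iff₀ (by positivity)]
        have : 30 * δ' * (1 / 2 ^ m) * (2 ^ m * d) = 30 * (δ' * d) := by field_simp
        rw [this]
        linarith
      have e2 : δ / 2 ^ m = δ * (1 / 2 ^ m) := by ring
      rw [e2, hL, add_mul]
      nlinarith
    · -- the segment is in `Λ`
      intro u hu
      refine mem_of_near hρ (i := i) hxz ((hseg u hu).trans_lt ?_)
      refine hpq.trans_lt ?_
      show δ' * (1 / 2 ^ m) < 1 / 2 ^ m
      nlinarith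
    · intro u hu j huj
      have hup := hseg u hu
      by_cases hji : j = i
      · subst hji
        have h2 : (1 - δ') * d ≤ ‖u - ci i‖ := by
          have h3 : d ≤ ‖p - u‖ + ‖u - c m z‖ :=
            norm_sub_le_norm_sub_add_norm_sub p u (c m z)
          have h4 : ‖u - ci i‖ = ‖u - c m z‖ := rfl
          rw [h4]
          linarith
        have h5 : 56 * st ρ w i = 28 * (1 / 2 ^ m) := by rw [st]; ring
        rw [h5]
        have h6 : 30 / (2 ^ m * d) * ((1 - δ') * d) = 30 * (1 - δ') * (1 / 2 ^ m) := by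
          field_simp
        have h8 : 30 / (2 ^ m * d) * ((1 - δ') * d) ≤ 30 / (2 ^ m * d) * ‖u - ci i‖ :=
          mul_le_mul_of_nonneg_left h2 h7.le
        rw [h6] at h8
        have h9 : 0 ≤ 210 * ‖u - ci i‖ := by positivity
        rw [hL, add_mul]
        nlinarith
      · have h2 : st ρ w j ≤ ‖p - zt ρ w j‖ := by
          have hp : p ∉ ball (zt ρ w j) (st ρ w j) := by
            rw [B_eq]
            intro hcon
            exact (KW.disjoint_dyo_dyc j.2 i.2 fun h => hji (Subtype.ext h)).notMem_of_mem_left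
              hcon hxz
          rw [mem_ball, dist_eq_norm] at hp
          exact not_lt.1 hp
        have h3 : 1 / 2 ^ m ≤ 10 * st ρ w j :=
          size_of_near hρ (i := i) (j := j) hxz (by rw [← cB_eq]; exact huj) hδ'2
            (by
              have : δ' / 2 ^ i.1.1 = δ' * (1 / 2 ^ m) := by ring
              rw [this]; exact hup.trans hpq)
        have h4 : ‖p - u‖ ≤ 10 / 64 * st ρ w j := by
          have := hup.trans hpq
          nlinarith
        have h5 := norm_sub_le_norm_sub_add_norm_sub p u (zt ρ w j)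
        have h6 := norm_sub_le_norm_sub_add_norm_sub u (ci j) (zt ρ w j)
        have h8 := hc2 j
        have h9 : 22 / 64 * st ρ w j ≤ ‖u - ci j‖ := by linarith
        have h10 := st_pos j
        have h11 : 0 ≤ 30 / (2 ^ m * d) * ‖u - ci j‖ := by positivity
        rw [hL, add_mul]
        nlinarith
  -- (3) aligned cells
  have himg : ∀ i ∈ P, h1.toFun '' M.Q i = h.toFun '' M.Q i := by
    intro i hi
    have e : h1.toFun '' M.Q i = T.toFun '' (h.toFun '' M.Q i) := by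
      rw [← image_comp]; rfl
    rw [e]
    refine hT.t_union W ?_ fun j => hal.tile i hi j.1.1 j.1.2 j.2
    rintro _ ⟨x, hx, rfl⟩
    exact h.mapsTo (M.sub i hx)
  have hfr : ∀ i ∈ P, ∀ x ∈ frontier (M.Q i), h1.toFun x = h.toFun x := by
    intro i hi x hx
    rw [hval]
    exact hfix _ fun j => aligned_notMem hΩo hal hi hx j
  have hal1 : Aligned w ρ M h1.toFun P := by
    refine ⟨fun i hi => ?_, fun i hi m z hz => ?_, fun i hi => ?_, fun i hi => ?_,
      fun i hi k hk m z hz => ?_⟩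
    · rw [himg i hi]; exact hal.box i hi
    · rw [himg i hi]; exact hal.tile i hi m z hz
    · rw [himg i hi]; exact hal.gen i hi
    · obtain ⟨A, hA⟩ := hal.aff i hi
      exact ⟨A, fun x hx => by rw [hfr i hi x hx]; exact hA hx⟩
    · have hk1 : ∀ x ∈ M.F k, h1.toFun x = h.toFun x := fun x hx =>
        hfr i hi x (face_frontier M hk hx)
      have e1 : h1.toFun '' M.F k = h.toFun '' M.F k := image_congr hk1
      have e2 : h1.toFun '' intrinsicInterior ℝ (M.F k) =
          h.toFun '' intrinsicInterior ℝ (M.F k) :=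
        image_congr fun x hx => hk1 x (intrinsicInterior_subset hx)
      rw [e1, e2]
      exact hal.one i hi k hk m z hz
  obtain ⟨g, hg⟩ := H Ω Λ hΩ hΛ w ρ hρ M h1 P hA hB hal1 Y ε hε
  -- lengths
  have hlen : ∀ k, ∀ e : V × V, segment ℝ e.1 e.2 ⊆ M.F k → ∀ ℓ : ℝ≥0∞,
      (∃ W, WLe w ρ c h.toFun e W ∧ ENNReal.ofReal W * len (onSeg h.toFun e) (Icc 0 1) ≤ ℓ) →
      len (onSeg h1.toFun e) (Icc 0 1) ≤ 112 * ℓ := by
    rintro k e hek ℓ ⟨Wt, ⟨hW1, hW2⟩, hWℓ⟩
    have hseg : ∀ t ∈ Icc (0:ℝ) 1, e.1 + t • (e.2 - e.1) ∈ segment ℝ e.1 e.2 := by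
      intro t ht
      rw [segment_eq_image']
      exact ⟨t, ht, rfl⟩
    have hΩseg : ∀ t ∈ Icc (0:ℝ) 1, e.1 + t • (e.2 - e.1) ∈ Ω := fun t ht =>
      face_subset M k (hek (hseg t ht))
    have hγ : ContinuousOn (onSeg h.toFun e) (Icc 0 1) :=
      h.cont.comp (by fun_prop) hΩseg
    have key := hT.len_le (γ := onSeg h.toFun e) zero_le_one hγ
      (fun t ht => h.mapsTo (hΩseg t ht)) (L := 56 * Wt) (by linarith) ?_
    · have e1 : onSeg h1.toFun e = fun t => T.toFun (onSeg h.toFun e t) := rfl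
      rw [e1]
      refine key.trans ?_
      have : 2 * (56 * Wt) = 112 * Wt := by ring
      rw [this, ENNReal.ofReal_mul (by norm_num), ENNReal.ofReal_ofNat, mul_assoc]
      gcongr
    · intro t ht i hti
      rw [cB_eq] at hti
      have h2 := hW2 _ (hseg t ht) i.1.1 i.1.2 i.2 hti
      have h3 : (0:ℝ) < 1 / 2 ^ i.1.1 := by positivity
      have h4 : 56 * st ρ w i = 28 * (1 / 2 ^ i.1.1) := by rw [st]; ring
      have h5 : onSeg h.toFun e t = h.toFun (e.1 + t • (e.2 - e.1)) := rfl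
      rw [h4, h5]
      have h6 : ci i = c i.1.1 i.1.2 := rfl
      rw [h6]
      nlinarith
  -- transfer of the output
  have hout : ∀ (D : ℝ) (C : ℝ → ℝ) (S : Set M.κ),
      Out p₀ D C w ρ M h1.toFun P S ε g (fun e ℓ => len (onSeg h1.toFun e) (Icc 0 1) ≤ ℓ) →
      Out p₀ (DA p₀ D) (fun c => 112 * max (C c) 0) w ρ M h.toFun P S ε g
        (fun e ℓ => ∃ W, WLe w ρ c h.toFun e W ∧
          ENNReal.ofReal W * len (onSeg h.toFun e) (Icc 0 1) ≤ ℓ) := by
    intro D C S hg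
    have hD0 : 0 ≤ max D 0 := le_max_right _ _
    have hDD : D ≤ max D 0 := le_max_left _ _
    have hD1 : D + 1 ≤ DA p₀ D := by unfold DA; nlinarith
    have hD2 : 112 ^ p₀ * max D 0 ≤ DA p₀ D := by unfold DA; nlinarith
    refine ⟨?_, ?_, ?_, ?_, ?_⟩
    · -- close
      intro k x hx m z hz hxz
      have hxΩ := face_subset M k hx
      have h2 := hg.close k x hx m z hz ((htile x hxΩ m z hz).2 hxz)
      have h3 : ‖h1.toFun x - h.toFun x‖ ≤ 1 / 2 ^ m :=
        NC.dist_le ((htile x hxΩ m z hz).2 hxz) hxz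
      have h4 := norm_sub_le_norm_sub_add_norm_sub (g.toFun x) (h1.toFun x) (h.toFun x)
      have hm : (0:ℝ) < 2 ^ m := by positivity
      have h5 : (D + 1) / 2 ^ m ≤ DA p₀ D / 2 ^ m := by gcongr
      rw [add_div] at h5
      linarith
    · -- the Lipschitz constants
      intro k hkS E ℓ K hE hEℓ x hx y hy
      by_cases hK : 0 ≤ K
      · have h2 := hg.lip k hkS E (fun e => 112 * ℓ e) (112 * K) hE (fun e he => ?_) x hx y hy
        · refine h2.trans ?_
          have h4 : C (M.c k) * (112 * K) ≤ 112 * max (C (M.c k)) 0 * K := by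
            calc C (M.c k) * (112 * K) ≤ max (C (M.c k)) 0 * (112 * K) := by
                  gcongr
                  exact le_max_left _ _
              _ = 112 * max (C (M.c k)) 0 * K := by ring
          gcongr
        · obtain ⟨h3, h4⟩ := hEℓ e he
          refine ⟨hlen k e (hE.sub e he) _ h3, ?_⟩
          calc 112 * ℓ e + ENNReal.ofReal (ε k) ≤ 112 * ℓ e + 112 * ENNReal.ofReal (ε k) := by
                gcongr
                exact le_mul_of_one_le_left (zero_le) (by norm_num)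
            _ = 112 * (ℓ e + ENNReal.ofReal (ε k)) := by rw [mul_add]
            _ ≤ 112 * ENNReal.ofReal (K * ‖e.2 - e.1‖) := by gcongr
            _ = ENNReal.ofReal (112 * K * ‖e.2 - e.1‖) := by
                rw [mul_assoc, ENNReal.ofReal_mul (by norm_num : (0:ℝ) ≤ 112),
                  ENNReal.ofReal_ofNat]
      · -- no edges: the face is a point
        push Not at hK
        have hempty : E = ∅ := by
          rw [Finset.eq_empty_iff_forall_notMem]
          intro e he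
          have h3 := (hEℓ e he).2
          have h4 : ENNReal.ofReal (K * ‖e.2 - e.1‖) = 0 :=
            ENNReal.ofReal_of_nonpos (mul_nonpos_of_nonpos_of_nonneg hK.le (norm_nonneg _))
          rw [h4] at h3
          have h5 : ENNReal.ofReal (ε k) ≤ 0 := le_trans le_add_self h3
          exact absurd (ENNReal.ofReal_eq_zero.1 (le_antisymm h5 zero_le)) (not_le.2 (hε k))
        have h2 := hg.lip k hkS E ℓ 0 hE (fun e he => by rw [hempty] at he; simp at he) x hx y hy
        rw [mul_zero, zero_mul] at h2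
        have h3 : g.toFun x = g.toFun y := sub_eq_zero.1 (norm_le_zero_iff.1 h2)
        have h4 : x = y := g.left_inv.injOn (face_subset M k hx) (face_subset M k hy) h3
        rw [h4]
        simp
    · -- energies
      intro k hkS E ℓ a l σ hσ hF hE hEℓ
      have h2 := hg.energy k hkS E (fun e => 112 * ℓ e) a l σ hσ hF hE
        (fun e he => hlen k e (hE.sub e he) _ (hEℓ e he))
      refine h2.trans ?_
      have h3 : ∀ e ∈ E, ENNReal.ofReal (‖e.2 - e.1‖ ^ (1 - p₀)) *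
          (112 * ℓ e + ENNReal.ofReal (ε k * ‖e.2 - e.1‖ / σ)) ^ p₀ ≤
          112 ^ p₀ * (ENNReal.ofReal (‖e.2 - e.1‖ ^ (1 - p₀)) *
            (ℓ e + ENNReal.ofReal (ε k * ‖e.2 - e.1‖ / σ)) ^ p₀) := by
        intro e _
        have h4 : 112 * ℓ e + ENNReal.ofReal (ε k * ‖e.2 - e.1‖ / σ) ≤
            112 * (ℓ e + ENNReal.ofReal (ε k * ‖e.2 - e.1‖ / σ)) := by
          rw [mul_add]
          gcongr
          exact le_mul_of_one_le_left (zero_le) (by norm_num)
        calc ENNReal.ofReal (‖e.2 - e.1‖ ^ (1 - p₀)) *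
            (112 * ℓ e + ENNReal.ofReal (ε k * ‖e.2 - e.1‖ / σ)) ^ p₀
            ≤ ENNReal.ofReal (‖e.2 - e.1‖ ^ (1 - p₀)) *
            (112 * (ℓ e + ENNReal.ofReal (ε k * ‖e.2 - e.1‖ / σ))) ^ p₀ := by gcongr
          _ = _ := by
            rw [ENNReal.mul_rpow_of_nonneg _ _ hp₀, ← mul_assoc, ← mul_assoc,
              mul_comm (ENNReal.ofReal _) ((112:ℝ≥0∞) ^ p₀)]
      calc ENNReal.ofReal (D * σ ^ 2) * ∑ e ∈ E, ENNReal.ofReal (‖e.2 - e.1‖ ^ (1 - p₀)) *
            (112 * ℓ e + ENNReal.ofReal (ε k * ‖e.2 - e.1‖ / σ)) ^ p₀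
          ≤ ENNReal.ofReal (max D 0 * σ ^ 2) * ∑ e ∈ E, 112 ^ p₀ *
            (ENNReal.ofReal (‖e.2 - e.1‖ ^ (1 - p₀)) *
            (ℓ e + ENNReal.ofReal (ε k * ‖e.2 - e.1‖ / σ)) ^ p₀) := by
            refine mul_le_mul' (ENNReal.ofReal_le_ofReal ?_) (Finset.sum_le_sum h3)
            exact mul_le_mul_of_nonneg_right hDD (sq_nonneg σ)
        _ = ENNReal.ofReal (112 ^ p₀ * (max D 0 * σ ^ 2)) *
            ∑ e ∈ E, (ENNReal.ofReal (‖e.2 - e.1‖ ^ (1 - p₀)) *
            (ℓ e + ENNReal.ofReal (ε k * ‖e.2 - e.1‖ / σ)) ^ p₀) := by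
            rw [← Finset.mul_sum, ENNReal.ofReal_mul (by positivity : (0:ℝ) ≤ 112 ^ p₀),
              ← ENNReal.ofReal_rpow_of_pos (by norm_num : (0:ℝ) < 112), ENNReal.ofReal_ofNat,
              ← mul_assoc, mul_comm (ENNReal.ofReal (max D 0 * σ ^ 2))]
        _ ≤ _ := by
            refine mul_le_mul' (ENNReal.ofReal_le_ofReal ?_) le_rfl
            rw [← mul_assoc]
            exact mul_le_mul_of_nonneg_right hD2 (sq_nonneg σ)
    · intro i hi
      rw [hg.image i hi, himg i hi]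
    · intro i hi x hx m z hz hxz
      refine hg.tile i hi x hx m z hz ?_
      rw [hfr i hi x hx]; exact hxz
  -- speed on the edges
  have hell : ∀ (D : ℝ) (S : Set M.κ),
      ELip D M S ε g (fun e ℓ => len (onSeg h1.toFun e) (Icc 0 1) ≤ ℓ) →
      ELip (DA p₀ D) M S ε g (fun e ℓ => ∃ W, WLe w ρ c h.toFun e W ∧
        ENNReal.ofReal W * len (onSeg h.toFun e) (Icc 0 1) ≤ ℓ) := by
    intro D S hg k hkS e he hek ℓ hℓ hLen x hx y hy
    have hD0 : 0 ≤ max D 0 := le_max_right _ _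
    have hDD : D ≤ max D 0 := le_max_left _ _
    have hD3 : 112 * max D 0 ≤ DA p₀ D := by unfold DA; nlinarith
    have h2 := hlen k e hek _ hLen
    rw [← ENNReal.ofReal_ofNat, ← ENNReal.ofReal_mul (by norm_num)] at h2
    refine (hg k hkS e he hek (112 * ℓ) (by positivity) h2 x hx y hy).trans ?_
    have he0 : 0 < ‖e.2 - e.1‖ := norm_pos_iff.2 (sub_ne_zero.2 (Ne.symm he.ne))
    have hεk := hε k
    have h3 : 0 ≤ (ℓ + ε k) / ‖e.2 - e.1‖ := by positivity
    have h4 : (112 * ℓ + ε k) / ‖e.2 - e.1‖ ≤ 112 * ((ℓ + ε k) / ‖e.2 - e.1‖) := by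
      rw [← mul_div_assoc]
      gcongr
      linarith
    have h5 : 0 ≤ (112 * ℓ + ε k) / ‖e.2 - e.1‖ := by positivity
    refine mul_le_mul_of_nonneg_right ?_ (norm_nonneg _)
    calc D * ((112 * ℓ + ε k) / ‖e.2 - e.1‖) ≤ max D 0 * ((112 * ℓ + ε k) / ‖e.2 - e.1‖) := by
          gcongr
      _ ≤ max D 0 * (112 * ((ℓ + ε k) / ‖e.2 - e.1‖)) := by gcongr
      _ = 112 * max D 0 * ((ℓ + ε k) / ‖e.2 - e.1‖) := by ring
      _ ≤ _ := by gcongr
  -- deep sets
  have hdeep : ∀ {A : Finset (Fin 3)} {m : ℕ} {z : Fin 3 → ℤ} {B : Set V}, A ≠ Finset.univ →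
      H239.Deep η₀ δ' w ρ univ A m z (h.toFun '' B) →
      H239.Deep η₀ δ w ρ univ A m z (h1.toFun '' B) := by
    intro A m z B hA hD
    have e1 : h1.toFun '' B = T.toFun '' (h.toFun '' B) := by
      rw [← image_comp]; rfl
    rw [e1]
    exact hT.deep_image W hA hδ'0.le (by linarith) (by linarith) hD (by linarith)
  refine ⟨g, hout D C _ hg.out, hout D' C' _ hg.out', hell D _ hg.elip, hell D' _ hg.elip',
    ⟨fun k e he hek A hA hA' m z hD => ?_, fun k hk a l σ hσ hF m z hD hs => ?_⟩⟩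
  · have h2 := hg.sharp.tv k e he hek A hA hA' m z (hdeep hA' hD)
    have h3 : H239.tv h1.toFun e A = H239.tv h.toFun e A :=
      hT.tv_eq W hA' hδ'0.le (by linarith) (by linarith) hD
    rwa [h3] at h2
  · have hl : Finset.univ.erase l ≠ Finset.univ := fun hc =>
      Finset.notMem_erase l _ (hc ▸ Finset.mem_univ l)
    refine hg.sharp.face k hk a l σ hσ hF m z (hdeep hl hD) fun i hi x hx hx' hxa => ?_
    obtain ⟨s1, s2, s3, s4⟩ := hs i hi x hx hx' hxa
    refine ⟨s1, s2, s3, ?_⟩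
    -- the side is a part of the face
    have hsub : segment ℝ x (x + (2 * σ) • ev i) ⊆ M.F k := by
      rw [hF]
      exact (convex_sqr a l σ).segment_subset hx hx'
    have hDs : H239.Deep η₀ δ' w ρ univ (Finset.univ.erase l) m z
        (h.toFun '' segment ℝ (x, x + (2 * σ) • ev i).1 (x, x + (2 * σ) • ev i).2) :=
      ⟨hD.tile, hD.act, fun y hy => hD.near y (image_mono hsub hy),
        fun y hy => hD.mid y (image_mono hsub hy)⟩
    have h3 : H239.tv h1.toFun (x, x + (2 * σ) • ev i) (Finset.univ.erase l) =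
        H239.tv h.toFun (x, x + (2 * σ) • ev i) (Finset.univ.erase l) :=
      hT.tv_eq W hl hδ'0.le (by linarith) (by linarith) hDs
    rw [h3]
    exact s4

/-- **`K2C` implies `K2A`** -/
theorem k2a_of_k2c {p₀ : ℝ} (hp₀ : 0 ≤ p₀) (H : K2C p₀) : K2A p₀ :=
  k2a_of_k2as (k2as_of_k2c hp₀ H)

end Vale.Agent.P073.H471
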