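import Vale.Agent.P073.H471.Avg

/-!
# P073, block FF: many good centres

The centres with twice the average weighted energy fill half of the cube; a countable set of them
meets the complement of every closed set of small volume.
-/

open Set Metric MeasureTheory Filter Topology
open scoped ENNReal

namespace Vale.Agent.P073.H471

/-- the centres which are not good have at most half of the volume -/
theorem bad_centers_le {p s : ℝ} {X : Type*} [MeasurableSpace X] (ν : Measure X)
    [SFinite ν] {f : X → Fin 3 → ℝ} (hf : AEMeasurable f ν) (a : Fin 3 → ℝ) (hs : 0 < s) :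
    volume {c ∈ closedBall a (s / 2) | 2 * (Cw p * ν (f ⁻¹' closedBall a s)) <
      ∫⁻ x in f ⁻¹' closedBall a s, wt p s (f x - c) ∂ν} ≤ volume (closedBall a (s / 2)) / 2 := by
  classical
  set B := closedBall a s with hB
  set A := closedBall a (s / 2) with hA
  set g := hf.mk f with hg
  have hgm : Measurable g := hf.measurable_mk
  have hfg : f =ᵐ[ν] g := hf.ae_eq_mk
  have hBm : MeasurableSet B := isClosed_closedBall.measurableSet
  have hAm : MeasurableSet A := isClosed_closedBall.measurableSet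
  have hpre : f ⁻¹' B =ᵐ[ν] g ⁻¹' B := by
    filter_upwards [hfg] with x hx
    show (f x ∈ B) = (g x ∈ B)
    rw [hx]
  have hset : ν (f ⁻¹' B) = ν (g ⁻¹' B) := measure_congr hpre
  have hint : ∀ c, ∫⁻ x in f ⁻¹' B, wt p s (f x - c) ∂ν = ∫⁻ x in g ⁻¹' B, wt p s (g x - c) ∂ν := by
    intro c
    rw [Measure.restrict_congr_set hpre]
    refine lintegral_congr_ae (ae_restrict_of_ae ?_)
    filter_upwards [hfg] with x hx
    rw [hx]
  simp only [hint, hset]
  have hjoint : Measurable (fun q : (Fin 3 → ℝ) × X => wt p s (g q.2 - q.1)) :=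
    (measurable_wt p s).comp ((hgm.comp measurable_snd).sub measurable_fst)
  have hm : Measurable (fun c => ∫⁻ x in g ⁻¹' B, wt p s (g x - c) ∂ν) :=
    hjoint.lintegral_prod_right'
  have hsw : ∫⁻ c in A, ∫⁻ x in g ⁻¹' B, wt p s (g x - c) ∂ν ≤
      Cw p * ν (g ⁻¹' B) * volume A := by
    calc ∫⁻ c in A, ∫⁻ x in g ⁻¹' B, wt p s (g x - c) ∂ν
        = ∫⁻ x in g ⁻¹' B, (∫⁻ c in A, wt p s (g x - c)) ∂ν :=
          lintegral_lintegral_swap hjoint.aemeasurable
      _ ≤ ∫⁻ x in g ⁻¹' B, Cw p * volume A ∂ν := by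
          refine setLIntegral_mono' (hgm hBm) fun x hx => ?_
          exact lintegral_wt_le hs hx
      _ = Cw p * ν (g ⁻¹' B) * volume A := by
          rw [setLIntegral_const]; ring
  have hvt : volume A ≠ ∞ := measure_closedBall_lt_top.ne
  set t := Cw p * ν (g ⁻¹' B) with ht
  set J : (Fin 3 → ℝ) → ℝ≥0∞ := fun c => ∫⁻ x in g ⁻¹' B, wt p s (g x - c) ∂ν with hJ
  rcases eq_or_ne t 0 with h0 | h0
  · have h1 : ∫⁻ c in A, J c = 0 := by
      refine le_antisymm (hsw.trans ?_) bot_le
      rw [h0, zero_mul]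
    rw [lintegral_eq_zero_iff hm] at h1
    have h2 : volume {c | c ∈ A ∧ 0 < J c} = 0 := by
      have h3 : (volume.restrict A) {c | ¬ J c = 0} = 0 := h1
      rw [Measure.restrict_apply (by
        exact (hm (measurableSet_singleton 0)).compl)] at h3
      refine measure_mono_null ?_ h3
      rintro c ⟨hc1, hc2⟩
      exact ⟨hc2.ne', hc1⟩
    refine le_trans (measure_mono ?_) (h2.le.trans bot_le)
    rintro c ⟨hc1, hc2⟩
    exact ⟨hc1, bot_le.trans_lt hc2⟩
  rcases eq_or_ne t ∞ with h1 | h1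
  · have h2 : {c | c ∈ A ∧ 2 * t < J c} = ∅ := by
      rw [eq_empty_iff_forall_notMem]
      rintro c ⟨-, hc⟩
      rw [h1, ENNReal.mul_top (by simp)] at hc
      exact not_top_lt hc
    rw [h2, measure_empty]
    exact bot_le
  · have h2 := mul_meas_ge_le_lintegral₀ (μ := volume.restrict A) hm.aemeasurable (2 * t)
    have h3 : volume {c | c ∈ A ∧ 2 * t < J c} ≤ (volume.restrict A) {c | 2 * t ≤ J c} := by
      rw [Measure.restrict_apply (measurableSet_le measurable_const hm)]
      exact measure_mono fun c hc => ⟨hc.2.le, hc.1⟩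
    rw [ENNReal.le_div_iff_mul_le (Or.inl (by simp)) (Or.inl (by simp))]
    have h4 : t * (volume {c | c ∈ A ∧ 2 * t < J c} * 2) ≤ t * volume A := by
      calc t * (volume {c | c ∈ A ∧ 2 * t < J c} * 2)
          = 2 * t * volume {c | c ∈ A ∧ 2 * t < J c} := by ring
        _ ≤ 2 * t * (volume.restrict A) {c | 2 * t ≤ J c} := by gcongr
        _ ≤ _ := h2.trans hsw
    exact (ENNReal.mul_le_mul_iff_right h0 h1).1 h4

/-- **FF2, strong form**: a countable set of good centres which meets the complement of every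
closed set of small volume. -/
theorem exists_dense_centers {p s : ℝ} {X : Type*} [MeasurableSpace X] (ν : Measure X)
    [SFinite ν] {f : X → Fin 3 → ℝ} (hf : AEMeasurable f ν) (a : Fin 3 → ℝ)
    (hs : 0 < s) {N : Set (Fin 3 → ℝ)} (hN : volume N = 0) :
    ∃ D : Set (Fin 3 → ℝ), D.Countable ∧ D ⊆ closedBall a (s / 2) ∧ (∀ c ∈ D, c ∉ N) ∧
      (∀ c ∈ D, ∫⁻ x in f ⁻¹' closedBall a s, wt p s (f x - c) ∂ν ≤
        2 * (Cw p * ν (f ⁻¹' closedBall a s))) ∧
      ∀ K : Set (Fin 3 → ℝ), IsClosed K →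
        volume (K ∩ closedBall a (s / 2)) < volume (closedBall a (s / 2)) / 2 → ∃ c ∈ D, c ∉ K := by
  set G : Set (Fin 3 → ℝ) := {c | c ∈ closedBall a (s / 2) ∧ c ∉ N ∧
    ∫⁻ x in f ⁻¹' closedBall a s, wt p s (f x - c) ∂ν ≤
      2 * (Cw p * ν (f ⁻¹' closedBall a s))} with hG
  obtain ⟨D, hDG, hDc, hGD⟩ :=
    (TopologicalSpace.IsSeparable.of_separableSpace G).exists_countable_dense_subset
  refine ⟨D, hDc, fun c hc => (hDG hc).1, fun c hc => (hDG hc).2.1, fun c hc => (hDG hc).2.2,
    fun K hK hKv => ?_⟩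
  obtain ⟨c₀, hc₀, hc₀K⟩ : ∃ c ∈ G, c ∉ K := by
    by_contra hn
    push Not at hn
    have h1 : closedBall a (s / 2) ⊆ {c ∈ closedBall a (s / 2) |
        2 * (Cw p * ν (f ⁻¹' closedBall a s)) <
        ∫⁻ x in f ⁻¹' closedBall a s, wt p s (f x - c) ∂ν} ∪ N ∪ (K ∩ closedBall a (s / 2)) := by
      intro c hc
      by_cases hcN : c ∈ N
      · exact Or.inl (Or.inr hcN)
      by_cases hI : ∫⁻ x in f ⁻¹' closedBall a s, wt p s (f x - c) ∂ν ≤
          2 * (Cw p * ν (f ⁻¹' closedBall a s))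
      · exact Or.inr ⟨hn c ⟨hc, hcN, hI⟩, hc⟩
      · exact Or.inl (Or.inl ⟨hc, not_le.1 hI⟩)
    have h2 := (measure_mono (μ := volume) h1).trans ((measure_union_le _ _).trans
      (add_le_add_left (measure_union_le _ _) _))
    rw [hN, add_zero] at h2
    have hvt : volume (closedBall a (s / 2)) ≠ ∞ := measure_closedBall_lt_top.ne
    have h3 : volume (closedBall a (s / 2)) < volume (closedBall a (s / 2)) / 2 +
        volume (closedBall a (s / 2)) / 2 := by
      refine h2.trans_lt (ENNReal.add_lt_add_of_le_of_lt ?_ (bad_centers_le ν hf a hs) hKv)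
      exact ne_top_of_le_ne_top (ENNReal.div_lt_top hvt (by simp)).ne (bad_centers_le ν hf a hs)
    rw [ENNReal.add_halves] at h3
    exact lt_irrefl _ h3
  obtain ⟨c, hcK, hcD⟩ := mem_closure_iff.1 (hGD hc₀) _ hK.isOpen_compl hc₀K
  exact ⟨c, hcD, hcK⟩

end Vale.Agent.P073.H471
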