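import Vale.Agent.P073.H471.FF

/-!
# P073, block FF: the radial expansion of a cube from an arbitrary centre

`ffc z σ c κ m`: the cone move of the cube `closedBall z σ` taking `c` to `z`, followed by the
iterated doubling map of the cube.
-/

open Set Metric Topology Filter

namespace Vale.Agent.P073.H471

open _root_.P073 _root_.P073.Net
open Vale.Agent.P073.St (V)

variable {κ : ℝ} {m : ℕ} {y z : V}

/-- lower bound for the norm, off the last cube -/
theorem le_norm_fk (hκ : 0 ≤ κ) (hκ1 : κ < 1 / 2) (h : (1 / 2) ^ m ≤ ‖y‖) :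
    (1 - κ) ^ m ≤ ‖fk κ m y‖ := by
  rcases le_total 1 ‖y‖ with h1 | h1
  · rw [fk_of_ge h1]
    exact (pow_le_one₀ (by linarith) (by linarith)).trans h1
  induction m generalizing y with
  | zero => simpa using h
  | succ m ih =>
    rcases le_total ‖y‖ (1 / 2) with h2 | h2
    · rw [fk_succ_of_le hκ hκ1 h2, norm_smul, Real.norm_of_nonneg (by linarith), pow_succ,
        mul_comm]
      rw [pow_succ] at h
      have := ih (y := (2:ℝ) • y) (by rw [norm_two_smul]; linarith)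
        (by rw [norm_two_smul]; linarith)
      exact mul_le_mul_of_nonneg_left this (by linarith)
    · rw [fk_succ_of_ge h2, norm_tt hκ1, lam_mid h2 h1]
      have h3 : (1 - κ) ^ m ≤ 1 := pow_le_one₀ (by linarith) (by linarith)
      rw [pow_succ]
      nlinarith

/-- strict form -/
theorem lt_norm_fk (hκ : 0 < κ) (hκ1 : κ < 1 / 2) (h : (1 / 2) ^ m < ‖y‖) :
    (1 - κ) ^ m < ‖fk κ m y‖ := by
  rcases lt_or_ge 1 ‖y‖ with h1 | h1
  · rw [fk_of_ge h1.le]
    exact (pow_le_one₀ (by linarith) (by linarith)).trans_lt h1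
  induction m generalizing y with
  | zero => simpa using h
  | succ m ih =>
    rcases le_or_gt ‖y‖ (1 / 2) with h2 | h2
    · rw [fk_succ_of_le hκ.le hκ1 h2, norm_smul, Real.norm_of_nonneg (by linarith), pow_succ,
        mul_comm]
      rw [pow_succ] at h
      have := ih (y := (2:ℝ) • y) (by rw [norm_two_smul]; linarith)
        (by rw [norm_two_smul]; linarith)
      exact mul_lt_mul_of_pos_left this (by linarith)
    · rw [fk_succ_of_ge h2.le, norm_tt hκ1, lam_mid h2.le h1]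
      have h3 : (1 - κ) ^ m ≤ 1 := pow_le_one₀ (by linarith) (by linarith)
      rw [pow_succ]
      nlinarith

/-- the norm of the image of a point of the last cube -/
theorem norm_fk_small (hκ : 0 ≤ κ) (hκ1 : κ < 1 / 2) (h : ‖y‖ ≤ (1 / 2) ^ m) :
    ‖fk κ m y‖ ≤ (1 - κ) ^ m := by
  have h0 : 0 ≤ 2 * (1 - κ) := by linarith
  rw [fk_small hκ hκ1 h, norm_smul, Real.norm_of_nonneg (by positivity)]
  calc (2 * (1 - κ)) ^ m * ‖y‖ ≤ (2 * (1 - κ)) ^ m * (1 / 2) ^ m := by gcongr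
    _ = (1 - κ) ^ m := by
      rw [← mul_pow]
      congr 1
      ring

theorem norm_fk_le_iff (hκ : 0 < κ) (hκ1 : κ < 1 / 2) :
    ‖fk κ m y‖ ≤ (1 - κ) ^ m ↔ ‖y‖ ≤ (1 / 2) ^ m := by
  constructor
  · intro h
    by_contra hc
    push Not at hc
    exact absurd (lt_norm_fk hκ hκ1 hc) (not_lt.2 h)
  · exact norm_fk_small hκ.le hκ1

/-! ### The cone move of a cube -/

section depth

variable {E : Type*} [NormedAddCommGroup E] [NormedSpace ℝ E] {J : Type*} [Fintype J] [Nonempty J]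

/-- the depth is Lipschitz -/
theorem abs_depth_sub_le {A : J → E →L[ℝ] ℝ} {c : J → ℝ} {K : ℝ} (hK : ∀ j x, |A j x| ≤ K * ‖x‖)
    (x y : E) : |depth A c x - depth A c y| ≤ K * ‖x - y‖ := by
  have key : ∀ x y : E, Finset.univ.inf' Finset.univ_nonempty (fun j => A j x + c j) ≤
      Finset.univ.inf' Finset.univ_nonempty (fun j => A j y + c j) + K * ‖x - y‖ := by
    intro x y
    obtain ⟨j, -, hj⟩ := Finset.exists_mem_eq_inf' (s := (Finset.univ : Finset J))
      Finset.univ_nonempty (fun j => A j y + c j)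
    rw [hj]
    refine (Finset.inf'_le _ (Finset.mem_univ j)).trans ?_
    have h1 := hK j (x - y)
    rw [map_sub] at h1
    have h2 := le_abs_self (A j x - A j y)
    linarith
  unfold depth
  have h1 := key x y
  have h2 := key y x
  rw [norm_sub_rev] at h2
  refine (abs_max_sub_max_le_max _ _ _ _).trans ?_
  rw [sub_self, abs_zero]
  refine max_le ?_ (abs_le.2 ⟨by linarith, by linarith⟩)
  exact (abs_nonneg _).trans (abs_le.2 (⟨by linarith, by linarith⟩ :
    _ ≤ (Finset.univ.inf' Finset.univ_nonempty (fun j => A j x + c j)) -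
      (Finset.univ.inf' Finset.univ_nonempty (fun j => A j y + c j)) ∧ _))

end depth

/-- the lower corner -/
def lo (z : V) (σ : ℝ) : V := fun k => z k - σ
/-- the upper corner -/
def hi (z : V) (σ : ℝ) : V := fun k => z k + σ

theorem inBox_of {z c : V} {σ : ℝ} (h : ‖c - z‖ < σ) : InBox (lo z σ) (hi z σ) c := by
  intro k
  have h1 := norm_le_pi_norm (c - z) k
  rw [Pi.sub_apply, Real.norm_eq_abs] at h1
  have h2 := abs_lt.1 (h1.trans_lt h)
  exact ⟨by simp only [lo]; linarith, by simp only [hi]; linarith⟩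

theorem inBox_self {z : V} {σ : ℝ} (h : 0 < σ) : InBox (lo z σ) (hi z σ) z :=
  inBox_of (by simpa using h)

/-- the cone move of the cube `closedBall z σ` taking `c` to `z` -/
noncomputable def cmv (z : V) (σ : ℝ) (c : V) (hσ : 0 < σ) (hc : ‖c - z‖ < σ) :
    ConHomeo (univ : Set V) (univ : Set V) :=
  coneMove (lo z σ) (hi z σ) c z (inBox_of hc) (inBox_self hσ)

/-- the depth in the cube -/
noncomputable def dp (z : V) (σ : ℝ) (c : V) (y : V) : ℝ :=
  depth (boxA (lo z σ) (hi z σ) c) (boxc (lo z σ) (hi z σ) c) y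

variable {σ : ℝ} {c : V}

theorem cmv_apply {hσ : 0 < σ} {hc : ‖c - z‖ < σ} (y : V) :
    (cmv z σ c hσ hc).toFun y = y + dp z σ c y • (z - c) := rfl

theorem dp_nonneg (y : V) : 0 ≤ dp z σ c y := depth_nonneg _ _ _

theorem cmv_of_ge {hσ : 0 < σ} {hc : ‖c - z‖ < σ} (h : σ ≤ ‖y - z‖) :
    (cmv z σ c hσ hc).toFun y = y := by
  apply coneMove_eq_self
  by_contra hn
  push Not at hn
  have : ‖y - z‖ < σ := by
    rw [pi_norm_lt_iff hσ]
    intro k
    have := hn k
    simp only [lo, hi] at this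
    rw [Pi.sub_apply, Real.norm_eq_abs, abs_lt]
    exact ⟨by linarith, by linarith⟩
  linarith

theorem boxA_bound {hc : ‖c - z‖ < σ} (j : Fin 3 × Bool) (x : V) :
    |boxA (lo z σ) (hi z σ) c j x| ≤ (σ - ‖c - z‖)⁻¹ * ‖x‖ := by
  obtain ⟨k, s⟩ := j
  have h1 := norm_le_pi_norm (c - z) k
  rw [Pi.sub_apply, Real.norm_eq_abs] at h1
  have h2 := abs_le.1 h1
  have h3 := norm_le_pi_norm x k
  rw [Real.norm_eq_abs] at h3
  have h4 : 0 < σ - ‖c - z‖ := by linarith
  cases s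
  · simp only [boxA, Bool.false_eq_true, if_false, smul_apply, ContinuousLinearMap.proj_apply,
      smul_eq_mul, lo]
    rw [abs_mul, abs_of_nonneg (inv_nonneg.2 (by linarith))]
    exact mul_le_mul (inv_anti₀ h4 (by linarith)) h3 (abs_nonneg _) (inv_nonneg.2 h4.le)
  · simp only [boxA, if_true, smul_apply, ContinuousLinearMap.proj_apply, smul_eq_mul, hi]
    rw [abs_mul, abs_neg, abs_of_nonneg (inv_nonneg.2 (by linarith))]
    exact mul_le_mul (inv_anti₀ h4 (by linarith)) h3 (abs_nonneg _) (inv_nonneg.2 h4.le)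

theorem abs_dp_sub_le (hσ : 0 < σ) (hc : ‖c - z‖ ≤ σ / 2) (x y : V) :
    |dp z σ c x - dp z σ c y| ≤ 2 / σ * ‖x - y‖ := by
  refine abs_depth_sub_le (fun j x => (boxA_bound (hc := by linarith) j x).trans ?_) x y
  gcongr
  rw [inv_eq_one_div, div_le_div_iff₀ (by linarith) hσ]
  linarith

/-- the cone move is `2`-Lipschitz -/
theorem cmv_lip {hσ : 0 < σ} {hc : ‖c - z‖ < σ} (h2 : ‖c - z‖ ≤ σ / 2) (x y : V) :
    ‖(cmv z σ c hσ hc).toFun x - (cmv z σ c hσ hc).toFun y‖ ≤ 2 * ‖x - y‖ := by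
  rw [cmv_apply, cmv_apply]
  have e : x + dp z σ c x • (z - c) - (y + dp z σ c y • (z - c)) =
      (x - y) + (dp z σ c x - dp z σ c y) • (z - c) := by module
  rw [e]
  refine (norm_add_le _ _).trans ?_
  rw [norm_smul, Real.norm_eq_abs, norm_sub_rev z c]
  have := abs_dp_sub_le hσ h2 x y
  calc ‖x - y‖ + |dp z σ c x - dp z σ c y| * ‖c - z‖
      ≤ ‖x - y‖ + 2 / σ * ‖x - y‖ * (σ / 2) := by gcongr
    _ = 2 * ‖x - y‖ := by field_simp; ring

theorem dp_box (hc : ‖c - z‖ < σ) (h : 0 < dp z σ c y) :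
    (∀ k, dp z σ c y * (z k + σ - c k) ≤ z k + σ - y k ∧
      dp z σ c y * (c k - (z k - σ)) ≤ y k - (z k - σ)) ∧
    ∃ k, dp z σ c y * (z k + σ - c k) = z k + σ - y k ∨
      dp z σ c y * (c k - (z k - σ)) = y k - (z k - σ) := by
  have hb : ∀ k, 0 < c k - lo z σ k ∧ 0 < hi z σ k - c k := fun k => by
    have := (inBox_of hc) k
    exact ⟨by linarith, by linarith⟩
  constructor
  · intro k
    have h1 := depth_le h (k, true)
    have h2 := depth_le h (k, false)
    rw [box_true, inv_mul_eq_div, le_div_iff₀ (hb k).2] at h1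
    rw [box_false, inv_mul_eq_div, le_div_iff₀ (hb k).1] at h2
    exact ⟨h1, h2⟩
  · obtain ⟨⟨k, s⟩, hj⟩ := exists_depth_eq h
    refine ⟨k, ?_⟩
    cases s
    · right
      rw [box_false, inv_mul_eq_div, eq_div_iff (hb k).1.ne'] at hj
      exact hj
    · left
      rw [box_true, inv_mul_eq_div, eq_div_iff (hb k).2.ne'] at hj
      exact hj

/-- the image of a point of the cube under the cone move -/
theorem norm_cmv {hσ : 0 < σ} {hc : ‖c - z‖ < σ} (h : ‖y - z‖ ≤ σ) :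
    ‖(cmv z σ c hσ hc).toFun y - z‖ = (1 - dp z σ c y) * σ := by
  rcases (dp_nonneg (z := z) (σ := σ) (c := c) y).eq_or_lt with h0 | h0
  · rw [cmv_apply, ← h0, zero_smul, add_zero, sub_zero, one_mul]
    refine le_antisymm h ?_
    by_contra hlt
    push Not at hlt
    have : 0 < dp z σ c y := by
      unfold dp
      rw [depth_pos_iff]
      rintro ⟨k, s⟩
      have hb := (inBox_of hc) k
      have hy := (inBox_of hlt) k
      cases s
      · rw [box_false]
        exact mul_pos (inv_pos.2 (by linarith)) (by linarith)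
      · rw [box_true]
        exact mul_pos (inv_pos.2 (by linarith)) (by linarith)
    linarith
  · obtain ⟨h1, k, h2⟩ := dp_box hc h0
    have hco : ∀ k, ((cmv z σ c hσ hc).toFun y - z) k = y k - z k + dp z σ c y * (z k - c k) :=
      fun k => by
        rw [cmv_apply]
        simp only [Pi.sub_apply, Pi.add_apply, Pi.smul_apply, smul_eq_mul]
        ring
    have hd1 : 0 ≤ 1 - dp z σ c y := by
      have := (h1 k).1
      have := (h1 k).2
      nlinarith
    apply le_antisymm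
    · rw [pi_norm_le_iff_of_nonneg (mul_nonneg hd1 hσ.le)]
      intro k
      rw [hco, Real.norm_eq_abs, abs_le]
      have := h1 k
      constructor <;> nlinarith [this.1, this.2]
    · refine le_trans ?_ (norm_le_pi_norm _ k)
      rw [hco, Real.norm_eq_abs]
      rcases h2 with h2 | h2
      · refine le_trans (le_of_eq ?_) (le_abs_self _)
        linear_combination (-1 : ℝ) * h2
      · refine le_trans (le_of_eq ?_) (neg_abs_le _ |> neg_le.1)
        linear_combination (-1 : ℝ) * h2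

theorem norm_cmv_le {hσ : 0 < σ} {hc : ‖c - z‖ < σ} (h2 : ‖c - z‖ ≤ σ / 2) (h : ‖y - z‖ ≤ σ) :
    2 / 3 * ‖y - c‖ ≤ ‖(cmv z σ c hσ hc).toFun y - z‖ ∧
      ‖(cmv z σ c hσ hc).toFun y - z‖ ≤ 2 * ‖y - c‖ := by
  have h1 := norm_cmv (hσ := hσ) (hc := hc) h
  have e : (cmv z σ c hσ hc).toFun y - z = (y - c) + (1 - dp z σ c y) • (c - z) := by
    rw [cmv_apply]; module
  have hd1 : 0 ≤ 1 - dp z σ c y := by
    have h3 := norm_nonneg ((cmv z σ c hσ hc).toFun y - z)
    rw [h1] at h3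
    by_contra hn
    push Not at hn
    nlinarith
  have h3 : ‖(1 - dp z σ c y) • (c - z)‖ ≤ ‖(cmv z σ c hσ hc).toFun y - z‖ / 2 := by
    rw [norm_smul, Real.norm_of_nonneg hd1, h1]
    nlinarith
  have h4 : ‖(cmv z σ c hσ hc).toFun y - z‖ ≤ ‖y - c‖ + ‖(1 - dp z σ c y) • (c - z)‖ := by
    nth_rw 1 [e]
    exact norm_add_le _ _
  have h5 : ‖y - c‖ ≤ ‖(cmv z σ c hσ hc).toFun y - z‖ + ‖(1 - dp z σ c y) • (c - z)‖ := by
    have e2 : y - c = ((cmv z σ c hσ hc).toFun y - z) - (1 - dp z σ c y) • (c - z) := by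
      rw [e]; abel
    nth_rw 1 [e2]
    exact norm_sub_le _ _
  constructor <;> linarith

/-! ### The radial expansion of a cube -/

/-- the radial expansion of the cube `closedBall z σ` from the centre `c` -/
noncomputable def ffc (z : V) (σ : ℝ) (c : V) (hσ : 0 < σ) (hc : ‖c - z‖ < σ) (κ : ℝ)
    (hκ : 0 < κ) (hκ1 : κ < 1 / 2) (m : ℕ) : ConHomeo (univ : Set V) (univ : Set V) :=
  (cmv z σ c hσ hc).trans (cj z σ hσ (ff κ hκ hκ1 m))

variable {hσ : 0 < σ} {hc : ‖c - z‖ < σ} {hκ : 0 < κ} {hκ1 : κ < 1 / 2}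

theorem ffc_apply (y : V) : (ffc z σ c hσ hc κ hκ hκ1 m).toFun y =
    σ • fk κ m (σ⁻¹ • ((cmv z σ c hσ hc).toFun y - z)) + z := by
  show (cj z σ hσ (ff κ hκ hκ1 m)).toFun ((cmv z σ c hσ hc).toFun y) = _
  rw [cj_apply, ff_toFun]

theorem norm_ffc_sub (y : V) : ‖(ffc z σ c hσ hc κ hκ hκ1 m).toFun y - z‖ =
    σ * ‖fk κ m (σ⁻¹ • ((cmv z σ c hσ hc).toFun y - z))‖ := by
  rw [ffc_apply, add_sub_cancel_right, norm_smul, Real.norm_of_nonneg hσ.le]

theorem norm_inv_smul (w : V) (hσ : 0 < σ) : ‖σ⁻¹ • w‖ = ‖w‖ / σ := by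
  rw [norm_smul, norm_inv, Real.norm_of_nonneg hσ.le, inv_mul_eq_div]

/-- the expansion is the identity off the cube -/
theorem ffc_of_ge (h : σ ≤ ‖y - z‖) : (ffc z σ c hσ hc κ hκ hκ1 m).toFun y = y := by
  rw [ffc_apply, cmv_of_ge h, fk_of_ge, smul_smul, mul_inv_cancel₀ hσ.ne', one_smul,
    sub_add_cancel]
  rwa [norm_inv_smul _ hσ, le_div_iff₀ hσ, one_mul]

/-- the expansion keeps the cube -/
theorem ffc_mem (h : ‖y - z‖ < σ) : ‖(ffc z σ c hσ hc κ hκ hκ1 m).toFun y - z‖ < σ := by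
  by_contra hn
  push Not at hn
  have h1 := ffc_of_ge (hσ := hσ) (hc := hc) (hκ := hκ) (hκ1 := hκ1) (m := m) hn
  have h2 := (ffc z σ c hσ hc κ hκ hκ1 m).injOn (mem_univ _) (mem_univ _) h1
  rw [h2] at hn
  linarith

/-- **Lipschitz estimate**: local Lipschitz constant `12 σ / ‖y - c‖`, for all `κ`, `m` -/
theorem ffc_lip (h2 : ‖c - z‖ ≤ σ / 2) {r : ℝ} (hr : 0 < r) (hr1 : r ≤ σ) {y y' : V}
    (hy : r ≤ ‖y - c‖) (hy' : r ≤ ‖y' - c‖) :
    ‖(ffc z σ c hσ hc κ hκ hκ1 m).toFun y - (ffc z σ c hσ hc κ hκ hκ1 m).toFun y'‖ ≤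
      12 * σ / r * ‖y - y'‖ := by
  have key : ∀ y : V, r ≤ ‖y - c‖ →
      2 * r / (3 * σ) ≤ ‖σ⁻¹ • ((cmv z σ c hσ hc).toFun y - z)‖ := by
    intro y hy
    rw [norm_inv_smul _ hσ, div_le_div_iff₀ (by positivity) hσ]
    rcases le_total ‖y - z‖ σ with h | h
    · have := (norm_cmv_le (hσ := hσ) (hc := hc) h2 h).1
      nlinarith
    · rw [cmv_of_ge h]
      nlinarith
  rw [ffc_apply, ffc_apply, add_sub_add_right_eq_sub, ← smul_sub, norm_smul,
    Real.norm_of_nonneg hσ.le]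
  have h3 := fk_sub_le (m := m) hκ.le hκ1 (r := 2 * r / (3 * σ)) (by positivity)
    (by rw [div_le_one (by positivity)]; linarith) (key y hy) (key y' hy')
  rw [← smul_sub, norm_inv_smul _ hσ, sub_sub_sub_cancel_right] at h3
  have h4 := cmv_lip (hσ := hσ) (hc := hc) h2 y y'
  calc _ ≤ σ * (4 / (2 * r / (3 * σ)) * (2 * ‖y - y'‖ / σ)) := by
        gcongr
        refine h3.trans ?_
        gcongr
    _ = 12 * σ / r * ‖y - y'‖ := by field_simp; ring

/-- crude global Lipschitz constant -/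
theorem ffc_lip' (h2 : ‖c - z‖ ≤ σ / 2) (y y' : V) :
    ‖(ffc z σ c hσ hc κ hκ hκ1 m).toFun y - (ffc z σ c hσ hc κ hκ hκ1 m).toFun y'‖ ≤
      2 * 4 ^ m * ‖y - y'‖ := by
  rw [ffc_apply, ffc_apply, add_sub_add_right_eq_sub, ← smul_sub, norm_smul,
    Real.norm_of_nonneg hσ.le]
  have h3 := fk_lip hκ.le hκ1 m (σ⁻¹ • ((cmv z σ c hσ hc).toFun y - z))
    (σ⁻¹ • ((cmv z σ c hσ hc).toFun y' - z))
  rw [← smul_sub, norm_inv_smul _ hσ, sub_sub_sub_cancel_right] at h3
  have h4 := cmv_lip (hσ := hσ) (hc := hc) h2 y y'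
  calc _ ≤ σ * (4 ^ m * (2 * ‖y - y'‖ / σ)) := by
        gcongr
        refine h3.trans ?_
        gcongr
    _ = 2 * 4 ^ m * ‖y - y'‖ := by field_simp

/-- off the core the image is in the shell -/
theorem ffc_core (h2 : ‖c - z‖ ≤ σ / 2) (h : 3 / 2 * (1 / 2) ^ m * σ < ‖y - c‖) :
    (1 - κ) ^ m * σ < ‖(ffc z σ c hσ hc κ hκ hκ1 m).toFun y - z‖ := by
  rw [norm_ffc_sub, mul_comm σ]
  gcongr
  refine lt_norm_fk hκ hκ1 ?_
  rw [norm_inv_smul _ hσ, lt_div_iff₀ hσ]
  rcases le_total ‖y - z‖ σ with h3 | h3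
  · have := (norm_cmv_le (hσ := hσ) (hc := hc) h2 h3).1
    linarith
  · rw [cmv_of_ge h3]
    rcases Nat.eq_zero_or_pos m with rfl | hm
    · have h4 : ‖y - c‖ ≤ ‖y - z‖ + ‖c - z‖ := by
        rw [norm_sub_rev c z]
        refine le_trans (le_of_eq ?_) (norm_add_le _ _)
        congr 1; abel
      rw [pow_zero] at h ⊢
      linarith
    · have h4 : ((1:ℝ) / 2) ^ m < 1 := pow_lt_one₀ (by norm_num) (by norm_num) hm.ne'
      nlinarith

/-- the preimage of the middle cube -/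
theorem ffc_core_iff : ‖(ffc z σ c hσ hc κ hκ hκ1 m).toFun y - z‖ ≤ (1 - κ) ^ m * σ ↔
    ‖(cmv z σ c hσ hc).toFun y - z‖ ≤ (1 / 2) ^ m * σ := by
  rw [norm_ffc_sub, mul_comm σ, mul_le_mul_iff_left₀ hσ, norm_fk_le_iff hκ hκ1,
    norm_inv_smul _ hσ, div_le_iff₀ hσ]

/-- on the core the expansion is a homothety after the cone move -/
theorem ffc_core_eq (h : ‖(cmv z σ c hσ hc).toFun y - z‖ ≤ (1 / 2) ^ m * σ) :
    (ffc z σ c hσ hc κ hκ hκ1 m).toFun y =
      (2 * (1 - κ)) ^ m • ((cmv z σ c hσ hc).toFun y - z) + z := by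
  rw [ffc_apply, fk_small hκ.le hκ1, smul_smul, smul_smul]
  · congr 2
    rw [mul_comm σ, mul_assoc, mul_inv_cancel₀ hσ.ne', mul_one]
  · rwa [norm_inv_smul _ hσ, div_le_iff₀ hσ]

/-- widths: for every `k` there is `κ` with `(1-κ)^m = 1-k` -/
theorem exists_kap {k : ℝ} (hk : 0 < k) (hk1 : k < 1 / 2) {m : ℕ} (hm : 0 < m) :
    ∃ κ : ℝ, 0 < κ ∧ κ < 1 / 2 ∧ (1 - κ) ^ m = 1 - k := by
  refine ⟨1 - (1 - k) ^ ((1:ℝ) / m), ?_, ?_, ?_⟩
  · have : (1 - k) ^ ((1:ℝ) / m) < 1 :=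
      Real.rpow_lt_one (by linarith) (by linarith) (by positivity)
    linarith
  · have h1 : (1 - k) ≤ (1 - k) ^ ((1:ℝ) / m) := by
      nth_rw 1 [← Real.rpow_one (1 - k)]
      apply Real.rpow_le_rpow_of_exponent_ge (by linarith) (by linarith)
      rw [div_le_one (by positivity)]
      exact_mod_cast hm
    linarith
  · rw [sub_sub_cancel, ← Real.rpow_natCast, ← Real.rpow_mul (by linarith), one_div,
      inv_mul_cancel₀ (by positivity), Real.rpow_one]

/-- the number of doublings: small cores -/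
theorem exists_core {τ : ℝ} (hτ : 0 < τ) (σ : ℝ) :
    ∃ m : ℕ, 0 < m ∧ 3 / 2 * (1 / 2) ^ m * σ < τ := by
  have h : Tendsto (fun m : ℕ => 3 / 2 * ((1:ℝ) / 2) ^ m * σ) atTop (𝓝 (3 / 2 * 0 * σ)) :=
    ((tendsto_pow_atTop_nhds_zero_of_lt_one (by norm_num) (by norm_num)).const_mul _).mul_const _
  rw [mul_zero, zero_mul] at h
  obtain ⟨m, h1, h2⟩ := ((h.eventually (gt_mem_nhds hτ)).and (eventually_gt_atTop 0)).exists
  exact ⟨m, h2, h1⟩

end Vale.Agent.P073.H471
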