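import Vale.Agent.P073.H471.FF

/-!
# P073, block FF: the chart of the pyramid `|y_0|, |y_1| ≤ y_2`

`ch m` is a conical homeomorphism of the space which keeps the third coordinate.  On the pyramid
`|y_0|, |y_1| ≤ y_2` its first two coordinates are those of `fk 0 m`; it maps the truncated pyramid
`2^{-m} ≤ y_2 ≤ 1` onto the box `[-1,1]² × [2^{-m},1]`.
-/

open Set Metric Topology Filter

namespace Vale.Agent.P073.H471

open _root_.P073 _root_.P073.Net
open Vale.Agent.P073.St (V)

variable {κ : ℝ} {m : ℕ} {y z w : V}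

/-- horizontal doubling at height `y 2` -/
noncomputable def bet (y : V) : V := fun k =>
  if k = 2 then y 2 else 2 * y k - clamp (th (y 2)) (y k)

/-- the inverse -/
noncomputable def beti (y : V) : V := fun k =>
  if k = 2 then y 2 else (y k + clamp (th (y 2)) (y k)) / 2

@[simp] theorem bet_two (y : V) : bet y 2 = y 2 := by simp [bet]

@[simp] theorem beti_two (y : V) : beti y 2 = y 2 := by simp [beti]

theorem bet_ne {k : Fin 3} (hk : k ≠ 2) (y : V) :
    bet y k = 2 * y k - clamp (th (y 2)) (y k) := by simp [bet, hk]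

theorem beti_ne {k : Fin 3} (hk : k ≠ 2) (y : V) :
    beti y k = (y k + clamp (th (y 2)) (y k)) / 2 := by simp [beti, hk]

theorem beti_bet (y : V) : beti (bet y) = y := by
  funext k
  by_cases hk : k = 2
  · subst hk; simp
  · rw [beti_ne hk, bet_two, bet_ne hk]
    have := clamp_qq (κ := 2) (r := th (y 2)) (t := y k) (by norm_num) (th_nonneg _)
    rw [qq] at this
    rw [show 2 * y k - clamp (th (y 2)) (y k) = 2 * y k + (1 - 2) * clamp (th (y 2)) (y k) by ring,
      this]
    ring

theorem bet_beti (y : V) : bet (beti y) = y := by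
  funext k
  by_cases hk : k = 2
  · subst hk; simp
  · rw [bet_ne hk, beti_two, beti_ne hk]
    have := clamp_qq (κ := 1 / 2) (r := th (y 2)) (t := y k) (by norm_num) (th_nonneg _)
    rw [qq] at this
    rw [show (y k + clamp (th (y 2)) (y k)) / 2 =
      1 / 2 * y k + (1 - 1 / 2) * clamp (th (y 2)) (y k) by ring, this]
    ring

theorem continuous_clamp_th (k : Fin 3) : Continuous fun y : V => clamp (th (y 2)) (y k) := by
  have := continuous_th
  unfold clamp
  fun_prop

theorem conicalOn_clamp_th (k : Fin 3) :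
    ConicalOn (fun y : V => clamp (th (y 2)) (y k)) univ := by
  have hS : ConicalSet (univ : Set V) := IsOpen.conicalSet isOpen_univ
  have h2 := conicalOn_coord 2
  have hk := conicalOn_coord k
  have ht : ConicalOn (fun y : V => th (y 2)) univ :=
    conicalOn_th.comp h2 (mapsTo_univ _ _) (by fun_prop)
  have hc : Continuous fun y : V => th (y 2) := continuous_th.comp (continuous_apply 2)
  have h1 := hk.rmin ht (by fun_prop) hc.continuousOn
  exact (ht.neg).rmax h1 (hc.neg.continuousOn) (by fun_prop)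

theorem continuous_bet : Continuous bet := by
  refine continuous_pi fun k => ?_
  by_cases hk : k = 2
  · subst hk; simp only [bet_two]; fun_prop
  · simp only [bet_ne hk]
    have := continuous_clamp_th k
    fun_prop

theorem continuous_beti : Continuous beti := by
  refine continuous_pi fun k => ?_
  by_cases hk : k = 2
  · subst hk; simp only [beti_two]; fun_prop
  · simp only [beti_ne hk]
    have := continuous_clamp_th k
    fun_prop

theorem conicalOn_bet : ConicalOn bet univ := by
  have hS : ConicalSet (univ : Set V) := IsOpen.conicalSet isOpen_univ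
  intro x hx
  refine conicalWithinAt_pi (hS x hx) fun k => ?_
  by_cases hk : k = 2
  · subst hk; simp only [bet_two]; exact conicalOn_coord 2 x hx
  · simp only [bet_ne hk]
    exact (((conicalOn_coord k).const_smul 2).sub (conicalOn_clamp_th k)) x hx

/-- the horizontal doubling as a conical homeomorphism -/
noncomputable def betH : ConHomeo (univ : Set V) (univ : Set V) where
  toFun := bet
  invFun := beti
  mapsTo := mapsTo_univ _ _
  mapsTo_inv := mapsTo_univ _ _
  left_inv := fun x _ => beti_bet x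
  right_inv := fun x _ => bet_beti x
  cont := continuous_bet.continuousOn
  cont_inv := continuous_beti.continuousOn
  conical := conicalOn_bet

/-- the chart of the pyramid -/
noncomputable def ch : ℕ → ConHomeo (univ : Set V) (univ : Set V)
  | 0 => ConHomeo.refl (IsOpen.conicalSet isOpen_univ)
  | m + 1 => (cj 0 (1 / 2) (by norm_num) (ch m)).trans betH

@[simp] theorem ch_zero (y : V) : (ch 0).toFun y = y := rfl

@[simp] theorem ch_zero_inv (y : V) : (ch 0).invFun y = y := rfl

theorem ch_succ (m : ℕ) (y : V) :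
    (ch (m + 1)).toFun y = bet ((1 / 2 : ℝ) • (ch m).toFun ((2 : ℝ) • y)) := by
  show bet ((cj 0 (1 / 2) (by norm_num) (ch m)).toFun y) = _
  rw [cj_apply]
  norm_num

theorem ch_succ_inv (m : ℕ) (y : V) :
    (ch (m + 1)).invFun y = (1 / 2 : ℝ) • (ch m).invFun ((2 : ℝ) • beti y) := by
  show (1 / 2 : ℝ) • (ch m).invFun ((1 / 2 : ℝ)⁻¹ • (beti y - 0)) + 0 = _
  norm_num

theorem ch_left (y : V) : (ch m).invFun ((ch m).toFun y) = y := (ch m).left_inv (mem_univ _)

theorem ch_right (y : V) : (ch m).toFun ((ch m).invFun y) = y := (ch m).right_inv (mem_univ _)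

@[simp] theorem ch_two (m : ℕ) (y : V) : (ch m).toFun y 2 = y 2 := by
  induction m generalizing y with
  | zero => rfl
  | succ m ih =>
    rw [ch_succ, bet_two, Pi.smul_apply, ih, Pi.smul_apply]
    simp only [smul_eq_mul]; ring

@[simp] theorem ch_inv_two (m : ℕ) (y : V) : (ch m).invFun y 2 = y 2 := by
  have := ch_two m ((ch m).invFun y)
  rw [ch_right] at this
  exact this.symm

/-- the closed pyramid -/
def Pyr : Set V := {y | |y 0| ≤ y 2 ∧ |y 1| ≤ y 2}

theorem pyr_nonneg (h : y ∈ Pyr) : 0 ≤ y 2 := (abs_nonneg _).trans h.1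

theorem pyr_norm (h : y ∈ Pyr) : ‖y‖ = y 2 := by
  refine norm_eq_of_coord (k := 2) (fun j => ?_) (abs_of_nonneg (pyr_nonneg h))
  fin_cases j
  · exact h.1
  · exact h.2
  · exact (abs_of_nonneg (pyr_nonneg h)).le

theorem pyr_abs_le (h : y ∈ Pyr) (k : Fin 3) : |y k| ≤ y 2 := by
  rw [← pyr_norm h]; exact norm_le_pi_norm y k

theorem mem_Pyr_iff : y ∈ Pyr ↔ y 2 = ‖y‖ := by
  constructor
  · intro h; exact (pyr_norm h).symm
  · intro h
    exact ⟨h ▸ norm_le_pi_norm y 0, h ▸ norm_le_pi_norm y 1⟩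

theorem pyr_smul {a : ℝ} (ha : 0 ≤ a) (h : y ∈ Pyr) : a • y ∈ Pyr := by
  constructor
  · simpa only [Pi.smul_apply, smul_eq_mul, abs_mul, abs_of_nonneg ha] using
      mul_le_mul_of_nonneg_left h.1 ha
  · simpa only [Pi.smul_apply, smul_eq_mul, abs_mul, abs_of_nonneg ha] using
      mul_le_mul_of_nonneg_left h.2 ha

/-- on the pyramid the chart gives the first two coordinates of the radial map -/
theorem ch_fk (h : y ∈ Pyr) {k : Fin 3} (hk : k ≠ 2) : (ch m).toFun y k = fk 0 m y k := by
  induction m generalizing y k with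
  | zero => rfl
  | succ m ih =>
    have h2 : (2:ℝ) • y ∈ Pyr := pyr_smul (by norm_num) h
    have hn := pyr_norm h
    rw [ch_succ, bet_ne hk]
    rcases le_total ‖y‖ (1 / 2) with h1 | h1
    · rw [fk_succ_of_le le_rfl (by norm_num) h1, sub_zero, one_smul]
      simp only [Pi.smul_apply, smul_eq_mul, ch_two]
      rw [show (1:ℝ) / 2 * (2 * y 2) = y 2 by ring, ← hn, th_of_le h1, clamp_zero, ih h2 hk]
      ring
    · rw [fk_succ_of_ge h1, tt_apply]
      simp only [Pi.smul_apply, smul_eq_mul, ch_two]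
      rw [ih h2 hk, fk_of_ge (by rw [norm_two_smul]; linarith), Pi.smul_apply, smul_eq_mul,
        show (1:ℝ) / 2 * (2 * y 2) = y 2 by ring, show (1:ℝ) / 2 * (2 * y k) = y k by ring, ← hn]
      ring

/-- the chart is the identity on the part of the pyramid above height `1` -/
theorem ch_of_ge (h : y ∈ Pyr) (h1 : 1 ≤ y 2) : (ch m).toFun y = y := by
  funext k
  by_cases hk : k = 2
  · subst hk; simp
  · rw [ch_fk h hk, fk_of_ge (by rw [pyr_norm h]; exact h1)]

theorem ch_inv_of_ge (h : y ∈ Pyr) (h1 : 1 ≤ y 2) : (ch m).invFun y = y := by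
  have := congrArg (ch m).invFun (ch_of_ge (m := m) h h1)
  rw [ch_left] at this
  exact this.symm

/-- the inverse chart maps the box into the pyramid -/
theorem ch_inv_Pyr (h0 : |w 0| ≤ 1) (h1 : |w 1| ≤ 1) (h2 : (1 / 2) ^ m ≤ w 2) :
    (ch m).invFun w ∈ Pyr := by
  induction m generalizing w with
  | zero =>
    rw [pow_zero] at h2
    exact ⟨h0.trans h2, h1.trans h2⟩
  | succ m ih =>
    rw [ch_succ_inv]
    refine pyr_smul (by norm_num) ?_
    have hp : (0:ℝ) < (1 / 2) ^ m := by positivity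
    rw [pow_succ] at h2
    have e0 : ((2:ℝ) • beti w) 0 = w 0 + clamp (th (w 2)) (w 0) := by
      rw [Pi.smul_apply, beti_ne (by decide), smul_eq_mul]; ring
    have e1 : ((2:ℝ) • beti w) 1 = w 1 + clamp (th (w 2)) (w 1) := by
      rw [Pi.smul_apply, beti_ne (by decide), smul_eq_mul]; ring
    have e2 : ((2:ℝ) • beti w) 2 = 2 * w 2 := by simp
    rcases le_total (w 2) (1 / 2) with h | h
    · refine ih ?_ ?_ ?_
      · rw [e0, th_of_le h, clamp_zero, add_zero]; exact h0
      · rw [e1, th_of_le h, clamp_zero, add_zero]; exact h1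
      · rw [e2]; linarith
    · have hth := th_of_ge h
      have habs : ∀ u : ℝ, |u| ≤ 1 → |u + clamp (th (w 2)) u| ≤ 2 * w 2 := by
        intro u hu
        have hc : |clamp (th (w 2)) u| ≤ th (w 2) := by
          unfold clamp
          rw [_root_.abs_le]
          exact ⟨le_max_left _ _, max_le (by linarith [th_nonneg (w 2)]) (min_le_right _ _)⟩
        refine (abs_add_le _ _).trans ?_
        rw [hth] at hc ⊢
        linarith
      have hP : (2:ℝ) • beti w ∈ Pyr := by
        refine ⟨?_, ?_⟩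
        · rw [e0, e2]; exact habs _ h0
        · rw [e1, e2]; exact habs _ h1
      rw [ch_inv_of_ge hP (by rw [e2]; linarith)]
      exact hP

/-- on the box `[-1,1]² × [2^{-m},1]` the radial map in the chart forgets the third coordinate -/
theorem fk_ch_inv (h0 : |w 0| ≤ 1) (h1 : |w 1| ≤ 1) (h2 : (1 / 2) ^ m ≤ w 2) (h3 : w 2 ≤ 1)
    (k : Fin 3) : fk 0 m ((ch m).invFun w) k = if k = 2 then 1 else w k := by
  have hP := ch_inv_Pyr h0 h1 h2
  have hn : ‖(ch m).invFun w‖ = w 2 := by rw [pyr_norm hP, ch_inv_two]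
  by_cases hk : k = 2
  · subst hk
    rw [if_pos rfl, fk_coord_zero (mem_Pyr_iff.1 hP) (by rw [hn]; exact h2) (by rw [hn]; exact h3)]
  · rw [if_neg hk, ← ch_fk hP hk, ch_right]

/-- the chart maps the truncated pyramid into the box -/
theorem ch_box (h : y ∈ Pyr) (h1 : y 2 ≤ 1) (k : Fin 3) : |(ch m).toFun y k| ≤ 1 := by
  by_cases hk : k = 2
  · subst hk; rw [ch_two, abs_of_nonneg (pyr_nonneg h)]; exact h1
  · rw [ch_fk h hk]
    exact (norm_le_pi_norm _ k).trans (norm_fk_le le_rfl (by norm_num) (by rw [pyr_norm h]; exact h1))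

theorem bet_sub_le (y z : V) : ‖bet y - bet z‖ ≤ 4 * ‖y - z‖ := by
  rw [pi_norm_le_iff_of_nonneg (by positivity)]
  intro k
  have hyz : ∀ k, |y k - z k| ≤ ‖y - z‖ := fun k => by
    have := norm_le_pi_norm (y - z) k
    rwa [Pi.sub_apply, Real.norm_eq_abs] at this
  rw [Pi.sub_apply, Real.norm_eq_abs]
  by_cases hk : k = 2
  · subst hk
    rw [bet_two, bet_two]
    linarith [hyz 2, norm_nonneg (y - z)]
  · rw [bet_ne hk, bet_ne hk]
    have h1 := abs_soft_sub (th (y 2)) (th (z 2)) (y k) (z k)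
    have h2 := abs_th_sub (y 2) (z 2)
    have e : 2 * y k - clamp (th (y 2)) (y k) - (2 * z k - clamp (th (z 2)) (z k)) =
      (y k - z k) + ((y k - clamp (th (y 2)) (y k)) - (z k - clamp (th (z 2)) (z k))) := by ring
    rw [e]
    refine (abs_add_le _ _).trans ?_
    linarith [hyz 2, hyz k]

theorem beti_sub_le (y z : V) : ‖beti y - beti z‖ ≤ 2 * ‖y - z‖ := by
  rw [pi_norm_le_iff_of_nonneg (by positivity)]
  intro k
  have hyz : ∀ k, |y k - z k| ≤ ‖y - z‖ := fun k => by
    have := norm_le_pi_norm (y - z) k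
    rwa [Pi.sub_apply, Real.norm_eq_abs] at this
  rw [Pi.sub_apply, Real.norm_eq_abs]
  by_cases hk : k = 2
  · subst hk
    rw [beti_two, beti_two]
    linarith [hyz 2, norm_nonneg (y - z)]
  · rw [beti_ne hk, beti_ne hk]
    have h1 := abs_clamp_sub (th (y 2)) (th (z 2)) (y k) (z k)
    have h2 := abs_th_sub (y 2) (z 2)
    have e : (y k + clamp (th (y 2)) (y k)) / 2 - (z k + clamp (th (z 2)) (z k)) / 2 =
      ((y k - z k) + (clamp (th (y 2)) (y k) - clamp (th (z 2)) (z k))) / 2 := by ring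
    rw [e, abs_div, abs_of_pos (by norm_num : (0:ℝ) < 2), div_le_iff₀ (by norm_num)]
    refine (abs_add_le _ _).trans ?_
    linarith [hyz 2, hyz k]

theorem ch_lip (m : ℕ) (y z : V) :
    ‖(ch m).toFun y - (ch m).toFun z‖ ≤ 4 ^ m * ‖y - z‖ := by
  induction m generalizing y z with
  | zero => simp
  | succ m ih =>
    rw [ch_succ, ch_succ]
    refine (bet_sub_le _ _).trans ?_
    rw [← smul_sub, norm_smul, Real.norm_of_nonneg (by norm_num)]
    have := ih ((2:ℝ) • y) ((2:ℝ) • z)
    rw [← smul_sub, norm_two_smul] at this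
    calc (4:ℝ) * (1 / 2 * ‖(ch m).toFun ((2:ℝ) • y) - (ch m).toFun ((2:ℝ) • z)‖)
        ≤ 4 * (1 / 2 * (4 ^ m * (2 * ‖y - z‖))) := by gcongr
      _ = 4 ^ (m + 1) * ‖y - z‖ := by ring

theorem ch_inv_lip (m : ℕ) (y z : V) :
    ‖(ch m).invFun y - (ch m).invFun z‖ ≤ 2 ^ m * ‖y - z‖ := by
  induction m generalizing y z with
  | zero => simp
  | succ m ih =>
    rw [ch_succ_inv, ch_succ_inv, ← smul_sub, norm_smul, Real.norm_of_nonneg (by norm_num)]
    have := ih ((2:ℝ) • beti y) ((2:ℝ) • beti z)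
    rw [← smul_sub, norm_two_smul] at this
    calc (1:ℝ) / 2 * ‖(ch m).invFun ((2:ℝ) • beti y) - (ch m).invFun ((2:ℝ) • beti z)‖
        ≤ 1 / 2 * (2 ^ m * (2 * ‖beti y - beti z‖)) := by gcongr
      _ ≤ 1 / 2 * (2 ^ m * (2 * (2 * ‖y - z‖))) := by gcongr; exact beti_sub_le y z
      _ = 2 ^ (m + 1) * ‖y - z‖ := by ring

end Vale.Agent.P073.H471
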