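import Vale.Agent.P073.Net.Maps

/-!
# P073, block KILL: the collapse of some coordinates, with variable width

`coll J c a ρ` multiplies the coordinates `k ∈ J` (seen from `c k`) by `ρ` where
`|y k - c k| ≤ a y` for all `k ∈ J`, is the identity where `max_J |y k - c k| ≥ 2 a y`, and does
not change the coordinates outside of `J`.  The width `a` depends on the coordinates outside of
`J` only.
-/

open Set Metric Topology Filter

namespace Vale.Agent.P073.H471

open _root_.P073 _root_.P073.Net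
open Vale.Agent.P073.St (V)

variable {J : Finset (Fin 3)} {c y y' z : V} {a : V → ℝ} {ρ : ℝ}

/-- the part of `y - c` in the directions `J` -/
def prj (J : Finset (Fin 3)) (c y : V) : V := fun k => if k ∈ J then y k - c k else 0

/-- the distance from the flat -/
noncomputable def nJ (J : Finset (Fin 3)) (c y : V) : ℝ := ‖prj J c y‖

/-- the profile -/
noncomputable def thc (a n : ℝ) : ℝ := max 0 (min (2 * (n - a)) n)

/-- the collapse -/
noncomputable def collF (J : Finset (Fin 3)) (c : V) (a : V → ℝ) (ρ : ℝ) (y : V) : V :=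
  fun k => if k ∈ J then c k + qq ρ (thc (a y) (nJ J c y)) (y k - c k) else y k

/-- the inverse of the action on `nJ` -/
noncomputable def nuc (ρ a N : ℝ) : ℝ :=
  min (ρ⁻¹ * N) (max ((2 - ρ)⁻¹ * (N + 2 * (1 - ρ) * a)) N)

/-- the inverse of the collapse -/
noncomputable def colliF (J : Finset (Fin 3)) (c : V) (a : V → ℝ) (ρ : ℝ) (y : V) : V :=
  fun k => if k ∈ J then c k + qq ρ⁻¹ (thc (a y) (nuc ρ (a y) (nJ J c y))) (y k - c k) else y k

theorem thc_nonneg (a n : ℝ) : 0 ≤ thc a n := le_max_left _ _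

theorem nJ_nonneg : 0 ≤ nJ J c y := norm_nonneg _

theorem abs_le_nJ {k : Fin 3} (hk : k ∈ J) : |y k - c k| ≤ nJ J c y := by
  have := norm_le_pi_norm (prj J c y) k
  rwa [prj, if_pos hk, Real.norm_eq_abs] at this

theorem nJ_le_iff {r : ℝ} (hr : 0 ≤ r) : nJ J c y ≤ r ↔ ∀ k ∈ J, |y k - c k| ≤ r := by
  refine ⟨fun h k hk => (abs_le_nJ hk).trans h, fun h => ?_⟩
  refine (pi_norm_le_iff_of_nonneg hr).2 fun k => ?_
  by_cases hk : k ∈ J
  · rw [prj, if_pos hk, Real.norm_eq_abs]; exact h k hk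
  · rw [prj, if_neg hk, norm_zero]; exact hr

theorem nJ_sub_le : |nJ J c y - nJ J c y'| ≤ nJ J y' y := by
  have h := abs_norm_sub_norm_le (prj J c y) (prj J c y')
  have e : prj J c y - prj J c y' = prj J y' y := by
    funext k
    by_cases hk : k ∈ J
    · simp [prj, hk]
    · simp [prj, hk]
  rw [e] at h
  exact h

theorem nJ_le_norm : nJ J y' y ≤ ‖y - y'‖ := by
  rw [nJ_le_iff (norm_nonneg _)]
  intro k _
  have := norm_le_pi_norm (y - y') k
  rwa [Pi.sub_apply, Real.norm_eq_abs] at this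

theorem thc_of_le {a n : ℝ} (h : n ≤ a) : thc a n = 0 := by
  rw [thc, max_eq_left ((min_le_left _ _).trans (by linarith))]

theorem thc_mid {a n : ℝ} (h : a ≤ n) (h' : n ≤ 2 * a) : thc a n = 2 * (n - a) := by
  rw [thc, min_eq_left (by linarith), max_eq_right (by linarith)]

theorem thc_of_ge {a n : ℝ} (hn : 0 ≤ n) (h : 2 * a ≤ n) : thc a n = n := by
  rw [thc, min_eq_right (by linarith), max_eq_right hn]

theorem thc_le {a n : ℝ} (hn : 0 ≤ n) : thc a n ≤ n := max_le hn (min_le_right _ _)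

theorem abs_thc_sub_le {a b n m : ℝ} : |thc a n - thc b m| ≤ 2 * (|n - m| + |a - b|) := by
  unfold thc
  have h0 := abs_nonneg (n - m)
  have h0' := abs_nonneg (a - b)
  refine (abs_max_sub_max_le_max _ _ _ _).trans (max_le ?_ ?_)
  · rw [sub_self, abs_zero]; positivity
  refine (abs_min_sub_min_le_max _ _ _ _).trans (max_le ?_ (by linarith))
  have e : 2 * (n - a) - 2 * (m - b) = 2 * ((n - m) - (a - b)) := by ring
  rw [e, abs_mul, abs_two]
  have := abs_sub (n - m) (a - b)
  linarith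

/-- the action on `nJ` -/
theorem nuc_lam {a n : ℝ} (hρ : 0 < ρ) (hρ1 : ρ ≤ 1) (hn : 0 ≤ n) :
    nuc ρ a (ρ * n + (1 - ρ) * thc a n) = n := by
  have h2 : (0:ℝ) < 2 - ρ := by linarith
  rcases le_total n a with h | h
  · rw [thc_of_le h, mul_zero, add_zero, nuc, inv_mul_cancel_left₀ hρ.ne', min_eq_left]
    refine le_max_of_le_left ?_
    rw [inv_mul_eq_div, le_div_iff₀ h2]
    nlinarith
  rcases le_total n (2 * a) with h' | h'
  · rw [thc_mid h h', nuc]
    have e1 : (2 - ρ)⁻¹ * (ρ * n + (1 - ρ) * (2 * (n - a)) + 2 * (1 - ρ) * a) = n := by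
      rw [inv_mul_eq_iff_eq_mul₀ h2.ne']; ring
    rw [e1, max_eq_left (by nlinarith), min_eq_right]
    rw [inv_mul_eq_div, le_div_iff₀ hρ]
    nlinarith
  · rw [thc_of_ge hn h', nuc]
    have e1 : ρ * n + (1 - ρ) * n = n := by ring
    rw [e1, max_eq_right, min_eq_right]
    · rw [inv_mul_eq_div, le_div_iff₀ hρ]; nlinarith
    · rw [inv_mul_eq_div, div_le_iff₀ h2]; nlinarith

theorem lam_nuc {a N : ℝ} (hρ : 0 < ρ) (hρ1 : ρ ≤ 1) (ha : 0 ≤ a) (hN : 0 ≤ N) :
    0 ≤ nuc ρ a N ∧ ρ * nuc ρ a N + (1 - ρ) * thc a (nuc ρ a N) = N := by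
  have h2 : (0:ℝ) < 2 - ρ := by linarith
  rcases le_total N (ρ * a) with h | h
  · have e : nuc ρ a N = ρ⁻¹ * N := by
      rw [nuc, min_eq_left]
      refine le_max_of_le_left ?_
      rw [inv_mul_eq_div, inv_mul_eq_div, div_le_div_iff₀ hρ h2]
      nlinarith
    have e0 : ρ⁻¹ * N ≤ a := by rw [inv_mul_eq_div, div_le_iff₀ hρ]; linarith
    rw [e, thc_of_le e0, mul_inv_cancel_left₀ hρ.ne']
    exact ⟨by positivity, by ring⟩
  rcases le_total N (2 * a) with h' | h'
  · have e : nuc ρ a N = (2 - ρ)⁻¹ * (N + 2 * (1 - ρ) * a) := by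
      rw [nuc, max_eq_left, min_eq_right]
      · rw [inv_mul_eq_div, inv_mul_eq_div, div_le_div_iff₀ h2 hρ]
        nlinarith
      · rw [inv_mul_eq_div, le_div_iff₀ h2]; nlinarith
    have e1 : a ≤ (2 - ρ)⁻¹ * (N + 2 * (1 - ρ) * a) := by
      rw [inv_mul_eq_div, le_div_iff₀ h2]; nlinarith
    have e2 : (2 - ρ)⁻¹ * (N + 2 * (1 - ρ) * a) ≤ 2 * a := by
      rw [inv_mul_eq_div, div_le_iff₀ h2]; nlinarith
    have e3 : (2 - ρ) * ((2 - ρ)⁻¹ * (N + 2 * (1 - ρ) * a)) = N + 2 * (1 - ρ) * a :=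
      mul_inv_cancel_left₀ h2.ne' _
    rw [e, thc_mid e1 e2]
    exact ⟨by linarith, by linear_combination e3⟩
  · have e : nuc ρ a N = N := by
      rw [nuc, max_eq_right, min_eq_right]
      · rw [inv_mul_eq_div, le_div_iff₀ hρ]; nlinarith
      · rw [inv_mul_eq_div, div_le_iff₀ h2]; nlinarith
    rw [e, thc_of_ge hN h']
    exact ⟨hN, by ring⟩

theorem prj_coll : prj J c (collF J c a ρ y) =
    sqz ρ (fun _ => thc (a y) (nJ J c y)) (prj J c y) := by
  funext k
  by_cases hk : k ∈ J
  · simp only [prj, collF, sqz, if_pos hk]; ring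
  · simp only [prj, sqz, if_neg hk, qq, mul_zero, zero_add]
    rw [clamp_of_abs_le (by rw [abs_zero]; exact thc_nonneg _ _), mul_zero]

theorem nJ_coll (hρ : 0 < ρ) :
    nJ J c (collF J c a ρ y) = ρ * nJ J c y + (1 - ρ) * thc (a y) (nJ J c y) := by
  rw [nJ, prj_coll, norm_sqz hρ fun _ => thc_nonneg _ _, lam]
  rw [min_eq_right]
  · rfl
  · exact thc_le nJ_nonneg

theorem prj_colli : prj J c (colliF J c a ρ y) =
    sqz ρ⁻¹ (fun _ => thc (a y) (nuc ρ (a y) (nJ J c y))) (prj J c y) := by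
  funext k
  by_cases hk : k ∈ J
  · simp only [prj, colliF, sqz, if_pos hk]; ring
  · simp only [prj, sqz, if_neg hk, qq, mul_zero, zero_add]
    rw [clamp_of_abs_le (by rw [abs_zero]; exact thc_nonneg _ _), mul_zero]

theorem nJ_colli (hρ : 0 < ρ) (hρ1 : ρ ≤ 1) (ha : 0 ≤ a y) :
    nJ J c (colliF J c a ρ y) = nuc ρ (a y) (nJ J c y) := by
  obtain ⟨h1, h2⟩ := lam_nuc hρ hρ1 ha (nJ_nonneg (J := J) (c := c) (y := y))
  set N := nJ J c y with hN
  set n := nuc ρ (a y) N with hn
  rw [nJ, prj_colli, norm_sqz (inv_pos.2 hρ) fun _ => thc_nonneg _ _, lam]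
  have h3 : thc (a y) n ≤ n := thc_le h1
  have h4 : thc (a y) n ≤ N := by nlinarith [thc_nonneg (a y) n]
  have e : ‖prj J c y‖ = N := rfl
  rw [← hN, ← hn, e, min_eq_right h4]
  have h5 : ρ⁻¹ * ρ = 1 := inv_mul_cancel₀ hρ.ne'
  linear_combination (-ρ⁻¹) * h2 + (n - thc (a y) n) * h5

/-- hypotheses on the width -/
structure Width (J : Finset (Fin 3)) (a : V → ℝ) : Prop where
  nonneg : ∀ y, 0 ≤ a y
  indep : ∀ y y' : V, (∀ k, k ∉ J → y k = y' k) → a y = a y'
  cont : Continuous a
  conical : ConicalOn a univ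

theorem collF_off {k : Fin 3} (hk : k ∉ J) : collF J c a ρ y k = y k := by
  rw [collF, if_neg hk]

theorem colliF_off {k : Fin 3} (hk : k ∉ J) : colliF J c a ρ y k = y k := by
  rw [colliF, if_neg hk]

theorem colli_coll (hρ : 0 < ρ) (hρ1 : ρ ≤ 1) (ha : Width J a) :
    colliF J c a ρ (collF J c a ρ y) = y := by
  have e1 : a (collF J c a ρ y) = a y := ha.indep _ _ fun k hk => collF_off hk
  funext k
  by_cases hk : k ∈ J
  · rw [colliF, if_pos hk, e1, nJ_coll hρ, nuc_lam hρ hρ1 nJ_nonneg]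
    have e2 : collF J c a ρ y k - c k = qq ρ (thc (a y) (nJ J c y)) (y k - c k) := by
      rw [collF, if_pos hk]; ring
    rw [e2]
    set t := y k - c k with ht
    set θ := thc (a y) (nJ J c y)
    have e3 := clamp_qq (t := t) hρ (thc_nonneg (a y) (nJ J c y))
    rw [qq, e3, qq]
    have h5 : ρ⁻¹ * ρ = 1 := inv_mul_cancel₀ hρ.ne'
    have e4 : y k = c k + t := by rw [ht]; ring
    rw [e4]
    linear_combination (t - clamp θ t) * h5
  · rw [colliF_off hk, collF_off hk]

theorem coll_colli (hρ : 0 < ρ) (hρ1 : ρ ≤ 1) (ha : Width J a) :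
    collF J c a ρ (colliF J c a ρ y) = y := by
  have e1 : a (colliF J c a ρ y) = a y := ha.indep _ _ fun k hk => colliF_off hk
  funext k
  by_cases hk : k ∈ J
  · rw [collF, if_pos hk, e1, nJ_colli hρ hρ1 (ha.nonneg y)]
    have e2 : colliF J c a ρ y k - c k =
        qq ρ⁻¹ (thc (a y) (nuc ρ (a y) (nJ J c y))) (y k - c k) := by
      rw [colliF, if_pos hk]; ring
    rw [e2]
    set t := y k - c k with ht
    set θ := thc (a y) (nuc ρ (a y) (nJ J c y))
    have e3 := clamp_qq (t := t) (inv_pos.2 hρ)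
      (thc_nonneg (a y) (nuc ρ (a y) (nJ J c y)))
    rw [qq, e3, qq]
    have h5 : ρ * ρ⁻¹ = 1 := mul_inv_cancel₀ hρ.ne'
    have e4 : y k = c k + t := by rw [ht]; ring
    rw [e4]
    linear_combination (t - clamp θ t) * h5
  · rw [collF_off hk, colliF_off hk]

/-! ### conicality -/

theorem conical_nJ (J : Finset (Fin 3)) (c : V) :
    ConicalOn (fun y : V => nJ J c y) univ ∧ Continuous (fun y : V => nJ J c y) := by
  have hS : ConicalSet (univ : Set V) := IsOpen.conicalSet isOpen_univ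
  have key : ∀ k : Fin 3, ConicalOn (fun y : V => prj J c y k) univ ∧
      Continuous (fun y : V => prj J c y k) := by
    intro k
    by_cases hk : k ∈ J
    · have e : (fun y : V => prj J c y k) = fun y : V => y k + (- c k) := by
        funext y; rw [prj, if_pos hk]; ring
      rw [e]
      exact ⟨(conicalOn_coord k).add (conicalOn_const _ hS), by fun_prop⟩
    · have e : (fun y : V => prj J c y k) = fun y : V => (0:ℝ) := by
        funext y; rw [prj, if_neg hk]
      rw [e]
      exact ⟨conicalOn_const _ hS, by fun_prop⟩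
  have hc : Continuous (prj J c) := continuous_pi fun k => (key k).2
  have h1 : ConicalOn (prj J c) univ :=
    fun x hx => conicalWithinAt_pi (hS x hx) fun k => (key k).1 x hx
  exact ⟨conicalOn_norm.comp h1 (mapsTo_univ _ _) hc.continuousOn, hc.norm⟩

theorem conical_affcomp {f : V → ℝ} (hf : ConicalOn f univ) (a b : ℝ) :
    ConicalOn (fun y => a * f y + b) univ :=
  (hf.const_smul a).add (conicalOn_const b (IsOpen.conicalSet isOpen_univ))

theorem conical_thc {f g : V → ℝ} (hf : ConicalOn f univ) (hg : ConicalOn g univ)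
    (cf : Continuous f) (cg : Continuous g) :
    ConicalOn (fun y => thc (f y) (g y)) univ ∧ Continuous (fun y => thc (f y) (g y)) := by
  have hS : ConicalSet (univ : Set V) := IsOpen.conicalSet isOpen_univ
  have h1 : ConicalOn (fun y => 2 * (g y - f y)) univ :=
    ((hg.const_smul 2).add (hf.const_smul (-2))).congr fun x _ => by
      simp only [smul_eq_mul]; ring
  have c1 : Continuous fun y => 2 * (g y - f y) := by fun_prop
  have h2 : ConicalOn (fun y => min (2 * (g y - f y)) (g y)) univ :=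
    h1.rmin hg c1.continuousOn cg.continuousOn
  have c2 : Continuous fun y => min (2 * (g y - f y)) (g y) := c1.min cg
  exact ⟨(conicalOn_const (0:ℝ) hS).rmax h2 continuousOn_const c2.continuousOn,
    continuous_const.max c2⟩

theorem conical_nuc (ρ : ℝ) {f g : V → ℝ} (hf : ConicalOn f univ) (hg : ConicalOn g univ)
    (cf : Continuous f) (cg : Continuous g) :
    ConicalOn (fun y => nuc ρ (f y) (g y)) univ ∧ Continuous (fun y => nuc ρ (f y) (g y)) := by
  have h1 : ConicalOn (fun y => ρ⁻¹ * g y) univ := hg.const_smul ρ⁻¹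
  have c1 : Continuous fun y => ρ⁻¹ * g y := by fun_prop
  have h2 : ConicalOn (fun y => (2 - ρ)⁻¹ * (g y + 2 * (1 - ρ) * f y)) univ :=
    ((hg.add (hf.const_smul (2 * (1 - ρ)))).const_smul ((2 - ρ)⁻¹)).congr fun x _ => by
      simp only [smul_eq_mul]
  have c2 : Continuous fun y => (2 - ρ)⁻¹ * (g y + 2 * (1 - ρ) * f y) := by fun_prop
  exact ⟨h1.rmin (h2.rmax hg c2.continuousOn cg.continuousOn) c1.continuousOn
    (c2.max cg).continuousOn, c1.min (c2.max cg)⟩

theorem conical_qq (κ : ℝ) {f g : V → ℝ} (hf : ConicalOn f univ) (hg : ConicalOn g univ)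
    (cf : Continuous f) (cg : Continuous g) :
    ConicalOn (fun y => qq κ (f y) (g y)) univ ∧ Continuous (fun y => qq κ (f y) (g y)) := by
  have c2 : Continuous fun x : V => min (g x) (f x) := cg.min cf
  have c3 : Continuous fun x : V => clamp (f x) (g x) := cf.neg.max c2
  have h2 : ConicalOn (fun x : V => min (g x) (f x)) univ :=
    hg.rmin hf cg.continuousOn cf.continuousOn
  have h3 : ConicalOn (fun x : V => clamp (f x) (g x)) univ :=
    hf.neg.rmax h2 cf.neg.continuousOn c2.continuousOn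
  exact ⟨(hg.const_smul κ).add (h3.const_smul (1 - κ)),
    (continuous_const.mul cg).add (continuous_const.mul c3)⟩

theorem conical_sub_const (k : Fin 3) (c : ℝ) : ConicalOn (fun y : V => y k - c) univ :=
  ((conicalOn_coord k).add (conicalOn_const (-c) (IsOpen.conicalSet isOpen_univ))).congr
    fun x _ => by ring

theorem conical_collAux (J : Finset (Fin 3)) (c : V) (κ : ℝ) {f : V → ℝ} (hf : ConicalOn f univ)
    (cf : Continuous f) :
    ConicalOn (fun y : V => (fun k => if k ∈ J then c k + qq κ (f y) (y k - c k) else y k : V))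
      univ ∧
    Continuous (fun y : V => (fun k => if k ∈ J then c k + qq κ (f y) (y k - c k) else y k : V)) := by
  have hS : ConicalSet (univ : Set V) := IsOpen.conicalSet isOpen_univ
  have key : ∀ k : Fin 3,
      ConicalOn (fun y : V => if k ∈ J then c k + qq κ (f y) (y k - c k) else y k) univ ∧
      Continuous (fun y : V => if k ∈ J then c k + qq κ (f y) (y k - c k) else y k) := by
    intro k
    by_cases hk : k ∈ J
    · simp only [if_pos hk]
      have h := conical_qq κ hf (conical_sub_const k (c k)) cf (by fun_prop)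
      exact ⟨(conicalOn_const (c k) hS).add h.1, continuous_const.add h.2⟩
    · simp only [if_neg hk]
      exact ⟨conicalOn_coord k, continuous_apply k⟩
  exact ⟨fun x hx => conicalWithinAt_pi (hS x hx) fun k => (key k).1 x hx,
    continuous_pi fun k => (key k).2⟩

/-- the collapse as a conical homeomorphism -/
noncomputable def coll (J : Finset (Fin 3)) (c : V) (a : V → ℝ) (ρ : ℝ) (hρ : 0 < ρ) (hρ1 : ρ ≤ 1)
    (ha : Width J a) : ConHomeo (univ : Set V) (univ : Set V) where
  toFun := collF J c a ρ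
  invFun := colliF J c a ρ
  mapsTo := mapsTo_univ _ _
  mapsTo_inv := mapsTo_univ _ _
  left_inv := fun _ _ => colli_coll hρ hρ1 ha
  right_inv := fun _ _ => coll_colli hρ hρ1 ha
  cont := by
    have h := conical_nJ J c
    have h1 := conical_thc ha.conical h.1 ha.cont h.2
    exact (conical_collAux J c ρ h1.1 h1.2).2.continuousOn
  cont_inv := by
    have h := conical_nJ J c
    have h0 := conical_nuc ρ ha.conical h.1 ha.cont h.2
    have h1 := conical_thc ha.conical h0.1 ha.cont h0.2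
    exact (conical_collAux J c ρ⁻¹ h1.1 h1.2).2.continuousOn
  conical := by
    have h := conical_nJ J c
    have h1 := conical_thc ha.conical h.1 ha.cont h.2
    exact (conical_collAux J c ρ h1.1 h1.2).1

/-! ### values -/

theorem collF_of_le (h : nJ J c y ≤ a y) {k : Fin 3} (hk : k ∈ J) :
    collF J c a ρ y k = c k + ρ * (y k - c k) := by
  rw [collF, if_pos hk, thc_of_le h, qq, clamp_zero]; ring

theorem collF_of_ge (h : 2 * a y ≤ nJ J c y) : collF J c a ρ y = y := by
  funext k
  by_cases hk : k ∈ J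
  · rw [collF, if_pos hk, thc_of_ge nJ_nonneg h, qq, clamp_of_abs_le (abs_le_nJ hk)]; ring
  · exact collF_off hk

/-- the sign is kept and the coordinate decreases -/
theorem abs_collF_sub_le (hρ : 0 < ρ) (hρ1 : ρ ≤ 1) {k : Fin 3} (hk : k ∈ J) :
    |collF J c a ρ y k - c k| ≤ |y k - c k| ∧ 0 ≤ (collF J c a ρ y k - c k) * (y k - c k) := by
  have e : collF J c a ρ y k - c k = qq ρ (thc (a y) (nJ J c y)) (y k - c k) := by
    rw [collF, if_pos hk]; ring
  rw [e]
  set t := y k - c k
  set θ := thc (a y) (nJ J c y) with hθ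
  have h0 : 0 ≤ θ := thc_nonneg _ _
  constructor
  · rw [abs_qq hρ h0]
    have := min_le_left |t| θ
    nlinarith [abs_nonneg t]
  · rw [qq]
    have h1 : 0 ≤ clamp θ t * t := by
      rcases le_total |t| θ with h | h
      · rw [clamp_of_abs_le h]; exact mul_self_nonneg t
      · rcases le_total 0 t with ht | ht
        · rw [abs_of_nonneg ht] at h
          rw [clamp_of_le h0 h]; positivity
        · rw [abs_of_nonpos ht] at h
          rw [clamp_of_le_neg h0 (by linarith)]; nlinarith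
    nlinarith [mul_self_nonneg t]

theorem nJ_collF_le (hρ : 0 < ρ) (hρ1 : ρ ≤ 1) : nJ J c (collF J c a ρ y) ≤ nJ J c y :=
  (nJ_le_iff nJ_nonneg).2 fun _ hk => (abs_collF_sub_le hρ hρ1 hk).1.trans (abs_le_nJ hk)

theorem abs_clamp_sub_le (r s t u : ℝ) : |clamp r t - clamp s u| ≤ max |r - s| |t - u| := by
  unfold clamp
  refine (abs_max_sub_max_le_max _ _ _ _).trans (max_le ?_ ?_)
  · have e : -r - -s = -(r - s) := by ring
    rw [e, abs_neg]; exact le_max_left _ _
  · refine (abs_min_sub_min_le_max _ _ _ _).trans (max_le (le_max_right _ _) (le_max_left _ _))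

/-- the Lipschitz estimate -/
theorem collF_sub_le (hρ : 0 < ρ) (hρ1 : ρ ≤ 1) {L : ℝ} (hL : 0 ≤ L)
    (hl : |a y - a y'| ≤ L * ‖y - y'‖) :
    ‖collF J c a ρ y - collF J c a ρ y'‖ ≤ 2 * (1 + L) * ‖y - y'‖ := by
  refine (pi_norm_le_iff_of_nonneg (by positivity)).2 fun k => ?_
  have hk0 := norm_le_pi_norm (y - y') k
  rw [Pi.sub_apply, Real.norm_eq_abs] at hk0 ⊢
  have h0 := norm_nonneg (y - y')
  by_cases hk : k ∈ J
  · have e : collF J c a ρ y k - collF J c a ρ y' k = ρ * (y k - y' k) +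
        (1 - ρ) * (clamp (thc (a y) (nJ J c y)) (y k - c k) -
          clamp (thc (a y') (nJ J c y')) (y' k - c k)) := by
      simp only [collF, if_pos hk, qq]; ring
    rw [e]
    have h1 := abs_clamp_sub_le (thc (a y) (nJ J c y)) (thc (a y') (nJ J c y')) (y k - c k)
      (y' k - c k)
    have e2 : y k - c k - (y' k - c k) = y k - y' k := by ring
    rw [e2] at h1
    have h2 := abs_thc_sub_le (a := a y) (b := a y') (n := nJ J c y) (m := nJ J c y')
    have h3 := (nJ_sub_le (J := J) (c := c) (y := y) (y' := y')).trans nJ_le_norm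
    have h4 : |clamp (thc (a y) (nJ J c y)) (y k - c k) -
        clamp (thc (a y') (nJ J c y')) (y' k - c k)| ≤ 2 * (1 + L) * ‖y - y'‖ := by
      refine h1.trans (max_le (by nlinarith) ?_)
      nlinarith
    refine (abs_add_le _ _).trans ?_
    rw [abs_mul, abs_mul, abs_of_pos hρ, abs_of_nonneg (by linarith : 0 ≤ 1 - ρ)]
    have h5 : |y k - y' k| ≤ 2 * (1 + L) * ‖y - y'‖ := by nlinarith
    have h6 := mul_le_mul_of_nonneg_left h5 hρ.le
    have h7 := mul_le_mul_of_nonneg_left h4 (by linarith : 0 ≤ 1 - ρ)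
    linarith
  · rw [collF_off hk, collF_off hk]
    nlinarith

/-- the Lipschitz estimate in the zone -/
theorem collF_zone (hρ : 0 < ρ) (h : nJ J c y ≤ a y) (h' : nJ J c y' ≤ a y') (k : Fin 3) :
    |collF J c a ρ y k - collF J c a ρ y' k| = if k ∈ J then ρ * |y k - y' k| else |y k - y' k| := by
  by_cases hk : k ∈ J
  · rw [if_pos hk, collF_of_le h hk, collF_of_le h' hk]
    have e : c k + ρ * (y k - c k) - (c k + ρ * (y' k - c k)) = ρ * (y k - y' k) := by ring
    rw [e, abs_mul, abs_of_pos hρ]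
  · rw [if_neg hk, collF_off hk, collF_off hk]

end Vale.Agent.P073.H471
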