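import Vale.Agent.P073.Net.Maps

/-!
# P073, block FF: the doubling map of a cube and the piecewise linear radial expansion

`dbl κ` is a conical homeomorphism of the space: the identity off the unit cube, multiplication by
`2 - 2κ` on the half cube, and the shell between them goes to a thin shell.  `ff κ m` iterates it:
the cube of radius `2^{-m}` is expanded to the cube of radius `(1-κ)^m`, and the local Lipschitz
constant at `y` is at most `4 / ‖y‖`, uniformly in `m` and `κ`.
-/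

open Set Metric Topology Filter

namespace Vale.Agent.P073.H471

open _root_.P073 _root_.P073.Net
open Vale.Agent.P073.St (V)

/-- profile of the doubling map -/
noncomputable def th (l : ℝ) : ℝ := max 0 (2 * l - 1)

/-- the inverse of the action on norms -/
noncomputable def nu (κ t : ℝ) : ℝ :=
  max ((2 - 2 * κ)⁻¹ * t) (min ((2 * κ)⁻¹ * (t - (1 - 2 * κ))) t)

/-- profile of the inverse of the doubling map -/
noncomputable def thi (κ t : ℝ) : ℝ := max 0 (2 * nu κ t - 1)

theorem th_nonneg (l : ℝ) : 0 ≤ th l := le_max_left _ _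

theorem thi_nonneg (κ l : ℝ) : 0 ≤ thi κ l := le_max_left _ _

theorem th_of_le {l : ℝ} (h : l ≤ 1 / 2) : th l = 0 := by
  rw [th, max_eq_left (by linarith)]

theorem th_of_ge {l : ℝ} (h : 1 / 2 ≤ l) : th l = 2 * l - 1 := by
  rw [th, max_eq_right (by linarith)]

/-- small, middle and large values of `nu` -/
theorem nu_small {κ t : ℝ} (hκ : 0 < κ) (hκ1 : κ < 1 / 2) (h : t ≤ 1 - κ) :
    nu κ t = (2 - 2 * κ)⁻¹ * t := by
  rw [nu, max_eq_left]
  have h2 : (0:ℝ) < 2 - 2 * κ := by linarith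
  refine (min_le_left _ _).trans ?_
  rw [inv_mul_le_iff₀ (by linarith), ← mul_assoc, mul_comm (2 * κ), mul_assoc,
    inv_mul_eq_div, le_div_iff₀ h2]
  nlinarith

theorem nu_mid {κ t : ℝ} (hκ : 0 < κ) (hκ1 : κ < 1 / 2) (h : 1 - κ ≤ t) (h' : t ≤ 1) :
    nu κ t = (2 * κ)⁻¹ * (t - (1 - 2 * κ)) := by
  have h2 : (0:ℝ) < 2 - 2 * κ := by linarith
  have e : min ((2 * κ)⁻¹ * (t - (1 - 2 * κ))) t = (2 * κ)⁻¹ * (t - (1 - 2 * κ)) := by
    rw [min_eq_left]
    rw [inv_mul_le_iff₀ (by linarith)]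
    nlinarith
  rw [nu, e, max_eq_right]
  rw [inv_mul_le_iff₀ h2, ← mul_assoc, mul_comm (2 - 2 * κ), mul_assoc, inv_mul_eq_div,
    le_div_iff₀ (by linarith)]
  nlinarith

theorem nu_large {κ t : ℝ} (hκ : 0 < κ) (hκ1 : κ < 1 / 2) (h : 1 ≤ t) : nu κ t = t := by
  have h2 : (0:ℝ) < 2 - 2 * κ := by linarith
  have e : min ((2 * κ)⁻¹ * (t - (1 - 2 * κ))) t = t := by
    rw [min_eq_right]
    rw [inv_mul_eq_div, le_div_iff₀ (by linarith)]
    nlinarith
  rw [nu, e, max_eq_right]
  rw [inv_mul_le_iff₀ h2]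
  nlinarith

/-- the action of the doubling map on norms -/
theorem lam_small {κ l : ℝ} (hl : 0 ≤ l) (h : l ≤ 1 / 2) :
    lam (2 - 2 * κ) th l = (2 - 2 * κ) * l := by
  rw [lam, th_of_le h, min_eq_right hl]; ring

theorem lam_mid {κ l : ℝ} (h : 1 / 2 ≤ l) (h' : l ≤ 1) :
    lam (2 - 2 * κ) th l = 1 - 2 * κ + 2 * κ * l := by
  rw [lam, th_of_ge h, min_eq_right (by linarith)]; ring

theorem lam_large {κ l : ℝ} (h : 1 ≤ l) : lam (2 - 2 * κ) th l = l := by
  rw [lam, th_of_ge (by linarith), min_eq_left (by linarith)]; ring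

theorem prof_th {κ : ℝ} (hκ : 0 < κ) (hκ1 : κ < 1 / 2) : Prof (2 - 2 * κ) th (thi κ) := by
  have h2 : (0:ℝ) < 2 - 2 * κ := by linarith
  intro l hl
  rcases le_total l (1 / 2) with h | h
  · left
    refine ⟨by rw [th_of_le h]; exact hl, ?_⟩
    rw [lam_small hl h, thi, nu_small hκ hκ1 (by nlinarith), inv_mul_cancel_left₀ h2.ne', th]
  rcases le_total l 1 with h' | h'
  · left
    refine ⟨by rw [th_of_ge h]; linarith, ?_⟩
    rw [lam_mid h h', thi, nu_mid hκ hκ1 (by nlinarith) (by nlinarith), th]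
    congr 1
    field_simp
    ring
  · right
    refine ⟨by rw [th_of_ge h]; linarith, ?_⟩
    rw [thi, nu_large hκ hκ1 h']
    exact le_max_of_le_right (by linarith)

theorem prof_thi {κ : ℝ} (hκ : 0 < κ) (hκ1 : κ < 1 / 2) : Prof (2 - 2 * κ)⁻¹ (thi κ) th := by
  have h2 : (0:ℝ) < 2 - 2 * κ := by linarith
  intro l hl
  rcases le_total l (1 - κ) with h | h
  · have e1 : nu κ l ≤ 1 / 2 := by
      rw [nu_small hκ hκ1 h, inv_mul_le_iff₀ h2]; nlinarith
    have e0 : thi κ l = 0 := by rw [thi, max_eq_left (by linarith)]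
    left
    refine ⟨by rw [e0]; exact hl, ?_⟩
    rw [lam, e0, min_eq_right hl, mul_zero, add_zero, th_of_le]
    rw [← nu_small hκ hκ1 h]; exact e1
  rcases le_total l 1 with h' | h'
  · have e1 : 1 / 2 ≤ nu κ l := by
      rw [nu_mid hκ hκ1 h h', inv_mul_eq_div, le_div_iff₀ (by linarith)]; nlinarith
    have e0 : thi κ l = 2 * nu κ l - 1 := by rw [thi, max_eq_right (by linarith)]
    have e2 : 2 * nu κ l - 1 ≤ l := by
      have : nu κ l ≤ (l + 1) / 2 := by
        rw [nu_mid hκ hκ1 h h', inv_mul_le_iff₀ (by linarith)]; nlinarith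
      linarith
    have e3 : l = 2 * κ * nu κ l + (1 - 2 * κ) := by
      rw [nu_mid hκ hκ1 h h', mul_inv_cancel_left₀ (by positivity)]; ring
    left
    refine ⟨by rw [e0]; exact e2, ?_⟩
    have e4 : lam (2 - 2 * κ)⁻¹ (thi κ) l = nu κ l := by
      rw [lam, e0, min_eq_right e2]
      have : (2 - 2 * κ)⁻¹ * l + (1 - (2 - 2 * κ)⁻¹) * (2 * nu κ l - 1) =
          (2 - 2 * κ)⁻¹ * (l + (1 - 2 * κ) * (2 * nu κ l - 1)) := by
        have hA : (2 - 2 * κ)⁻¹ * (2 - 2 * κ) = 1 := inv_mul_cancel₀ h2.ne'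
        linear_combination (-(2 * nu κ l - 1)) * hA
      rw [this, inv_mul_eq_iff_eq_mul₀ h2.ne']
      linear_combination e3
    rw [e4, e0, th_of_ge e1]
  · right
    rw [thi, nu_large hκ hκ1 h']
    refine ⟨le_max_of_le_right (by linarith), ?_⟩
    rw [th_of_ge (by linarith)]; linarith

theorem continuous_th : Continuous th := by unfold th; fun_prop

theorem continuous_nu (κ : ℝ) : Continuous (nu κ) := by unfold nu; fun_prop

theorem continuous_thi (κ : ℝ) : Continuous (thi κ) := by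
  have := continuous_nu κ
  unfold thi; fun_prop

theorem conicalOn_aff (a b : ℝ) : ConicalOn (fun x : ℝ => a * x + b) univ := by
  have hS : ConicalSet (univ : Set ℝ) := IsOpen.conicalSet isOpen_univ
  exact ((conicalOn_id hS).const_smul a).add (conicalOn_const b hS)

theorem conicalOn_th : ConicalOn th univ := by
  have hS : ConicalSet (univ : Set ℝ) := IsOpen.conicalSet isOpen_univ
  refine ((conicalOn_const (0:ℝ) hS).rmax (conicalOn_aff 2 (-1)) (by fun_prop)
    (by fun_prop)).congr fun x _ => ?_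
  rw [th]; rfl

theorem conicalOn_nu (κ : ℝ) : ConicalOn (nu κ) univ := by
  have h1 : ConicalOn (fun t : ℝ => (2 - 2 * κ)⁻¹ * t) univ :=
    (conicalOn_aff (2 - 2 * κ)⁻¹ 0).congr fun x _ => by ring
  have h2 : ConicalOn (fun t : ℝ => (2 * κ)⁻¹ * (t - (1 - 2 * κ))) univ :=
    (conicalOn_aff (2 * κ)⁻¹ (-((2 * κ)⁻¹ * (1 - 2 * κ)))).congr fun x _ => by ring
  have h3 : ConicalOn (fun t : ℝ => t) univ := conicalOn_id (IsOpen.conicalSet isOpen_univ)
  exact h1.rmax (h2.rmin h3 (by fun_prop) (by fun_prop)) (by fun_prop) (by fun_prop)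

theorem conicalOn_thi (κ : ℝ) : ConicalOn (thi κ) univ := by
  have hS : ConicalSet (univ : Set ℝ) := IsOpen.conicalSet isOpen_univ
  have hc := continuous_nu κ
  have h1 : ConicalOn (fun t : ℝ => 2 * nu κ t - 1) univ :=
    (((conicalOn_nu κ).const_smul 2).add (conicalOn_const (-1 : ℝ) hS)).congr fun x _ => by
      simp only [smul_eq_mul]; ring
  exact (conicalOn_const (0:ℝ) hS).rmax h1 (by fun_prop) (by fun_prop)

/-- the doubling map -/
noncomputable def dbl (κ : ℝ) (hκ : 0 < κ) (hκ1 : κ < 1 / 2) :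
    ConHomeo (univ : Set V) (univ : Set V) :=
  sqzHomeo (2 - 2 * κ) th (thi κ) (by linarith) th_nonneg (thi_nonneg κ) (prof_th hκ hκ1)
    (prof_thi hκ hκ1) continuous_th (continuous_thi κ) conicalOn_th (conicalOn_thi κ)

variable {κ : ℝ} {hκ : 0 < κ} {hκ1 : κ < 1 / 2}

theorem dbl_apply (y : V) (k : Fin 3) :
    (dbl κ hκ hκ1).toFun y k = (2 - 2 * κ) * y k + (1 - (2 - 2 * κ)) * clamp (th ‖y‖) (y k) := rfl

theorem dbl_of_le {y : V} (h : ‖y‖ ≤ 1 / 2) : (dbl κ hκ hκ1).toFun y = (2 - 2 * κ) • y := by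
  funext k
  rw [dbl_apply, th_of_le h, clamp_zero, Pi.smul_apply, smul_eq_mul]; ring

theorem dbl_of_ge {y : V} (h : 1 ≤ ‖y‖) : (dbl κ hκ hκ1).toFun y = y := by
  funext k
  have h1 : |y k| ≤ th ‖y‖ := by
    rw [th_of_ge (by linarith)]
    have := norm_le_pi_norm y k
    rw [Real.norm_eq_abs] at this
    linarith
  rw [dbl_apply, clamp_of_abs_le h1]; ring

theorem norm_dbl (y : V) : ‖(dbl κ hκ hκ1).toFun y‖ = lam (2 - 2 * κ) th ‖y‖ :=
  norm_sqz (by linarith) th_nonneg y

theorem norm_dbl_le {y : V} (h : ‖y‖ ≤ 1) : ‖(dbl κ hκ hκ1).toFun y‖ ≤ 1 := by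
  rw [norm_dbl]
  rcases le_total ‖y‖ (1 / 2) with h1 | h1
  · rw [lam_small (norm_nonneg _) h1]; nlinarith [norm_nonneg y]
  · rw [lam_mid h1 h]; nlinarith

theorem abs_clamp_sub (r r' t t' : ℝ) : |clamp r t - clamp r' t'| ≤ |r - r'| + |t - t'| := by
  unfold clamp
  calc |max (-r) (min t r) - max (-r') (min t' r')|
      ≤ max |-r - -r'| |min t r - min t' r'| := abs_max_sub_max_le_max _ _ _ _
    _ ≤ max |r - r'| (max |t - t'| |r - r'|) := by
        refine max_le_max ?_ (abs_min_sub_min_le_max _ _ _ _)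
        rw [neg_sub_neg, abs_sub_comm]
    _ ≤ |r - r'| + |t - t'| := by
        have := abs_nonneg (r - r')
        have := abs_nonneg (t - t')
        refine max_le (by linarith) (max_le (by linarith) (by linarith))

theorem abs_th_sub (l l' : ℝ) : |th l - th l'| ≤ 2 * |l - l'| := by
  unfold th
  calc |max 0 (2 * l - 1) - max 0 (2 * l' - 1)| ≤ max |(0:ℝ) - 0| |2 * l - 1 - (2 * l' - 1)| :=
        abs_max_sub_max_le_max _ _ _ _
    _ ≤ 2 * |l - l'| := by
        refine max_le (by simp) ?_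
        rw [show 2 * l - 1 - (2 * l' - 1) = 2 * (l - l') by ring, abs_mul]
        simp

/-- the doubling map is `4`-Lipschitz -/
theorem dbl_sub_le (y z : V) :
    ‖(dbl κ hκ hκ1).toFun y - (dbl κ hκ hκ1).toFun z‖ ≤ 4 * ‖y - z‖ := by
  rw [pi_norm_le_iff_of_nonneg (by positivity)]
  intro k
  rw [Pi.sub_apply, dbl_apply, dbl_apply, Real.norm_eq_abs]
  have hyz : |y k - z k| ≤ ‖y - z‖ := by
    have := norm_le_pi_norm (y - z) k
    rwa [Pi.sub_apply, Real.norm_eq_abs] at this
  -- soft threshold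
  set a := th ‖y‖ with ha
  set b := th ‖z‖ with hb
  have hab : |a - b| ≤ 2 * ‖y - z‖ := by
    refine (abs_th_sub _ _).trans ?_
    have := abs_norm_sub_norm_le y z
    linarith
  -- `|soft a u - soft b v| ≤ |u - v| + |a - b|`
  have hsoft : |(y k - clamp a (y k)) - (z k - clamp b (z k))| ≤ |y k - z k| + |a - b| := by
    have h1 : |(y k - clamp a (y k)) - (z k - clamp a (z k))| ≤ |y k - z k| := by
      have ha0 : 0 ≤ a := th_nonneg _
      have mono : ∀ s t : ℝ, s ≤ t → clamp a s ≤ clamp a t ∧ clamp a t - clamp a s ≤ t - s := by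
        intro s t hst
        refine ⟨max_le_max le_rfl (min_le_min hst le_rfl), ?_⟩
        have := abs_clamp_sub a a t s
        rw [sub_self, abs_zero, zero_add, abs_of_nonneg (sub_nonneg.2 hst)] at this
        exact (le_abs_self _).trans this
      rcases le_total (y k) (z k) with h | h
      · obtain ⟨m1, m2⟩ := mono _ _ h
        rw [abs_of_nonpos (by linarith), abs_of_nonpos (by linarith)]; linarith
      · obtain ⟨m1, m2⟩ := mono _ _ h
        rw [abs_of_nonneg (by linarith), abs_of_nonneg (by linarith)]; linarith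
    have h2 : |(z k - clamp a (z k)) - (z k - clamp b (z k))| ≤ |a - b| := by
      have := abs_clamp_sub b a (z k) (z k)
      rw [sub_self, abs_zero, add_zero] at this
      calc |(z k - clamp a (z k)) - (z k - clamp b (z k))| = |clamp b (z k) - clamp a (z k)| := by
            congr 1; ring
        _ ≤ |b - a| := this
        _ = |a - b| := abs_sub_comm _ _
    calc _ = |((y k - clamp a (y k)) - (z k - clamp a (z k))) +
          ((z k - clamp a (z k)) - (z k - clamp b (z k)))| := by congr 1; ring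
      _ ≤ _ := (abs_add_le _ _).trans (add_le_add h1 h2)
  have e : (2 - 2 * κ) * y k + (1 - (2 - 2 * κ)) * clamp a (y k) -
      ((2 - 2 * κ) * z k + (1 - (2 - 2 * κ)) * clamp b (z k)) =
      (y k - z k) + (1 - 2 * κ) * ((y k - clamp a (y k)) - (z k - clamp b (z k))) := by ring
  rw [e]
  calc |(y k - z k) + (1 - 2 * κ) * ((y k - clamp a (y k)) - (z k - clamp b (z k)))|
      ≤ |y k - z k| + |(1 - 2 * κ) * ((y k - clamp a (y k)) - (z k - clamp b (z k)))| :=
        abs_add_le _ _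
    _ ≤ ‖y - z‖ + 1 * (‖y - z‖ + 2 * ‖y - z‖) := by
        rw [abs_mul, abs_of_nonneg (by linarith : (0:ℝ) ≤ 1 - 2 * κ)]
        gcongr
        · linarith
        · exact hsoft.trans (add_le_add hyz hab)
    _ = 4 * ‖y - z‖ := by ring

end Vale.Agent.P073.H471
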