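import Vale.Agent.P073.H471.TileSt
import Vale.Agent.P073.H239.Sharp

/-!
# P073, block [K2A ⇐ K2C]: the sharp clauses and the radial expansions

Near the boundaries of the tiles the expansion `T` does not change the tangential coordinates, and
decreases the distance to the plates and edges of the grid.
-/

open Set Metric Topology Filter
open scoped ENNReal

namespace Vale.Agent.P073.H471

open _root_.P073 _root_.P073.Net
open Vale.Agent.P073.St (V)
open Vale.Agent.P073.H73 Vale.Agent.P073.H239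

variable {Ω Λ : Set V} {ρ : V → ℝ} {w : V} {c : TI ρ w → V} {T : ConHomeo Λ Λ}
  {A : Finset (Fin 3)} {m : ℕ} {z : Fin 3 → ℤ} {B : Set V} {t δ : ℝ}
  {J₀ : Set (ℕ × (Fin 3 → ℤ))}

/-- the expansion at the points close to a plate or an edge of the grid -/
theorem IsExp.deep_point (H : IsExp (zt ρ w) c (st ρ w) T) (W : Cubes Λ (zt ρ w) (st ρ w))
    (hA : A ≠ Finset.univ) (hδ : 0 ≤ δ) (hδ1 : δ ≤ 1 / 16) (hδt : 2 * δ ≤ t)
    (hD : Deep t δ w ρ J₀ A m z B) {y : V} (hy : y ∈ B) :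
    (∀ j ∈ A, T.toFun y j = y j) ∧
      ∀ j ∉ A, |T.toFun y j - (w j + z j / 2 ^ m)| ≤ |y j - (w j + z j / 2 ^ m)| := by
  classical
  have hm : (0:ℝ) < 2 ^ m := by positivity
  set s : ℝ := 1 / 2 ^ m with hs
  have hs0 : 0 < s := by positivity
  have hdiv : ∀ x : ℝ, x / 2 ^ m = x * s := fun x => by rw [hs]; ring
  have hnear := hD.near y hy
  have hmid := hD.mid y hy
  simp only [hdiv] at hnear hmid ⊢
  set z' : Fin 3 → ℤ := fun j => if j ∈ A then z j else if w j + z j * s ≤ y j then z j else z j - 1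
    with hz'
  have z1 : ∀ j ∈ A, z' j = z j := fun j hj => by simp [hz', hj]
  have z2 : ∀ j ∉ A, w j + z j * s ≤ y j → z' j = z j := fun j hj h => by simp [hz', hj, h]
  have z3 : ∀ j ∉ A, ¬ w j + z j * s ≤ y j → z' j = z j - 1 := fun j hj h => by
    simp [hz', hj, h]
  have htile : IsTile ρ w m z' := by
    refine hD.tile z' fun j => ?_
    by_cases hj : j ∈ A
    · rw [z1 j hj]; constructor <;> linarith
    · by_cases h : w j + z j * s ≤ y j
      · rw [z2 j hj h]; constructor <;> linarith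
      · rw [z3 j hj h]; constructor <;> linarith
  set i : TI ρ w := ⟨(m, z'), htile⟩ with hi
  have hst : st ρ w i = s / 2 := by rw [st, hs]; ring
  have hzt : ∀ j, zt ρ w i j = w j + (z' j + 1 / 2) * s := fun j => by
    rw [zt, H73.ctr, hdiv]
  -- the coordinates
  have a1 : ∀ j ∈ A, |y j - zt ρ w i j| ≤ (1 - 2 * t) * (s / 2) := by
    intro j hj
    have := hmid j hj
    rw [hzt, z1 j hj, abs_le]
    constructor <;> nlinarith
  have a2 : ∀ j ∉ A, (y j - zt ρ w i j ≤ 0 ∧ w j + z j * s = zt ρ w i j - s / 2 ∧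
      w j + z j * s ≤ y j) ∨
      (0 ≤ y j - zt ρ w i j ∧ w j + z j * s = zt ρ w i j + s / 2 ∧ y j ≤ w j + z j * s) := by
    intro j hj
    have h1 := abs_le.1 (hnear j hj)
    by_cases h : w j + z j * s ≤ y j
    · left
      rw [hzt, z2 j hj h]
      refine ⟨?_, by ring, h⟩
      nlinarith
    · right
      rw [hzt, z3 j hj h]
      push_cast
      push Not at h
      refine ⟨?_, by ring, h.le⟩
      nlinarith
  have a3 : ∀ j ∉ A, (1 - 2 * δ) * (s / 2) ≤ |y j - zt ρ w i j| ∧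
      |y j - zt ρ w i j| ≤ s / 2 := by
    intro j hj
    have h1 := abs_le.1 (hnear j hj)
    rcases a2 j hj with ⟨h2, h3, h4⟩ | ⟨h2, h3, h4⟩
    · rw [abs_of_nonpos h2]
      constructor <;> linarith
    · rw [abs_of_nonneg h2]
      constructor <;> linarith
  have ht0 : 0 ≤ t := by linarith
  have hyc : y ∈ closedBall (zt ρ w i) (st ρ w i) := by
    rw [mem_closedBall, dist_pi_le_iff (st_pos i).le]
    intro j
    rw [Real.dist_eq, hst]
    by_cases hj : j ∈ A
    · have := a1 j hj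
      nlinarith
    · exact (a3 j hj).2
  obtain ⟨j₀, hj₀⟩ : ∃ j, j ∉ A := by
    by_contra hcon
    push Not at hcon
    exact hA (Finset.eq_univ_iff_forall.2 hcon)
  have hnorm : (1 - 2 * δ) * (s / 2) ≤ ‖y - zt ρ w i‖ := by
    refine (a3 j₀ hj₀).1.trans ?_
    have := norm_le_pi_norm (y - zt ρ w i) j₀
    rwa [Pi.sub_apply, Real.norm_eq_abs] at this
  have h78 : 7 / 8 * st ρ w i ≤ ‖y - zt ρ w i‖ := by
    rw [hst]
    refine le_trans ?_ hnorm
    nlinarith
  refine ⟨fun j hj => H.tan i y hyc h78 j ?_, fun j hj => ?_⟩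
  · refine (a1 j hj).trans ?_
    rw [hst]
    nlinarith
  · have hg := H.grow i y hyc h78 j
    have hTc := (H.cmem W hyc).1
    rw [mem_closedBall, dist_eq_norm] at hTc
    have hTj := (norm_le_pi_norm (T.toFun y - zt ρ w i) j).trans hTc
    rw [Pi.sub_apply, Real.norm_eq_abs, hst, abs_le] at hTj
    rcases a2 j hj with ⟨h2, h3, h4⟩ | ⟨h2, h3, h4⟩
    · have h5 := hg.2 h2
      rw [abs_of_nonneg (by linarith), abs_of_nonneg (by linarith)]
      linarith
    · have h5 := hg.1 h2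
      rw [abs_of_nonpos (by linarith), abs_of_nonpos (by linarith)]
      linarith

/-- deep sets stay deep -/
theorem IsExp.deep_image (H : IsExp (zt ρ w) c (st ρ w) T) (W : Cubes Λ (zt ρ w) (st ρ w))
    (hA : A ≠ Finset.univ) (hδ : 0 ≤ δ) (hδ1 : δ ≤ 1 / 16) (hδt : 2 * δ ≤ t)
    (hD : Deep t δ w ρ J₀ A m z B) {δ₁ : ℝ} (hδ₁ : δ ≤ δ₁) :
    Deep t δ₁ w ρ J₀ A m z (T.toFun '' B) := by
  refine ⟨hD.tile, hD.act, ?_, ?_⟩
  · rintro _ ⟨y, hy, rfl⟩ j hj
    refine ((H.deep_point W hA hδ hδ1 hδt hD hy).2 j hj).trans ((hD.near y hy j hj).trans ?_)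
    gcongr
  · rintro _ ⟨y, hy, rfl⟩ j hj
    rw [(H.deep_point W hA hδ hδ1 hδt hD hy).1 j hj]
    exact hD.mid y hy j hj

/-- the variation of the tangential components is unchanged -/
theorem IsExp.tv_eq (H : IsExp (zt ρ w) c (st ρ w) T) (W : Cubes Λ (zt ρ w) (st ρ w))
    (hA : A ≠ Finset.univ) (hδ : 0 ≤ δ) (hδ1 : δ ≤ 1 / 16) (hδt : 2 * δ ≤ t)
    {h : V → V} {e : V × V} (hD : Deep t δ w ρ J₀ A m z (h '' segment ℝ e.1 e.2)) :
    tv (fun x => T.toFun (h x)) e A = tv h e A := by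
  refine Finset.sum_congr rfl fun j hj => ?_
  refine eVariationOn.eq_of_eqOn fun s hs => ?_
  have hmem : e.1 + s • (e.2 - e.1) ∈ segment ℝ e.1 e.2 := by
    rw [segment_eq_image']
    exact ⟨s, hs, rfl⟩
  exact (H.deep_point W hA hδ hδ1 hδt hD ⟨_, hmem, rfl⟩).1 j hj

end Vale.Agent.P073.H471
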