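import Vale.Agent.P073.H471.Dbl
import Vale.Agent.P073.Net.Cube

/-!
# P073, block FF: the iterated doubling map (piecewise linear radial expansion)

`fk κ m` (for `0 ≤ κ < 1/2`): the identity off the unit cube, multiplication by `(2(1-κ))^m` on the
cube of radius `2^{-m}`, local Lipschitz constant at `y` at most `4 / ‖y‖`, uniformly in `κ, m`.
For `κ = 0` it maps the shell `2^{-m} ≤ ‖y‖ ≤ 1` to the unit sphere; `fk κ m - fk 0 m` is
`O(κ)`-Lipschitz.  For `κ > 0` it is a conical homeomorphism `ff`.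
-/

open Set Metric Topology Filter

namespace Vale.Agent.P073.H471

open _root_.P073 _root_.P073.Net
open Vale.Agent.P073.St (V)

/-- the doubling map, for all `κ ∈ [0,1/2)` -/
noncomputable def tt (κ : ℝ) (y : V) : V := sqz (2 - 2 * κ) th y

variable {κ : ℝ} {m : ℕ} {y z : V}

theorem dbl_toFun {hκ : 0 < κ} {hκ1 : κ < 1 / 2} : (dbl κ hκ hκ1).toFun = tt κ := rfl

theorem tt_apply (y : V) (k : Fin 3) :
    tt κ y k = (2 - 2 * κ) * y k + (1 - (2 - 2 * κ)) * clamp (th ‖y‖) (y k) := rfl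

theorem tt_eq (κ : ℝ) (y : V) : tt κ y = (1 - 2 * κ) • tt 0 y + (2 * κ) • y := by
  funext k
  simp only [tt_apply, Pi.add_apply, Pi.smul_apply, smul_eq_mul]
  ring

theorem tt_of_le (h : ‖y‖ ≤ 1 / 2) : tt κ y = (2 - 2 * κ) • y := by
  funext k
  rw [tt_apply, th_of_le h, clamp_zero, Pi.smul_apply, smul_eq_mul]; ring

theorem tt_of_ge (h : 1 ≤ ‖y‖) : tt κ y = y := by
  funext k
  have h1 : |y k| ≤ th ‖y‖ := by
    rw [th_of_ge (by linarith)]
    have := norm_le_pi_norm y k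
    rw [Real.norm_eq_abs] at this
    linarith
  rw [tt_apply, clamp_of_abs_le h1]; ring

theorem norm_tt (hκ1 : κ < 1 / 2) (y : V) : ‖tt κ y‖ = lam (2 - 2 * κ) th ‖y‖ :=
  norm_sqz (by linarith) th_nonneg y

theorem norm_tt_le (hκ : 0 ≤ κ) (hκ1 : κ < 1 / 2) (h : ‖y‖ ≤ 1) : ‖tt κ y‖ ≤ 1 := by
  rw [norm_tt hκ1]
  rcases le_total ‖y‖ (1 / 2) with h1 | h1
  · rw [lam_small (norm_nonneg _) h1]; nlinarith [norm_nonneg y]
  · rw [lam_mid h1 h]; nlinarith

theorem norm_tt_zero (h : 1 / 2 ≤ ‖y‖) (h' : ‖y‖ ≤ 1) : ‖tt 0 y‖ = 1 := by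
  rw [norm_tt (by norm_num), lam_mid h h']; ring

/-- the largest coordinate stays the largest -/
theorem tt_coord (hκ1 : κ < 1 / 2) {k : Fin 3} (h : y k = ‖y‖) : tt κ y k = ‖tt κ y‖ := by
  rw [norm_tt hκ1, tt_apply, h, lam]
  congr 2
  unfold clamp
  rw [max_eq_right]
  have h0 := th_nonneg ‖y‖
  have h1 := norm_nonneg y
  rcases le_total ‖y‖ (th ‖y‖) with h | h
  · rw [min_eq_left h]; linarith
  · rw [min_eq_right h]; linarith

theorem abs_soft_sub (a b u v : ℝ) :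
    |(u - clamp a u) - (v - clamp b v)| ≤ |u - v| + |a - b| := by
  have h1 : |(u - clamp a u) - (v - clamp a v)| ≤ |u - v| := by
    have mono : ∀ s t : ℝ, s ≤ t → clamp a s ≤ clamp a t ∧ clamp a t - clamp a s ≤ t - s := by
      intro s t hst
      refine ⟨max_le_max le_rfl (min_le_min hst le_rfl), ?_⟩
      have := abs_clamp_sub a a t s
      rw [sub_self, abs_zero, zero_add, abs_of_nonneg (sub_nonneg.2 hst)] at this
      exact (le_abs_self _).trans this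
    rcases le_total u v with h | h
    · obtain ⟨m1, m2⟩ := mono _ _ h
      rw [abs_of_nonpos (by linarith), abs_of_nonpos (by linarith)]; linarith
    · obtain ⟨m1, m2⟩ := mono _ _ h
      rw [abs_of_nonneg (by linarith), abs_of_nonneg (by linarith)]; linarith
  have h2 : |(v - clamp a v) - (v - clamp b v)| ≤ |a - b| := by
    have := abs_clamp_sub b a v v
    rw [sub_self, abs_zero, add_zero] at this
    calc |(v - clamp a v) - (v - clamp b v)| = |clamp b v - clamp a v| := by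
          congr 1; ring
      _ ≤ |b - a| := this
      _ = |a - b| := abs_sub_comm _ _
  calc _ = |((u - clamp a u) - (v - clamp a v)) + ((v - clamp a v) - (v - clamp b v))| := by
        congr 1; ring
    _ ≤ _ := (abs_add_le _ _).trans (add_le_add h1 h2)

theorem tt_sub_le (hκ : 0 ≤ κ) (hκ1 : κ < 1 / 2) (y z : V) :
    ‖tt κ y - tt κ z‖ ≤ 4 * ‖y - z‖ := by
  rw [pi_norm_le_iff_of_nonneg (by positivity)]
  intro k
  rw [Pi.sub_apply, tt_apply, tt_apply, Real.norm_eq_abs]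
  have hyz : |y k - z k| ≤ ‖y - z‖ := by
    have := norm_le_pi_norm (y - z) k
    rwa [Pi.sub_apply, Real.norm_eq_abs] at this
  have hab : |th ‖y‖ - th ‖z‖| ≤ 2 * ‖y - z‖ := by
    refine (abs_th_sub _ _).trans ?_
    have := abs_norm_sub_norm_le y z
    linarith
  have hsoft := abs_soft_sub (th ‖y‖) (th ‖z‖) (y k) (z k)
  have e : (2 - 2 * κ) * y k + (1 - (2 - 2 * κ)) * clamp (th ‖y‖) (y k) -
      ((2 - 2 * κ) * z k + (1 - (2 - 2 * κ)) * clamp (th ‖z‖) (z k)) =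
      (y k - z k) + (1 - 2 * κ) * ((y k - clamp (th ‖y‖) (y k)) -
        (z k - clamp (th ‖z‖) (z k))) := by ring
  rw [e]
  calc _ ≤ |y k - z k| + |(1 - 2 * κ) * ((y k - clamp (th ‖y‖) (y k)) -
        (z k - clamp (th ‖z‖) (z k)))| := abs_add_le _ _
    _ ≤ ‖y - z‖ + 1 * (‖y - z‖ + 2 * ‖y - z‖) := by
        rw [abs_mul, abs_of_nonneg (by linarith : (0:ℝ) ≤ 1 - 2 * κ)]
        gcongr
        · linarith
        · exact hsoft.trans (add_le_add hyz hab)
    _ = 4 * ‖y - z‖ := by ring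

/-- on a segment crossing a sphere there is a point of the sphere -/
theorem exists_seg_norm {ρ : ℝ} (hy : ‖y‖ ≤ ρ) (hz : ρ ≤ ‖z‖) :
    ∃ w : V, ‖w‖ = ρ ∧ ‖y - w‖ + ‖w - z‖ = ‖y - z‖ := by
  have hc : ContinuousOn (fun t : ℝ => ‖y + t • (z - y)‖) (Icc 0 1) := by fun_prop
  have := intermediate_value_Icc (zero_le_one' ℝ) hc
  obtain ⟨t, ht, htr⟩ := this (show ρ ∈ Icc _ _ by
    constructor
    · simpa using hy
    · simpa using hz)
  refine ⟨y + t • (z - y), htr, ?_⟩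
  have e1 : y - (y + t • (z - y)) = t • (y - z) := by module
  have e2 : y + t • (z - y) - z = (1 - t) • (y - z) := by module
  rw [e1, e2, norm_smul, norm_smul, Real.norm_of_nonneg ht.1,
    Real.norm_of_nonneg (sub_nonneg.2 ht.2)]
  ring

/-- Lipschitz estimates glue across a sphere -/
theorem lip_glue {F : Type*} [NormedAddCommGroup F] {f : V → F} {ρ r L : ℝ} (hr : r ≤ ρ)
    (hin : ∀ y z : V, r ≤ ‖y‖ → r ≤ ‖z‖ → ‖y‖ ≤ ρ → ‖z‖ ≤ ρ → ‖f y - f z‖ ≤ L * ‖y - z‖)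
    (hout : ∀ y z : V, ρ ≤ ‖y‖ → ρ ≤ ‖z‖ → ‖f y - f z‖ ≤ L * ‖y - z‖)
    (y z : V) (hy : r ≤ ‖y‖) (hz : r ≤ ‖z‖) : ‖f y - f z‖ ≤ L * ‖y - z‖ := by
  have key : ∀ y z : V, r ≤ ‖y‖ → r ≤ ‖z‖ → ‖y‖ ≤ ρ → ρ ≤ ‖z‖ →
      ‖f y - f z‖ ≤ L * ‖y - z‖ := by
    intro y z hy hz hy' hz'
    obtain ⟨w, hw, hs⟩ := exists_seg_norm hy' hz'
    calc ‖f y - f z‖ = ‖(f y - f w) + (f w - f z)‖ := by congr 1; abel
      _ ≤ ‖f y - f w‖ + ‖f w - f z‖ := norm_add_le _ _
      _ ≤ L * ‖y - w‖ + L * ‖w - z‖ := by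
          gcongr
          · exact hin y w hy (hw ▸ hr) hy' hw.le
          · exact hout w z hw.ge hz'
      _ = L * ‖y - z‖ := by rw [← hs]; ring
  rcases le_total ‖y‖ ρ with h1 | h1 <;> rcases le_total ‖z‖ ρ with h2 | h2
  · exact hin y z hy hz h1 h2
  · exact key y z hy hz h1 h2
  · rw [norm_sub_rev, norm_sub_rev y z]; exact key z y hz hy h2 h1
  · exact hout y z h1 h2

/-- the iterated doubling map -/
noncomputable def fk (κ : ℝ) : ℕ → V → V
  | 0, y => y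
  | m + 1, y => tt κ ((1 / 2 : ℝ) • fk κ m ((2 : ℝ) • y))

@[simp] theorem fk_zero (y : V) : fk κ 0 y = y := rfl

theorem fk_succ (m : ℕ) (y : V) : fk κ (m + 1) y = tt κ ((1 / 2 : ℝ) • fk κ m ((2 : ℝ) • y)) :=
  rfl

theorem norm_two_smul (y : V) : ‖(2 : ℝ) • y‖ = 2 * ‖y‖ := by
  rw [norm_smul, Real.norm_of_nonneg (by norm_num)]

theorem half_two_smul (y : V) : (1 / 2 : ℝ) • ((2 : ℝ) • y) = y := by
  rw [smul_smul]; norm_num

theorem fk_of_ge (h : 1 ≤ ‖y‖) : fk κ m y = y := by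
  induction m generalizing y with
  | zero => rfl
  | succ m ih =>
    rw [fk_succ, ih (by rw [norm_two_smul]; linarith), half_two_smul, tt_of_ge h]

theorem fk_succ_of_ge (h : 1 / 2 ≤ ‖y‖) : fk κ (m + 1) y = tt κ y := by
  rw [fk_succ, fk_of_ge (by rw [norm_two_smul]; linarith), half_two_smul]

theorem norm_fk_le (hκ : 0 ≤ κ) (hκ1 : κ < 1 / 2) (h : ‖y‖ ≤ 1) : ‖fk κ m y‖ ≤ 1 := by
  induction m generalizing y with
  | zero => exact h
  | succ m ih =>
    rcases le_total ‖y‖ (1 / 2) with h1 | h1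
    · rw [fk_succ]
      have := ih (y := (2:ℝ) • y) (by rw [norm_two_smul]; linarith)
      refine norm_tt_le hκ hκ1 ?_
      rw [norm_smul, Real.norm_of_nonneg (by norm_num)]
      linarith
    · rw [fk_succ_of_ge h1]
      exact norm_tt_le hκ hκ1 h

theorem fk_succ_of_le (hκ : 0 ≤ κ) (hκ1 : κ < 1 / 2) (h : ‖y‖ ≤ 1 / 2) :
    fk κ (m + 1) y = (1 - κ) • fk κ m ((2 : ℝ) • y) := by
  have := norm_fk_le (m := m) hκ hκ1 (y := (2:ℝ) • y) (by rw [norm_two_smul]; linarith)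
  rw [fk_succ, tt_of_le, smul_smul]
  · congr 1; ring
  · rw [norm_smul, Real.norm_of_nonneg (by norm_num)]
    linarith

/-- on the last cube the map is a homothety -/
theorem fk_small (hκ : 0 ≤ κ) (hκ1 : κ < 1 / 2) (h : ‖y‖ ≤ (1 / 2) ^ m) :
    fk κ m y = (2 * (1 - κ)) ^ m • y := by
  induction m generalizing y with
  | zero => simp
  | succ m ih =>
    have h1 : ((1:ℝ) / 2) ^ m ≤ 1 := pow_le_one₀ (by norm_num) (by norm_num)
    rw [pow_succ] at h
    rw [fk_succ_of_le hκ hκ1 (by linarith), ih (by rw [norm_two_smul]; linarith), smul_smul,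
      smul_smul]
    congr 1
    ring

theorem norm_fk_zero (h : (1 / 2) ^ m ≤ ‖y‖) (h' : ‖y‖ ≤ 1) : ‖fk 0 m y‖ = 1 := by
  induction m generalizing y with
  | zero => simp only [pow_zero] at h; simpa using le_antisymm h' h
  | succ m ih =>
    rcases le_total ‖y‖ (1 / 2) with h1 | h1
    · rw [fk_succ_of_le le_rfl (by norm_num) h1, sub_zero, one_smul]
      rw [pow_succ] at h
      exact ih (by rw [norm_two_smul]; linarith) (by rw [norm_two_smul]; linarith)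
    · rw [fk_succ_of_ge h1]
      exact norm_tt_zero h1 h'

/-- the largest coordinate stays the largest -/
theorem fk_coord (hκ1 : κ < 1 / 2) {k : Fin 3} (h : y k = ‖y‖) : fk κ m y k = ‖fk κ m y‖ := by
  induction m generalizing y with
  | zero => exact h
  | succ m ih =>
    rw [fk_succ]
    refine tt_coord hκ1 ?_
    rw [norm_smul, Pi.smul_apply, smul_eq_mul, Real.norm_of_nonneg (by norm_num)]
    rw [ih]
    rw [norm_two_smul, Pi.smul_apply, smul_eq_mul, h]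

theorem fk_coord_zero {k : Fin 3} (h : y k = ‖y‖) (h1 : (1 / 2) ^ m ≤ ‖y‖) (h2 : ‖y‖ ≤ 1) :
    fk 0 m y k = 1 := by
  rw [fk_coord (by norm_num) h, norm_fk_zero h1 h2]

/-- **Lipschitz estimate**: the local Lipschitz constant at `y` is `4/‖y‖` -/
theorem fk_sub_le (hκ : 0 ≤ κ) (hκ1 : κ < 1 / 2) {r : ℝ} (hr : 0 < r) (hr1 : r ≤ 1)
    (hy : r ≤ ‖y‖) (hz : r ≤ ‖z‖) : ‖fk κ m y - fk κ m z‖ ≤ 4 / r * ‖y - z‖ := by
  induction m generalizing y z r with
  | zero =>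
    have : 1 ≤ 4 / r := by rw [le_div_iff₀ hr]; linarith
    simpa using le_mul_of_one_le_left (norm_nonneg _) this
  | succ m ih =>
    have h4 : (4:ℝ) ≤ 4 / r := by rw [le_div_iff₀ hr]; linarith
    rcases le_or_gt r (1 / 2) with hr2 | hr2
    · refine lip_glue (f := fk κ (m + 1)) hr2 ?_ ?_ y z hy hz
      · intro y z hy hz hy' hz'
        rw [fk_succ_of_le hκ hκ1 hy', fk_succ_of_le hκ hκ1 hz', ← smul_sub, norm_smul,
          Real.norm_of_nonneg (by linarith)]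
        have := ih (y := (2:ℝ) • y) (z := (2:ℝ) • z) (r := 2 * r) (by linarith) (by linarith)
          (by rw [norm_two_smul]; linarith) (by rw [norm_two_smul]; linarith)
        rw [← smul_sub, norm_two_smul] at this
        calc (1 - κ) * ‖fk κ m ((2:ℝ) • y) - fk κ m ((2:ℝ) • z)‖
            ≤ 1 * (4 / (2 * r) * (2 * ‖y - z‖)) := by
              gcongr
              linarith
          _ = 4 / r * ‖y - z‖ := by field_simp
      · intro y z hy' hz'
        rw [fk_succ_of_ge hy', fk_succ_of_ge hz']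
        exact (tt_sub_le hκ hκ1 y z).trans (by gcongr)
    · rw [fk_succ_of_ge (by linarith), fk_succ_of_ge (by linarith)]
      exact (tt_sub_le hκ hκ1 y z).trans (by gcongr)

/-- crude global Lipschitz constant -/
theorem fk_lip (hκ : 0 ≤ κ) (hκ1 : κ < 1 / 2) (m : ℕ) (y z : V) :
    ‖fk κ m y - fk κ m z‖ ≤ 4 ^ m * ‖y - z‖ := by
  induction m generalizing y z with
  | zero => simp
  | succ m ih =>
    rw [fk_succ, fk_succ]
    refine (tt_sub_le hκ hκ1 _ _).trans ?_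
    rw [← smul_sub, norm_smul, Real.norm_of_nonneg (by norm_num)]
    have := ih ((2:ℝ) • y) ((2:ℝ) • z)
    rw [← smul_sub, norm_two_smul] at this
    calc (4:ℝ) * (1 / 2 * ‖fk κ m ((2:ℝ) • y) - fk κ m ((2:ℝ) • z)‖)
        ≤ 4 * (1 / 2 * (4 ^ m * (2 * ‖y - z‖))) := by gcongr
      _ = 4 ^ (m + 1) * ‖y - z‖ := by ring

/-- the difference to the limit map is `O(κ)`-Lipschitz -/
theorem fk_diff (hκ : 0 ≤ κ) (hκ1 : κ < 1 / 2) (m : ℕ) (y z : V) :
    ‖(fk κ m y - fk 0 m y) - (fk κ m z - fk 0 m z)‖ ≤ 10 * 4 ^ m * κ * ‖y - z‖ := by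
  induction m generalizing y z with
  | zero => simp only [fk_zero, sub_self, norm_zero]; positivity
  | succ m ih =>
    refine lip_glue (f := fun y => fk κ (m + 1) y - fk 0 (m + 1) y) (ρ := 1 / 2) (r := 0)
      (by norm_num) ?_ ?_ y z (norm_nonneg _) (norm_nonneg _)
    · intro y z _ _ hy hz
      rw [fk_succ_of_le hκ hκ1 hy, fk_succ_of_le hκ hκ1 hz, fk_succ_of_le le_rfl (by norm_num) hy,
        fk_succ_of_le le_rfl (by norm_num) hz]
      have h1 := ih ((2:ℝ) • y) ((2:ℝ) • z)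
      have h2 := fk_lip hκ hκ1 m ((2:ℝ) • y) ((2:ℝ) • z)
      rw [← smul_sub, norm_two_smul] at h1 h2
      have e : (1 - κ) • fk κ m ((2:ℝ) • y) - (1 - 0 : ℝ) • fk 0 m ((2:ℝ) • y) -
          ((1 - κ) • fk κ m ((2:ℝ) • z) - (1 - 0 : ℝ) • fk 0 m ((2:ℝ) • z)) =
          ((fk κ m ((2:ℝ) • y) - fk 0 m ((2:ℝ) • y)) -
            (fk κ m ((2:ℝ) • z) - fk 0 m ((2:ℝ) • z))) -
          κ • (fk κ m ((2:ℝ) • y) - fk κ m ((2:ℝ) • z)) := by module
      rw [e]
      calc _ ≤ 10 * 4 ^ m * κ * (2 * ‖y - z‖) + κ * (4 ^ m * (2 * ‖y - z‖)) := by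
            refine (norm_sub_le _ _).trans (add_le_add h1 ?_)
            rw [norm_smul, Real.norm_of_nonneg hκ]
            gcongr
        _ ≤ 10 * 4 ^ (m + 1) * κ * ‖y - z‖ := by
            have : 0 ≤ 4 ^ m * κ * ‖y - z‖ := by positivity
            rw [pow_succ]; nlinarith
    · intro y z hy hz
      rw [fk_succ_of_ge hy, fk_succ_of_ge hz, fk_succ_of_ge hy, fk_succ_of_ge hz, tt_eq κ y,
        tt_eq κ z]
      have e : (1 - 2 * κ) • tt 0 y + (2 * κ) • y - tt 0 y -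
          ((1 - 2 * κ) • tt 0 z + (2 * κ) • z - tt 0 z) =
          (2 * κ) • ((y - z) - (tt 0 y - tt 0 z)) := by module
      rw [e, norm_smul, Real.norm_of_nonneg (by positivity)]
      have h1 := tt_sub_le le_rfl (by norm_num : (0:ℝ) < 1 / 2) y z
      have h2 : (1:ℝ) ≤ 4 ^ (m + 1) := one_le_pow₀ (by norm_num)
      calc 2 * κ * ‖y - z - (tt 0 y - tt 0 z)‖ ≤ 2 * κ * (‖y - z‖ + 4 * ‖y - z‖) := by
            gcongr
            exact (norm_sub_le _ _).trans (by gcongr)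
        _ = 10 * 1 * κ * ‖y - z‖ := by ring
        _ ≤ 10 * 4 ^ (m + 1) * κ * ‖y - z‖ := by gcongr

/-- the iterated doubling map as a conical homeomorphism -/
noncomputable def ff (κ : ℝ) (hκ : 0 < κ) (hκ1 : κ < 1 / 2) :
    ℕ → ConHomeo (univ : Set V) (univ : Set V)
  | 0 => ConHomeo.refl (IsOpen.conicalSet isOpen_univ)
  | m + 1 => (cj 0 (1 / 2) (by norm_num) (ff κ hκ hκ1 m)).trans (dbl κ hκ hκ1)

theorem ff_toFun {hκ : 0 < κ} {hκ1 : κ < 1 / 2} : (ff κ hκ hκ1 m).toFun = fk κ m := by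
  induction m with
  | zero => rfl
  | succ m ih =>
    funext y
    show tt κ ((cj 0 (1 / 2) (by norm_num) (ff κ hκ hκ1 m)).toFun y) = _
    rw [cj_apply, ih, fk_succ]
    norm_num

theorem norm_fk_lt {hκ : 0 < κ} {hκ1 : κ < 1 / 2} (h : ‖y‖ < 1) : ‖fk κ m y‖ < 1 := by
  by_contra hc
  push Not at hc
  have h1 := fk_of_ge (κ := κ) (m := m) hc
  rw [← ff_toFun (hκ := hκ) (hκ1 := hκ1)] at h1 hc
  have h2 := (ff κ hκ hκ1 m).injOn (mem_univ _) (mem_univ _) h1
  rw [h2] at hc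
  linarith

end Vale.Agent.P073.H471
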