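import Vale.Agent.P073.H471.Rad

/-!
# P073, block KILL: the position of the supports of the collapses in a box complex
-/

open Set Metric Topology Filter

namespace Vale.Agent.P073.H471

open _root_.P073 _root_.P073.Net _root_.P073.PA691
open _root_.P073.PR720 (LF)
open Vale.Agent.P073.St (V)

variable {Λ : Set V} {v : V} {K : BoxCx Λ v} {S : Rad K} {y z : V}

/-- widths for the collapses -/
structure Wid (K : BoxCx Λ v) (S : Rad K) where
  wv : K.W → ℝ
  we : K.G → ℝ
  ws : K.S → ℝ
  wv_pos : ∀ i, 0 < wv i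
  we_pos : ∀ e, 0 < we e
  ws_pos : ∀ s, 0 < ws s
  wv_le : ∀ i, wv i ≤ S.r i
  we_le : ∀ e, we e ≤ S.q e
  ws_le : ∀ s, 4 * ws s ≤ K.hi (K.sm s) (K.nrm s) - K.lo (K.sm s) (K.nrm s)
  ws_le' : ∀ s, 4 * ws s ≤ K.hi (K.sp s) (K.nrm s) - K.lo (K.sp s) (K.nrm s)

namespace Wid

variable (W : Wid K S)

/-- collapsed directions of an edge -/
def Je (K : BoxCx Λ v) (e : K.G) : Finset (Fin 3) := Finset.univ.erase (K.dir e)

/-- width at a square -/
noncomputable def as (s : K.S) : V → ℝ := marg {K.nrm s} (K.slo s) (K.shi s) (W.ws s)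

/-- width at an edge -/
noncomputable def ae (e : K.G) : V → ℝ := marg (Je K e) (K.w (K.a e)) (K.w (K.b e)) (W.we e)

/-- support at a square -/
noncomputable def ss (s : K.S) : Set V := spt {K.nrm s} (K.slo s) (W.as s)

/-- support at an edge -/
noncomputable def se (e : K.G) : Set V := spt (Je K e) (K.w (K.a e)) (W.ae e)

/-- support at a vertex -/
noncomputable def sv (i : K.W) : Set V := spt Finset.univ (K.w i) (fun _ => W.wv i)

end Wid

variable {W : Wid K S}

theorem mem_Je {e : K.G} {k : Fin 3} : k ∈ Wid.Je K e ↔ k ≠ K.dir e := by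
  simp [Wid.Je]

theorem notMem_Je {e : K.G} : K.dir e ∉ Wid.Je K e := by simp [Wid.Je]

theorem as_le (s : K.S) : W.as s y ≤ W.ws s := marg_le (W.ws_pos s).le

theorem ae_le (e : K.G) : W.ae e y ≤ W.we e := marg_le (W.we_pos e).le

theorem slo_shi_nrm (s : K.S) : K.slo s (K.nrm s) = K.shi s (K.nrm s) := K.s_flat s

/-- close to the relative interior of a square -/
structure Near (K : BoxCx Λ v) (s : K.S) (z : V) : Prop where
  tan : ∀ k, k ≠ K.nrm s → K.slo s k < z k ∧ z k < K.shi s k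
  lo : K.lo (K.sm s) (K.nrm s) < z (K.nrm s)
  hi : z (K.nrm s) < K.hi (K.sp s) (K.nrm s)

theorem slo_mem (s : K.S) : K.slo s ∈ K.sq s :=
  ⟨fun _ => le_rfl, fun k => TM.slo_le_shi K s k⟩

theorem shi_mem (s : K.S) : K.shi s ∈ K.sq s :=
  ⟨fun k => TM.slo_le_shi K s k, fun _ => le_rfl⟩

theorem Near.cases {s : K.S} (h : Near K s z) :
    (z (K.nrm s) < K.slo s (K.nrm s) ∧
      ∀ k, K.lo (K.sm s) k < z k ∧ z k < K.hi (K.sm s) k) ∨ z ∈ K.sqo s ∨
    (K.slo s (K.nrm s) < z (K.nrm s) ∧
      ∀ k, K.lo (K.sp s) k < z k ∧ z k < K.hi (K.sp s) k) := by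
  have hsub := TM.sq_subset K s
  have h1 := hsub.1 (slo_mem s)
  have h2 := hsub.1 (shi_mem s)
  have h3 := hsub.2 (slo_mem s)
  have h4 := hsub.2 (shi_mem s)
  obtain ⟨hl1, hl2⟩ := K.s_lev s
  rcases lt_trichotomy (z (K.nrm s)) (K.slo s (K.nrm s)) with hz | hz | hz
  · left
    refine ⟨hz, fun k => ?_⟩
    by_cases hk : k = K.nrm s
    · subst hk
      exact ⟨h.lo, by rw [hl1]; exact hz⟩
    · have := h.tan k hk
      exact ⟨(h1.1 k).trans_lt this.1, this.2.trans_le (h2.2 k)⟩
  · right; left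
    exact ⟨hz, h.tan⟩
  · right; right
    refine ⟨hz, fun k => ?_⟩
    by_cases hk : k = K.nrm s
    · subst hk
      exact ⟨by rw [hl2]; exact hz, h.hi⟩
    · have := h.tan k hk
      exact ⟨(h3.1 k).trans_lt this.1, this.2.trans_le (h4.2 k)⟩

/-- tiles near a square -/
theorem Near.tile {s : K.S} (h : Near K s z) {p : K.T} (hp : z ∈ K.cube p) :
    p = K.sm s ∨ p = K.sp s := by
  rcases h.cases with ⟨-, h1⟩ | h1 | ⟨-, h1⟩
  · left
    by_contra hne
    exact K.dis (K.sm s) p (Ne.symm hne) z h1 hp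
  · exact K.sqo_tile s p z h1.1 h1.2 hp
  · right
    by_contra hne
    exact K.dis (K.sp s) p (Ne.symm hne) z h1 hp

theorem Near.mem {s : K.S} (h : Near K s z) : z ∈ K.cube (K.sm s) ∨ z ∈ K.cube (K.sp s) := by
  rcases h.cases with ⟨-, h1⟩ | h1 | ⟨-, h1⟩
  · left
    exact ⟨fun k => (h1 k).1.le, fun k => (h1 k).2.le⟩
  · left
    refine (TM.sq_subset K s).1 ⟨fun k => ?_, fun k => ?_⟩
    · by_cases hk : k = K.nrm s
      · subst hk; exact h1.1.ge
      · exact (h1.2 k hk).1.le
    · by_cases hk : k = K.nrm s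
      · subst hk; rw [← slo_shi_nrm]; exact h1.1.le
      · exact (h1.2 k hk).2.le
  · right
    exact ⟨fun k => (h1 k).1.le, fun k => (h1 k).2.le⟩

/-- an interior point of a tile is not on an edge -/
theorem notMem_edge_of_int {p : K.T} (h : ∀ k, K.lo p k < z k ∧ z k < K.hi p k) (e : K.G) :
    z ∉ K.edge e := by
  intro hz
  have hp : z ∈ K.cube p := ⟨fun k => (h k).1.le, fun k => (h k).2.le⟩
  by_cases ha : z = K.w (K.a e)
  · subst ha
    obtain ⟨k, hk | hk⟩ := K.w_tile _ p hp
    · exact (h k).1.ne' hk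
    · exact (h k).2.ne hk
  by_cases hb : z = K.w (K.b e)
  · subst hb
    obtain ⟨k, hk | hk⟩ := K.w_tile _ p hp
    · exact (h k).1.ne' hk
    · exact (h k).2.ne hk
  obtain ⟨-, k, hk, h1⟩ := K.edge_tile e p z hz ha hb hp
  have h2 : z k = K.w (K.a e) k := le_antisymm ((hz.2 k).trans (wab K e hk).ge) (hz.1 k)
  rcases h1 with h1 | h1
  · exact (h k).1.ne' (h2.trans h1)
  · exact (h k).2.ne (h2.trans h1)

theorem Near.notMem_edge {s : K.S} (h : Near K s z) (e : K.G) : z ∉ K.edge e := by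
  rcases h.cases with ⟨-, h1⟩ | h1 | ⟨-, h1⟩
  · exact notMem_edge_of_int h1 e
  · exact K.sqo_edge s z h1.1 h1.2 e
  · exact notMem_edge_of_int h1 e

theorem Near.ne_w {s : K.S} (h : Near K s z) (i : K.W) : z ≠ K.w i := by
  rintro rfl
  obtain ⟨e, he | he⟩ := K.w_edge i
  · exact h.notMem_edge e (by rw [he]; exact TM.wa_mem K e)
  · exact h.notMem_edge e (by rw [he]; exact TM.wb_mem K e)

theorem sm_ne_sp (s : K.S) : K.sm s ≠ K.sp s := by
  intro h
  obtain ⟨hl1, hl2⟩ := K.s_lev s
  have := K.lt (K.sp s) (K.nrm s)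
  rw [h] at hl1
  rw [hl1, hl2] at this
  exact lt_irrefl _ this

theorem sqo_subset_sq (s : K.S) : K.sqo s ⊆ K.sq s := by
  intro z h1
  refine ⟨fun k => ?_, fun k => ?_⟩
  · by_cases hk : k = K.nrm s
    · subst hk; exact h1.1.ge
    · exact (h1.2 k hk).1.le
  · by_cases hk : k = K.nrm s
    · subst hk; rw [← slo_shi_nrm]; exact h1.1.le
    · exact (h1.2 k hk).2.le

theorem Near.sq {s s' : K.S} (h : Near K s z) (hz : z ∈ K.sqo s') : s = s' := by
  by_contra hne
  have hs := sqo_subset_sq s' hz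
  have hsub := TM.sq_subset K s'
  rcases h.cases with ⟨-, h1⟩ | h1 | ⟨-, h1⟩
  · have e1 : K.sm s = K.sm s' := by
      by_contra h2; exact K.dis _ _ h2 z h1 (hsub.1 hs)
    have e2 : K.sm s = K.sp s' := by
      by_contra h2; exact K.dis _ _ h2 z h1 (hsub.2 hs)
    exact sm_ne_sp s' (e1.symm.trans e2)
  · exact K.sqo_disj s s' hne z h1.1 h1.2 hs
  · have e1 : K.sp s = K.sm s' := by
      by_contra h2; exact K.dis _ _ h2 z h1 (hsub.1 hs)
    have e2 : K.sp s = K.sp s' := by
      by_contra h2; exact K.dis _ _ h2 z h1 (hsub.2 hs)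
    exact sm_ne_sp s' (e1.symm.trans e2)

theorem abs_le_of_ss {s : K.S} (h : y ∈ W.ss s) :
    |y (K.nrm s) - K.slo s (K.nrm s)| < 2 * W.as s y :=
  (abs_le_nJ (Finset.mem_singleton_self _)).trans_lt h

theorem as_pos_of_ss {s : K.S} (h : y ∈ W.ss s) : 0 < W.as s y := pos_of_mem_spt h

theorem near_of_ss {s : K.S} (h : y ∈ W.ss s) (hz : ∀ k, |z k - y k| < 2 * W.as s y) :
    Near K s z := by
  have h0 := as_pos_of_ss h
  have h1 := abs_lt.1 (abs_le_of_ss h)
  have h2 := abs_lt.1 (hz (K.nrm s))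
  have h3 := as_le (W := W) s (y := y)
  have h4 := W.ws_le s
  have h5 := W.ws_le' s
  obtain ⟨hl1, hl2⟩ := K.s_lev s
  refine ⟨fun k hk => ?_, by linarith, by linarith⟩
  have h6 := marg_taper h0 (k := k) (by simpa using hk)
  have h7 := abs_lt.1 (hz k)
  have e : marg {K.nrm s} (K.slo s) (K.shi s) (W.ws s) y = W.as s y := rfl
  rw [e] at h6
  constructor <;> linarith

theorem near_self {s : K.S} (h : y ∈ W.ss s) : Near K s y :=
  near_of_ss h fun k => by rw [sub_self, abs_zero]; linarith [as_pos_of_ss h]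

/-- projection to the plane of a square -/
def hat (K : BoxCx Λ v) (s : K.S) (y : V) : V :=
  Function.update y (K.nrm s) (K.slo s (K.nrm s))

theorem hat_nrm (s : K.S) (y : V) : hat K s y (K.nrm s) = K.slo s (K.nrm s) := by
  simp [hat]

theorem hat_ne {s : K.S} {k : Fin 3} (hk : k ≠ K.nrm s) (y : V) : hat K s y k = y k := by
  simp [hat, hk]

theorem hat_mem {s : K.S} (h : y ∈ W.ss s) : hat K s y ∈ K.sqo s := by
  refine ⟨hat_nrm s y, fun k hk => ?_⟩
  rw [hat_ne hk]
  exact (near_self h).tan k hk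

theorem abs_hat_sub_lt {s : K.S} (h : y ∈ W.ss s) (k : Fin 3) :
    |hat K s y k - y k| < 2 * W.as s y := by
  by_cases hk : k = K.nrm s
  · subst hk
    rw [hat_nrm, abs_sub_comm]
    exact abs_le_of_ss h
  · rw [hat_ne hk, sub_self, abs_zero]
    linarith [as_pos_of_ss h]

/-- the supports at the squares are disjoint -/
theorem disjoint_ss {s s' : K.S} (hne : s ≠ s') : Disjoint (W.ss s) (W.ss s') := by
  rw [Set.disjoint_left]
  intro y h h'
  rcases le_total (W.as s' y) (W.as s y) with hle | hle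
  · exact hne ((near_of_ss h fun k => (abs_hat_sub_lt h' k).trans_le (by linarith)).sq (hat_mem h'))
  · exact hne ((near_of_ss h' fun k =>
      (abs_hat_sub_lt h k).trans_le (by linarith)).sq (hat_mem h)).symm

theorem ss_subset (s : K.S) : W.ss s ⊆ Λ := by
  intro y h
  rcases (near_self h).mem with h1 | h1
  · exact K.sub _ h1
  · exact K.sub _ h1

/-! ### edges -/

theorem ae_pos_of_se {e : K.G} (h : y ∈ W.se e) : 0 < W.ae e y := pos_of_mem_spt h

theorem ae_taper {e : K.G} (h : 0 < W.ae e y) :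
    4 * W.ae e y ≤ y (K.dir e) - K.w (K.a e) (K.dir e) ∧
      4 * W.ae e y ≤ K.w (K.b e) (K.dir e) - y (K.dir e) :=
  marg_taper h notMem_Je

theorem abs_le_of_se {e : K.G} (h : y ∈ W.se e) {k : Fin 3} (hk : k ≠ K.dir e) :
    |y k - K.w (K.a e) k| < 2 * W.ae e y :=
  (abs_le_nJ (mem_Je.2 hk)).trans_lt h

/-- the open tube -/
structure InTube (S : Rad K) (e : K.G) (z : V) : Prop where
  off : ∀ k, k ≠ K.dir e → |z k - K.w (K.a e) k| ≤ 2 * S.q e
  lo : K.w (K.a e) (K.dir e) < z (K.dir e)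
  hi : z (K.dir e) < K.w (K.b e) (K.dir e)

theorem InTube.mem_nb {e : K.G} (h : InTube S e z) : z ∈ K.nb e (2 * S.q e) := by
  intro k
  have hq := S.q_pos e
  by_cases hk : k = K.dir e
  · subst hk
    constructor
    · linarith [h.lo]
    · linarith [h.hi]
  · have h1 := abs_le.1 (h.off k hk)
    have h2 := wab K e hk
    constructor <;> linarith [h1.1, h1.2]

/-- a tile which meets the open tube contains the edge -/
theorem InTube.tile {e : K.G} (h : InTube S e z) {p : K.T} (hp : z ∈ K.cube p) :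
    K.edge e ⊆ K.cube p := S.tube_tile e p z h.off h.lo h.hi hp

theorem inTube_of_se {e : K.G} (h : y ∈ W.se e) : InTube S e y := by
  have h0 := ae_pos_of_se h
  have h1 := ae_taper h0
  have h2 := ae_le (W := W) e (y := y)
  have h3 := W.we_le e
  refine ⟨fun k hk => ?_, by linarith, by linarith⟩
  exact (abs_le_of_se h hk).le.trans (by linarith)

theorem se_subset (e : K.G) : W.se e ⊆ K.nb e (2 * S.q e) := fun _ h => (inTube_of_se h).mem_nb

/-- two different edges do not leave a vertex in the same direction -/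
theorem edge_eq_of_a {e e' : K.G} (ha : K.a e = K.a e') (hd : K.dir e = K.dir e') : e = e' := by
  by_contra hne
  have h1 := K.ab_dir e
  have h2 := K.ab_dir e'
  rw [← ha, ← hd] at h2
  obtain ⟨t, ht1, ht2⟩ := exists_between (lt_min h1 h2)
  rw [lt_min_iff] at ht2
  set x : V := Function.update (K.w (K.a e)) (K.dir e) t with hx
  have xd : x (K.dir e) = t := by simp [hx]
  have xo : ∀ k, k ≠ K.dir e → x k = K.w (K.a e) k := fun k hk => by simp [hx, hk]
  have hx1 : x ∈ K.edge e := by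
    refine ⟨fun k => ?_, fun k => ?_⟩
    · by_cases hk : k = K.dir e
      · rw [hk, xd]; exact ht1.le
      · rw [xo k hk]
    · by_cases hk : k = K.dir e
      · rw [hk, xd]; exact ht2.1.le
      · rw [xo k hk]; exact (wab K e hk).le
  have hx2 : x ∈ K.edge e' := by
    refine ⟨fun k => ?_, fun k => ?_⟩
    · by_cases hk : k = K.dir e
      · rw [← ha, hk, xd]; exact ht1.le
      · rw [xo k hk, ha]
    · by_cases hk : k = K.dir e
      · rw [hk, xd]; exact ht2.2.le
      · rw [xo k hk, ha]; exact (wab K e' (by rwa [← hd])).le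
  obtain ⟨i, hi⟩ := K.edge_meet e e' hne x hx1 hx2
  rcases K.w_on_edge i e (hi ▸ hx1) with h3 | h3
  · rw [h3] at hi
    have := congrFun hi (K.dir e)
    rw [xd] at this
    exact ht1.ne' this
  · rw [h3] at hi
    have := congrFun hi (K.dir e)
    rw [xd] at this
    exact ht2.1.ne this

theorem edge_eq_of_b {e e' : K.G} (hb : K.b e = K.b e') (hd : K.dir e = K.dir e') : e = e' := by
  by_contra hne
  have h1 := K.ab_dir e
  have h2 := K.ab_dir e'
  rw [← hb, ← hd] at h2
  obtain ⟨t, ht1, ht2⟩ := exists_between (max_lt h1 h2)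
  rw [max_lt_iff] at ht1
  set x : V := Function.update (K.w (K.b e)) (K.dir e) t with hx
  have xd : x (K.dir e) = t := by simp [hx]
  have xo : ∀ k, k ≠ K.dir e → x k = K.w (K.b e) k := fun k hk => by simp [hx, hk]
  have hx1 : x ∈ K.edge e := by
    refine ⟨fun k => ?_, fun k => ?_⟩
    · by_cases hk : k = K.dir e
      · rw [hk, xd]; exact ht1.1.le
      · rw [xo k hk]; exact (wab K e hk).le
    · by_cases hk : k = K.dir e
      · rw [hk, xd]; exact ht2.le
      · rw [xo k hk]
  have hx2 : x ∈ K.edge e' := by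
    refine ⟨fun k => ?_, fun k => ?_⟩
    · by_cases hk : k = K.dir e
      · rw [hk, xd]; exact ht1.2.le
      · rw [xo k hk, hb]; exact (wab K e' (by rwa [← hd])).le
    · by_cases hk : k = K.dir e
      · rw [← hb, hk, xd]; exact ht2.le
      · rw [xo k hk, hb]
  obtain ⟨i, hi⟩ := K.edge_meet e e' hne x hx1 hx2
  rcases K.w_on_edge i e (hi ▸ hx1) with h3 | h3
  · rw [h3] at hi
    have := congrFun hi (K.dir e)
    rw [xd] at this
    exact ht1.1.ne' this
  · rw [h3] at hi
    have := congrFun hi (K.dir e)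
    rw [xd] at this
    exact ht2.ne this

/-- the cone of the support of an edge, seen from an end -/
theorem se_cone {e : K.G} (h : y ∈ W.se e) {i : K.W} (hi : i = K.a e ∨ i = K.b e) {k : Fin 3}
    (hk : k ≠ K.dir e) : |y k - K.w i k| < 1 / 2 * |y (K.dir e) - K.w i (K.dir e)| := by
  have h1 := ae_taper (ae_pos_of_se h)
  have h2 := abs_le_of_se h hk
  rcases hi with rfl | rfl
  · rw [abs_of_nonneg (a := y (K.dir e) - K.w (K.a e) (K.dir e))
      (by linarith [h1.1, ae_pos_of_se h])]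
    linarith
  · rw [← wab K e hk, abs_sub_comm (y (K.dir e)),
      abs_of_nonneg (a := K.w (K.b e) (K.dir e) - y (K.dir e))
        (by linarith [h1.2, ae_pos_of_se h])]
    linarith

/-- an edge does not meet the support of another edge -/
theorem se_aux {e e' : K.G} (hne : e ≠ e') {i : K.W} (hi : i = K.a e ∨ i = K.b e)
    (hi' : i = K.a e' ∨ i = K.b e') (h' : y ∈ W.se e')
    (h : ∀ k, k ≠ K.dir e → |y k - K.w i k| ≤ 1 / 2 * |y (K.dir e) - K.w i (K.dir e)|)
    (h1 : K.w (K.a e) (K.dir e) ≤ y (K.dir e)) (h2 : y (K.dir e) ≤ K.w (K.b e) (K.dir e)) :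
    False := by
  by_cases hd : K.dir e = K.dir e'
  · have hT := inTube_of_se h'
    rcases hi with rfl | rfl
    · rcases hi' with hi' | hi'
      · exact hne (edge_eq_of_a hi' hd)
      · have h3 := hT.hi
        rw [← hi', ← hd] at h3
        linarith
    · rcases hi' with hi' | hi'
      · have h3 := hT.lo
        rw [← hi', ← hd] at h3
        linarith
      · exact hne (edge_eq_of_b hi' hd)
  · have h3 := se_cone h' hi' hd
    have h4 := h (K.dir e') (Ne.symm hd)
    linarith [abs_nonneg (y (K.dir e) - K.w i (K.dir e)), abs_nonneg (y (K.dir e') - K.w i (K.dir e'))]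

theorem disjoint_se {e e' : K.G} (hne : e ≠ e') : Disjoint (W.se e) (W.se e') := by
  rw [Set.disjoint_left]
  intro y h h'
  obtain ⟨i, hi, hi'⟩ := S.tube_disj e e' hne y (se_subset e h) (se_subset e' h')
  have hT := inTube_of_se h
  exact se_aux hne hi hi' h' (fun k hk => (se_cone h hi hk).le) hT.lo.le hT.hi.le

theorem edge_notMem_se {e e' : K.G} (hne : e ≠ e') (hy : y ∈ K.edge e) : y ∉ W.se e' := by
  intro h'
  have h1 : y ∈ K.nb e (2 * S.q e) := TM.edge_subset_nb (by linarith [S.q_pos e]) hy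
  obtain ⟨i, hi, hi'⟩ := S.tube_disj e e' hne y h1 (se_subset e' h')
  refine se_aux hne hi hi' h' (fun k hk => ?_) (hy.1 _) (hy.2 _)
  have e1 : y k = K.w i k := by
    rw [edge_coord hy hk]
    rcases hi with rfl | rfl
    · rfl
    · exact wab K e hk
  rw [e1, sub_self, abs_zero]
  positivity

theorem edge_notMem_ss {e : K.G} {s : K.S} (hy : y ∈ K.edge e) : y ∉ W.ss s :=
  fun h => (near_self h).notMem_edge e hy

/-! ### vertices -/

theorem mem_sv {i : K.W} : y ∈ W.sv i ↔ ‖y - K.w i‖ < 2 * W.wv i := by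
  have e : nJ Finset.univ (K.w i) y = ‖y - K.w i‖ := by
    unfold nJ
    congr 1
    funext k
    simp [prj]
  show nJ Finset.univ (K.w i) y < 2 * W.wv i ↔ _
  rw [e]

theorem sv_subset (i : K.W) : W.sv i ⊆ closedBall (K.w i) (2 * S.r i) := by
  intro y h
  rw [mem_sv] at h
  rw [mem_closedBall, dist_eq_norm]
  have := W.wv_le i
  linarith

theorem disjoint_sv {i i' : K.W} (hne : i ≠ i') : Disjoint (W.sv i) (W.sv i') :=
  (S.U_disj i i' hne).mono (sv_subset i) (sv_subset i')

/-! ### interaction -/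

/-- a support of a square which meets the tube of half width belongs to a square containing the
edge -/
theorem edge_subset_sq {e : K.G} {s : K.S} (h : y ∈ W.ss s) (he : 0 < W.ae e y)
    (hn : nJ (Wid.Je K e) (K.w (K.a e)) y ≤ W.ae e y) : K.edge e ⊆ K.sq s := by
  have ht := ae_taper he
  have h0 := as_pos_of_ss h
  have hfoot : foot K e y ∈ K.edge e := foot_mem (by linarith) (by linarith)
  -- the square is at distance less than the width
  have h1 : 2 * W.as s y ≤ W.ae e y := by
    by_contra hcon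
    push Not at hcon
    refine (near_of_ss h (z := foot K e y) fun k => ?_).notMem_edge e hfoot
    by_cases hk : k = K.dir e
    · subst hk; rw [foot_dir, sub_self, abs_zero]; linarith
    · rw [foot_ne hk, abs_sub_comm]
      exact ((abs_le_nJ (mem_Je.2 hk)).trans hn).trans_lt hcon
  have h2 := ae_le (W := W) e (y := y)
  have h3 := W.we_le e
  have hT : InTube S e (hat K s y) := by
    refine ⟨fun k hk => ?_, ?_, ?_⟩
    · have h4 := abs_hat_sub_lt h k
      have h5 := (abs_le_nJ (c := K.w (K.a e)) (y := y) (mem_Je.2 hk)).trans hn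
      have h6 := abs_sub_le (hat K s y k) (y k) (K.w (K.a e) k)
      linarith
    · have h4 := abs_lt.1 (abs_hat_sub_lt h (K.dir e))
      linarith [h4.1]
    · have h4 := abs_lt.1 (abs_hat_sub_lt h (K.dir e))
      linarith [h4.2]
  have hs := sqo_subset_sq s (hat_mem h)
  have hsub := TM.sq_subset K s
  have h7 := hT.tile (hsub.1 hs)
  have h8 := hT.tile (hsub.2 hs)
  intro x hx
  show x ∈ Icc (K.slo s) (K.shi s)
  rw [K.s_eq]
  exact ⟨h7 hx, h8 hx⟩

/-- the same for a vertex -/
theorem w_mem_sq {i : K.W} {s : K.S} (h : y ∈ W.ss s) (hi : ‖y - K.w i‖ ≤ S.r i) :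
    K.w i ∈ K.sq s := by
  have h0 := as_pos_of_ss h
  have h1 : 2 * W.as s y ≤ ‖y - K.w i‖ := by
    by_contra hcon
    push Not at hcon
    refine (near_of_ss h (z := K.w i) fun k => ?_).ne_w i rfl
    have := norm_le_pi_norm (y - K.w i) k
    rw [Pi.sub_apply, Real.norm_eq_abs] at this
    rw [abs_sub_comm]
    exact this.trans_lt hcon
  have h2 : hat K s y ∈ closedBall (K.w i) (2 * S.r i) := by
    rw [mem_closedBall, dist_pi_le_iff (by linarith [S.r_pos i])]
    intro k
    rw [Real.dist_eq]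
    have h3 := abs_hat_sub_lt h k
    have h4 := norm_le_pi_norm (y - K.w i) k
    rw [Pi.sub_apply, Real.norm_eq_abs] at h4
    have h5 := abs_sub_le (hat K s y k) (y k) (K.w i k)
    linarith
  have hs := sqo_subset_sq s (hat_mem h)
  have hsub := TM.sq_subset K s
  show K.w i ∈ Icc (K.slo s) (K.shi s)
  rw [K.s_eq]
  exact ⟨S.U_tile i _ _ h2 (hsub.1 hs), S.U_tile i _ _ h2 (hsub.2 hs)⟩

/-- an edge support meets the cube of a vertex only at its ends -/
theorem end_of_se {i : K.W} {e : K.G} (h : y ∈ W.se e) (hi : ‖y - K.w i‖ ≤ 2 * S.r i) :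
    i = K.a e ∨ i = K.b e :=
  S.U_edge i e y (by rw [mem_closedBall, dist_eq_norm]; exact hi) (se_subset e h)

theorem nrm_ne_dir {e : K.G} {s : K.S} (h : K.edge e ⊆ K.sq s) : K.nrm s ≠ K.dir e := by
  intro hn
  have h1 := h (TM.wa_mem K e)
  have h2 := h (TM.wb_mem K e)
  have h3 := K.ab_dir e
  have e1 := TM.nrm_eq h1
  have e2 := TM.nrm_eq h2
  rw [hn] at e1 e2
  linarith

end Vale.Agent.P073.H471
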