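import Vale.Agent.P073.H471.Coll
import Vale.Agent.P073.Net.GlueFam

/-!
# P073, block KILL: widths with conical tapers, and the glueing of a family of collapses
-/

open Set Metric Topology Filter

namespace Vale.Agent.P073.H471

open _root_.P073 _root_.P073.Net
open Vale.Agent.P073.St (V)

variable {J : Finset (Fin 3)} {c y y' z lo hi : V} {a : V → ℝ} {ρ w : ℝ}

/-- one coordinate of the width -/
noncomputable def mgk (J : Finset (Fin 3)) (lo hi : V) (w : ℝ) (k : Fin 3) (y : V) : ℝ :=
  if k ∈ J then w else min w (1 / 4 * min (y k - lo k) (hi k - y k))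

/-- the width: `w`, tapering to `0` at the relative boundary of the box `Icc lo hi` in the
directions outside of `J` -/
noncomputable def marg (J : Finset (Fin 3)) (lo hi : V) (w : ℝ) (y : V) : ℝ :=
  max 0 (min (min (mgk J lo hi w 0 y) (mgk J lo hi w 1 y)) (mgk J lo hi w 2 y))

theorem mgk_le (k : Fin 3) : mgk J lo hi w k y ≤ w := by
  unfold mgk
  split_ifs
  · exact le_rfl
  · exact min_le_left _ _

theorem marg_nonneg : 0 ≤ marg J lo hi w y := le_max_left _ _

theorem marg_le (hw : 0 ≤ w) : marg J lo hi w y ≤ w :=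
  max_le hw ((min_le_right _ _).trans (mgk_le 2))

theorem marg_le_mgk (h : 0 < marg J lo hi w y) (k : Fin 3) :
    marg J lo hi w y ≤ mgk J lo hi w k y := by
  have h1 : marg J lo hi w y =
      min (min (mgk J lo hi w 0 y) (mgk J lo hi w 1 y)) (mgk J lo hi w 2 y) := by
    unfold marg at h ⊢
    rcases le_total (min (min (mgk J lo hi w 0 y) (mgk J lo hi w 1 y)) (mgk J lo hi w 2 y)) 0
      with h2 | h2
    · rw [max_eq_left h2] at h; exact absurd h (lt_irrefl _)
    · exact max_eq_right h2
  rw [h1]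
  fin_cases k
  · exact (min_le_left _ _).trans (min_le_left _ _)
  · exact (min_le_left _ _).trans (min_le_right _ _)
  · exact min_le_right _ _

/-- the taper -/
theorem marg_taper (h : 0 < marg J lo hi w y) {k : Fin 3} (hk : k ∉ J) :
    4 * marg J lo hi w y ≤ y k - lo k ∧ 4 * marg J lo hi w y ≤ hi k - y k := by
  have h1 := marg_le_mgk h k
  rw [mgk, if_neg hk] at h1
  have h2 := h1.trans (min_le_right _ _)
  have h3 := min_le_left (y k - lo k) (hi k - y k)
  have h4 := min_le_right (y k - lo k) (hi k - y k)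
  constructor <;> linarith

theorem marg_mem (h : 0 < marg J lo hi w y) {k : Fin 3} (hk : k ∉ J) :
    lo k < y k ∧ y k < hi k := by
  have := marg_taper h hk
  constructor <;> linarith [this.1, this.2]

/-- lower bound of the width -/
theorem le_marg {t : ℝ} (htw : t ≤ w) (h : ∀ k, k ∉ J → 4 * t ≤ y k - lo k ∧ 4 * t ≤ hi k - y k) :
    t ≤ marg J lo hi w y := by
  have key : ∀ k, t ≤ mgk J lo hi w k y := by
    intro k
    unfold mgk
    split_ifs with hk
    · exact htw
    · have := h k hk
      refine le_min htw ?_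
      have : 4 * t ≤ min (y k - lo k) (hi k - y k) := le_min this.1 this.2
      linarith
  exact le_max_of_le_right (le_min (le_min (key 0) (key 1)) (key 2))

theorem marg_pos (hw : 0 < w) (h : ∀ k, k ∉ J → lo k < y k ∧ y k < hi k) :
    0 < marg J lo hi w y := by
  have key : ∀ k, 0 < mgk J lo hi w k y := by
    intro k
    unfold mgk
    split_ifs with hk
    · exact hw
    · have := h k hk
      refine lt_min hw ?_
      have h1 : 0 < min (y k - lo k) (hi k - y k) := lt_min (by linarith) (by linarith)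
      linarith
  exact lt_max_of_lt_right (lt_min (lt_min (key 0) (key 1)) (key 2))

theorem abs_mgk_sub_le (k : Fin 3) :
    |mgk J lo hi w k y - mgk J lo hi w k y'| ≤ 1 / 4 * ‖y - y'‖ := by
  have hk0 := norm_le_pi_norm (y - y') k
  rw [Pi.sub_apply, Real.norm_eq_abs] at hk0
  unfold mgk
  split_ifs
  · rw [sub_self, abs_zero]; positivity
  refine (abs_min_sub_min_le_max _ _ _ _).trans (max_le ?_ ?_)
  · rw [sub_self, abs_zero]; positivity
  rw [← mul_sub, abs_mul, abs_of_pos (by norm_num : (0:ℝ) < 1 / 4)]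
  refine mul_le_mul_of_nonneg_left ?_ (by norm_num)
  refine (abs_min_sub_min_le_max _ _ _ _).trans (max_le ?_ ?_)
  · have e : y k - lo k - (y' k - lo k) = y k - y' k := by ring
    rw [e]; exact hk0
  · have e : hi k - y k - (hi k - y' k) = -(y k - y' k) := by ring
    rw [e, abs_neg]; exact hk0

theorem abs_marg_sub_le : |marg J lo hi w y - marg J lo hi w y'| ≤ 1 / 4 * ‖y - y'‖ := by
  unfold marg
  refine (abs_max_sub_max_le_max _ _ _ _).trans (max_le ?_ ?_)
  · rw [sub_self, abs_zero]; positivity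
  refine (abs_min_sub_min_le_max _ _ _ _).trans (max_le ?_ (abs_mgk_sub_le 2))
  exact (abs_min_sub_min_le_max _ _ _ _).trans (max_le (abs_mgk_sub_le 0) (abs_mgk_sub_le 1))

theorem conical_mgk (k : Fin 3) : ConicalOn (mgk J lo hi w k) univ ∧
    Continuous (mgk J lo hi w k) := by
  have hS : ConicalSet (univ : Set V) := IsOpen.conicalSet isOpen_univ
  by_cases hk : k ∈ J
  · have e : mgk J lo hi w k = fun _ => w := by funext y; rw [mgk, if_pos hk]
    rw [e]
    exact ⟨conicalOn_const _ hS, continuous_const⟩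
  · have e : mgk J lo hi w k = fun y => min w (1 / 4 * min (y k - lo k) (hi k - y k)) := by
      funext y; rw [mgk, if_neg hk]
    rw [e]
    have h1 : ConicalOn (fun y : V => y k - lo k) univ := conical_sub_const k (lo k)
    have h2 : ConicalOn (fun y : V => hi k - y k) univ :=
      (conical_sub_const k (hi k)).neg.congr fun x _ => by ring
    have h3 : ConicalOn (fun y : V => min (y k - lo k) (hi k - y k)) univ :=
      h1.rmin h2 (by fun_prop) (by fun_prop)
    have h4 : ConicalOn (fun y : V => 1 / 4 * min (y k - lo k) (hi k - y k)) univ :=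
      h3.const_smul (1 / 4)
    exact ⟨(conicalOn_const w hS).rmin h4 (by fun_prop) (by fun_prop), by fun_prop⟩

theorem width_marg : Width J (marg J lo hi w) where
  nonneg := fun _ => marg_nonneg
  indep := by
    intro y y' h
    have key : ∀ k, mgk J lo hi w k y = mgk J lo hi w k y' := by
      intro k
      unfold mgk
      split_ifs with hk
      · rfl
      · rw [h k hk]
    unfold marg
    rw [key 0, key 1, key 2]
  cont := by
    have h0 := (conical_mgk (J := J) (lo := lo) (hi := hi) (w := w) 0).2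
    have h1 := (conical_mgk (J := J) (lo := lo) (hi := hi) (w := w) 1).2
    have h2 := (conical_mgk (J := J) (lo := lo) (hi := hi) (w := w) 2).2
    unfold marg
    fun_prop
  conical := by
    have hS : ConicalSet (univ : Set V) := IsOpen.conicalSet isOpen_univ
    have h0 := conical_mgk (J := J) (lo := lo) (hi := hi) (w := w) 0
    have h1 := conical_mgk (J := J) (lo := lo) (hi := hi) (w := w) 1
    have h2 := conical_mgk (J := J) (lo := lo) (hi := hi) (w := w) 2
    have h3 := h0.1.rmin h1.1 h0.2.continuousOn h1.2.continuousOn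
    have h4 := h3.rmin h2.1 (h0.2.min h1.2).continuousOn h2.2.continuousOn
    exact (conicalOn_const (0:ℝ) hS).rmax h4 continuousOn_const
      ((h0.2.min h1.2).min h2.2).continuousOn

/-- the open support of a collapse -/
def spt (J : Finset (Fin 3)) (c : V) (a : V → ℝ) : Set V := {y | nJ J c y < 2 * a y}

theorem isOpen_spt (ha : Width J a) : IsOpen (spt J c a) :=
  isOpen_lt (conical_nJ J c).2 (continuous_const.mul ha.cont)

theorem collF_of_notMem (h : y ∉ spt J c a) : collF J c a ρ y = y :=
  collF_of_ge (not_lt.1 h)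

theorem pos_of_mem_spt (h : y ∈ spt J c a) : 0 < a y := by
  have h1 : nJ J c y < 2 * a y := h
  have h2 := nJ_nonneg (J := J) (c := c) (y := y)
  linarith

/-- glueing of collapses with disjoint supports -/
theorem exists_collapse {γ : Type*} {Λ : Set V} (hΛ : IsOpen Λ) (J : γ → Finset (Fin 3))
    (c : γ → V) (a : γ → V → ℝ) (ρ : γ → ℝ) (hρ : ∀ i, 0 < ρ i) (hρ1 : ∀ i, ρ i ≤ 1)
    (ha : ∀ i, Width (J i) (a i)) (hL : ∀ i y y', |a i y - a i y'| ≤ 1 / 4 * ‖y - y'‖)
    (hsub : ∀ i, spt (J i) (c i) (a i) ⊆ Λ)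
    (hfin : ∀ z ∈ Λ, ∃ U ∈ 𝓝 z, {i | (spt (J i) (c i) (a i) ∩ U).Nonempty}.Finite)
    (hdis : ∀ i j, i ≠ j → Disjoint (spt (J i) (c i) (a i)) (spt (J j) (c j) (a j))) :
    ∃ Φ : ConHomeo Λ Λ,
      (∀ i, ∀ y ∈ spt (J i) (c i) (a i), Φ.toFun y = collF (J i) (c i) (a i) (ρ i) y) ∧
      (∀ y, (∀ i, y ∉ spt (J i) (c i) (a i)) → Φ.toFun y = y) ∧
      (∀ y y', ‖Φ.toFun y - Φ.toFun y'‖ ≤ 5 / 2 * ‖y - y'‖) := by
  obtain ⟨Φ, h1', h2, -, -⟩ := exists_glue_ambient hΛ
    (fun i => coll (J i) (c i) (a i) (ρ i) (hρ i) (hρ1 i) (ha i))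
    (fun i => spt (J i) (c i) (a i)) hsub
    (fun i x hx => collF_of_notMem hx) hfin
    (fun i j hij x hi hj => absurd hj ((hdis i j hij).notMem_of_mem_left hi))
  have h1 : ∀ i, ∀ y ∈ spt (J i) (c i) (a i), Φ.toFun y = collF (J i) (c i) (a i) (ρ i) y := h1'
  refine ⟨Φ, h1, h2, ?_⟩
  have hl : ∀ i (y y' : V), ‖collF (J i) (c i) (a i) (ρ i) y - collF (J i) (c i) (a i) (ρ i) y'‖ ≤
      5 / 2 * ‖y - y'‖ := by
    intro i y y'
    have := collF_sub_le (J := J i) (c := c i) (hρ i) (hρ1 i) (by norm_num : (0:ℝ) ≤ 1 / 4)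
      (hL i y y')
    refine this.trans (le_of_eq ?_)
    ring
  -- one point in a support
  have h3 : ∀ i, ∀ y ∈ spt (J i) (c i) (a i), ∀ y', (∀ j, y' ∉ spt (J j) (c j) (a j)) →
      ‖Φ.toFun y - Φ.toFun y'‖ ≤ 5 / 2 * ‖y - y'‖ := by
    intro i y hy y' hy'
    have e : Φ.toFun y' = collF (J i) (c i) (a i) (ρ i) y' := by
      rw [h2 y' hy', collF_of_notMem (hy' i)]
    rw [h1 i y hy, e]
    exact hl i y y'
  intro y y'
  by_cases hy : ∃ i, y ∈ spt (J i) (c i) (a i)
  · obtain ⟨i, hi⟩ := hy
    by_cases hy' : ∃ i, y' ∈ spt (J i) (c i) (a i)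
    · obtain ⟨j, hj⟩ := hy'
      by_cases hij : i = j
      · subst hij
        rw [h1 i y hi, h1 i y' hj]
        exact hl i y y'
      · -- a point of the segment outside of both supports
        obtain ⟨z, hz, hzi⟩ : ∃ z ∈ segment ℝ y y',
            z ∉ spt (J i) (c i) (a i) ∪ spt (J j) (c j) (a j) := by
          by_contra hcon
          push Not at hcon
          have hp := (convex_segment (𝕜 := ℝ) y y').isPreconnected
          obtain ⟨z, -, hz⟩ := hp _ _ (isOpen_spt (c := c i) (ha i))
            (isOpen_spt (c := c j) (ha j)) hcon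
            ⟨y, left_mem_segment ℝ y y', hi⟩ ⟨y', right_mem_segment ℝ y y', hj⟩
          exact (hdis i j hij).notMem_of_mem_left hz.1 hz.2
        rw [mem_union, not_or] at hzi
        have e1 : collF (J i) (c i) (a i) (ρ i) z = z := collF_of_notMem hzi.1
        have e2 : collF (J j) (c j) (a j) (ρ j) z = z := collF_of_notMem hzi.2
        have h4 := hl i y z
        have h5 := hl j z y'
        rw [e1] at h4
        rw [e2] at h5
        rw [h1 i y hi, h1 j y' hj]
        have h6 : ‖y - z‖ + ‖z - y'‖ = ‖y - y'‖ := by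
          rw [← dist_eq_norm, ← dist_eq_norm, ← dist_eq_norm]
          exact dist_add_dist_of_mem_segment hz
        have h7 := norm_sub_le_norm_sub_add_norm_sub (collF (J i) (c i) (a i) (ρ i) y) z
          (collF (J j) (c j) (a j) (ρ j) y')
        linarith
    · push Not at hy'
      exact h3 i y hi y' hy'
  · push Not at hy
    by_cases hy' : ∃ i, y' ∈ spt (J i) (c i) (a i)
    · obtain ⟨j, hj⟩ := hy'
      have := h3 j y' hj y hy
      rwa [norm_sub_rev, norm_sub_rev y] 
    · push Not at hy'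
      rw [h2 y hy, h2 y' hy']
      linarith [norm_nonneg (y - y')]

end Vale.Agent.P073.H471
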