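import Vale.Agent.P073.H471.Marg
import Vale.Agent.P073.H527.Sizes
import Vale.Agent.P073.TM923.RT

/-!
# P073, block KILL: radii for the vertices and the edges of a box complex

`Rad K` is the part of `K.Sizes` which is needed for the collapse.  It is obtained from any
`K.Sizes`, or explicitly for the dyadic tilings (`Univ.lean`).
-/

open Set Metric Topology Filter

namespace Vale.Agent.P073.H471

open _root_.P073 _root_.P073.Net _root_.P073.PA691
open _root_.P073.PR720 (LF)
open Vale.Agent.P073.St (V)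

variable {Λ : Set V} {v : V} {K : BoxCx Λ v} {y z : V}

theorem wab (K : BoxCx Λ v) (e : K.G) {k : Fin 3} (hk : k ≠ K.dir e) :
    K.w (K.a e) k = K.w (K.b e) k := K.ab_off e k hk

/-- the projection of a point of the tube to the edge -/
def foot (K : BoxCx Λ v) (e : K.G) (z : V) : V :=
  Function.update (K.w (K.a e)) (K.dir e) (z (K.dir e))

theorem foot_dir (e : K.G) (z : V) : foot K e z (K.dir e) = z (K.dir e) := by simp [foot]

theorem foot_ne {e : K.G} {k : Fin 3} (hk : k ≠ K.dir e) (z : V) :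
    foot K e z k = K.w (K.a e) k := by simp [foot, hk]

theorem foot_mem {e : K.G} (h1 : K.w (K.a e) (K.dir e) ≤ z (K.dir e))
    (h2 : z (K.dir e) ≤ K.w (K.b e) (K.dir e)) : foot K e z ∈ K.edge e := by
  refine ⟨fun k => ?_, fun k => ?_⟩
  · by_cases hk : k = K.dir e
    · subst hk; rw [foot_dir]; exact h1
    · rw [foot_ne hk]
  · by_cases hk : k = K.dir e
    · subst hk; rw [foot_dir]; exact h2
    · rw [foot_ne hk]; exact (wab K e hk).le

theorem edge_coord {e : K.G} (hz : z ∈ K.edge e) {k : Fin 3} (hk : k ≠ K.dir e) :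
    z k = K.w (K.a e) k := le_antisymm ((hz.2 k).trans (wab K e hk).ge) (hz.1 k)

/-- radii -/
structure Rad (K : BoxCx Λ v) where
  r : K.W → ℝ
  q : K.G → ℝ
  r_pos : ∀ i, 0 < r i
  q_pos : ∀ e, 0 < q e
  U_sub : ∀ i, closedBall (K.w i) (2 * r i) ⊆ Λ
  U_disj : ∀ i i', i ≠ i' → Disjoint (closedBall (K.w i) (2 * r i)) (closedBall (K.w i') (2 * r i'))
  U_tile : ∀ i p, ∀ x ∈ closedBall (K.w i) (2 * r i), x ∈ K.cube p → K.w i ∈ K.cube p
  U_edge : ∀ i e, ∀ x ∈ closedBall (K.w i) (2 * r i), x ∈ K.nb e (2 * q e) → i = K.a e ∨ i = K.b e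
  tube_sub : ∀ e, K.nb e (2 * q e) ⊆ Λ
  tube_tile : ∀ e p (x : V), (∀ k, k ≠ K.dir e → |x k - K.w (K.a e) k| ≤ 2 * q e) →
    K.w (K.a e) (K.dir e) < x (K.dir e) → x (K.dir e) < K.w (K.b e) (K.dir e) →
    x ∈ K.cube p → K.edge e ⊆ K.cube p
  tube_disj : ∀ e e', e ≠ e' → ∀ x ∈ K.nb e (2 * q e), x ∈ K.nb e' (2 * q e') →
    ∃ i, (i = K.a e ∨ i = K.b e) ∧ (i = K.a e' ∨ i = K.b e')
  lfU : LF (fun i => closedBall (K.w i) (2 * r i)) Λ
  lfTube : LF (fun e => K.nb e (2 * q e)) Λ

/-- the radii of a `Sizes` -/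
def Rad.ofSizes (S : K.Sizes) : Rad K where
  r := S.r
  q := S.q
  r_pos := fun i => TM.r_pos (s := S) i
  q_pos := fun e => TM.q_pos (s := S) e
  U_sub := S.U_sub
  U_disj := S.U_disj
  U_tile := fun i p x hx hp => (S.U_tile i p x hx hp).1
  U_edge := S.U_edge
  tube_sub := S.tube_sub
  tube_tile := by
    intro e p z hoff hlo hhi hp
    have hq := TM.q_pos (s := S) e
    have hnb : z ∈ K.nb e (2 * S.q e) := by
      intro k
      by_cases hk : k = K.dir e
      · subst hk
        constructor
        · linarith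
        · linarith
      · have h1 := abs_le.1 (hoff k hk)
        have h2 := wab K e hk
        constructor <;> linarith [h1.1, h1.2]
    have key : ∀ i, z ∈ ball (K.w i) (S.r i / 2) → (i = K.a e ∨ i = K.b e) →
        K.edge e ⊆ K.cube p := by
      intro i hi hie
      have hr := TM.r_pos (s := S) i
      have h1 := (S.U_tile i p z (ball_subset_closedBall (ball_subset_ball (by linarith) hi)) hp).1
      have h2 : K.w i ∈ K.edge e := by
        rcases hie with rfl | rfl
        · exact TM.wa_mem K e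
        · exact TM.wb_mem K e
      have h3 : foot K e z ∈ K.cube p := by
        refine ⟨fun k => ?_, fun k => ?_⟩
        · by_cases hk : k = K.dir e
          · subst hk; rw [foot_dir]; exact hp.1 _
          · rw [foot_ne hk, ← edge_coord h2 hk]; exact h1.1 k
        · by_cases hk : k = K.dir e
          · subst hk; rw [foot_dir]; exact hp.2 _
          · rw [foot_ne hk, ← edge_coord h2 hk]; exact h1.2 k
      refine (K.edge_tile e p (foot K e z) (foot_mem hlo.le hhi.le) ?_ ?_ h3).1
      · intro he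
        have := congrFun he (K.dir e)
        rw [foot_dir] at this
        exact hlo.ne' this
      · intro he
        have := congrFun he (K.dir e)
        rw [foot_dir] at this
        exact hhi.ne this
    by_cases ha : z ∈ ball (K.w (K.a e)) (S.r (K.a e) / 2)
    · exact key _ ha (Or.inl rfl)
    by_cases hb : z ∈ ball (K.w (K.b e)) (S.r (K.b e) / 2)
    · exact key _ hb (Or.inr rfl)
    exact (S.tube_tile e p z hnb hp ha hb).1
  tube_disj := by
    intro e e' hne x hx hx'
    obtain ⟨i, hi, hi', -⟩ := S.tube_disj e e' hne x hx hx'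
    exact ⟨i, hi, hi'⟩
  lfU := S.lfU
  lfTube := S.lfTube

end Vale.Agent.P073.H471
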