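import Vale.Agent.P073.H212.Soft2

/-!
# P073, block KILL-SOFT: the one-sided estimates

The squeezes are monotone in their own coordinate, hence the one-sided form
`Φ y' j - Φ y j ≤ max 0 (y' j - y j) + small` of the estimates of `IsSoft`.
-/

open Set Metric Topology Filter

namespace Vale.Agent.P073.H471

open _root_.P073 _root_.P073.Net _root_.P073.PA691 _root_.P073.H236
open _root_.P073.PR720 (LF)
open Vale.Agent.P073.St (V)
open Vale.Agent.P073.H212

/-! ### one box, one direction -/

section one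
variable {n : ℕ} {j : Fin n} {c a : Fin n → ℝ} {ρ q lam : ℝ}

theorem sq1_one (hρ : 0 < ρ) (hq : 0 < q) (hl : 0 < lam) (hl1 : lam ≤ 1) (y y' : Fin n → ℝ)
    (i : Fin n) : (sq1 j c a hρ hq hl hl1).toFun y i - (sq1 j c a hρ hq hl hl1).toFun y' i ≤
      max 0 (y i - y' i) + 2 * (ρ / q) * ‖y - y'‖ := by
  have h0 : 0 < ρ / q := by positivity
  have h1 : 0 ≤ 2 * (ρ / q) * ‖y - y'‖ := by positivity
  rcases le_total (y' i) (y i) with h | h
  · have h2 := sq1_lip (c := c) (a := a) (j := j) hρ hq hl hl1 y y' i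
    rw [abs_of_nonneg (by linarith : 0 ≤ y i - y' i)] at h2
    have h3 := le_max_right 0 (y i - y' i)
    exact (le_abs_self _).trans (h2.trans (by linarith))
  · rw [max_eq_left (by linarith)]
    by_cases hi : i = j
    · subst hi
      rw [sq1_toFun]
      set z : Fin n → ℝ := Function.update y i (y' i) with hz
      have hzi : z i = y' i := by rw [hz, Function.update_self]
      have hzk : ∀ k, k ≠ i → z k = y k := fun k hk => by rw [hz, Function.update_of_ne hk]
      have hV := vd1 (c := c) (a := a) (j := i) hρ hq hl hl1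
      have m1 : vc i (sqz (c i) ρ q lam) (bmp i (c - a) (c + a) (fun _ => q) ρ) y i ≤
          vc i (sqz (c i) ρ q lam) (bmp i (c - a) (c + a) (fun _ => q) ρ) z i :=
        hV.mono (fun k hk => (hzk k hk).symm) (by rw [hzi]; exact h)
      have m2 : |vc i (sqz (c i) ρ q lam) (bmp i (c - a) (c + a) (fun _ => q) ρ) z i -
          vc i (sqz (c i) ρ q lam) (bmp i (c - a) (c + a) (fun _ => q) ρ) y' i| ≤
          (1 + ρ / q) * |z i - y' i| + |bmp i (c - a) (c + a) (fun _ => q) ρ z -
            bmp i (c - a) (c + a) (fun _ => q) ρ y'| :=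
        VD.abs_vc_sub_vc_le (by linarith) (abs_sqz_sub_le hρ hq hl hl1 _ _)
      rw [hzi, sub_self, abs_zero, mul_zero, zero_add] at m2
      have hn : ∀ k, k ≠ i → |z k - y' k| ≤ ‖y - y'‖ := fun k hk => by
        rw [hzk k hk]; exact norm_le_pi_norm (y - y') k
      have h2 := abs_bmp_sub_le (j := i) (lo := c - a) (hi := c + a) (r := fun _ => q) (C := ρ)
        hρ.le hq (fun _ => le_rfl) (y := z) (y' := y') hn (norm_nonneg _)
      have h3 : ρ * (‖y - y'‖ / q) = ρ / q * ‖y - y'‖ := by ring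
      have h4 := (le_abs_self _).trans m2
      have h5 : 0 ≤ ρ / q * ‖y - y'‖ := by positivity
      linarith
    · rw [sq1_ne hρ hq hl hl1 hi, sq1_ne hρ hq hl hl1 hi]; linarith

theorem pl_self {x : ℕ → ℝ} {m : ℕ} (hx : Inc m x) (t : ℝ) : pl m x x t = t := by
  have h1 := pl_pl hx hx t
  have h2 := pl_strictMono hx hx
  rcases lt_trichotomy (pl m x x t) t with h | h | h
  · have := h2 h
    rw [h1] at this
    exact absurd this h.asymm
  · exact h
  · have := h2 h
    rw [h1] at this
    exact absurd this h.asymm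

theorem sqz_id {c ρ q : ℝ} (hρ : 0 < ρ) (hq : 0 < q) (t : ℝ) : H236.sqz c ρ q 1 t = t := by
  have e : sv c ρ q 1 = sx c ρ q := by
    funext i
    rcases i with _ | _ | _ | i <;> simp [sv, sx]
  unfold H236.sqz
  rw [e]
  exact pl_self (inc_sx hρ hq) t

theorem sq1_id (hρ : 0 < ρ) (hq : 0 < q) (hl : 0 < lam) (hl1 : lam ≤ 1) (h1 : lam = 1)
    (y : Fin n → ℝ) : (sq1 j c a hρ hq hl hl1).toFun y = y := by
  subst h1
  funext i
  by_cases hi : i = j
  · subst hi
    rw [sq1_toFun, vc_same]
    exact cl_fix (bmp_nonneg hρ.le y) (sqz_id hρ hq _)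
  · exact sq1_ne hρ hq hl hl1 hi y

theorem exists_isSq1 (l : Finset (Fin n)) (hρ : 0 < ρ)
    (hq : 4 * ρ ≤ q) (hl : 0 < lam) (hl1 : lam ≤ 1) (ha : ∀ j ∈ l, a j = ρ) :
    ∃ T, IsSq l c a ρ q lam T ∧ (lam = 1 → ∀ y, T.toFun y = y) ∧
      ∀ y y' i, T.toFun y i - T.toFun y' i ≤
      max 0 (y i - y' i) + 4 * (ρ / q) * ‖y - y'‖ := by
  classical
  have hq0 : 0 < q := by linarith
  have hrq : 0 < ρ / q := by positivity
  have hrq1 : ρ / q ≤ 1 / 4 := by rw [div_le_iff₀ hq0]; linarith
  have hu : ConicalSet (univ : Set (Fin n → ℝ)) := isOpen_univ.conicalSet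
  induction l using Finset.induction_on with
  | empty =>
    refine ⟨ConHomeo.refl hu, ⟨?_, ?_, ?_, ?_, ?_, ?_⟩, fun _ _ => rfl, ?_⟩
    · exact ⟨continuous_id, conicalOn_id hu, fun _ _ => rfl, mapsTo_id _, surjOn_id _⟩
    · intro y _ i hi; exact absurd hi (Finset.notMem_empty i)
    · intro y i _; rfl
    · intro y i; exact right_mem_uIcc
    · intro y i
      show |y i - y i| ≤ ρ
      rw [sub_self, abs_zero]; exact hρ.le
    · intro y y' i
      show |y i - y' i| ≤ _
      have : 0 ≤ 4 * (ρ / q) * ‖y - y'‖ := by positivity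
      linarith
    · intro y y' i
      show y i - y' i ≤ _
      have : 0 ≤ 4 * (ρ / q) * ‖y - y'‖ := by positivity
      have := le_max_right 0 (y i - y' i)
      linarith
  | insert j l hj ih =>
    obtain ⟨T, hT, hTid, hT1⟩ := ih fun i hi => ha i (Finset.mem_insert_of_mem hi)
    have haj := ha j (Finset.mem_insert_self j l)
    have hcc : ∀ y ∈ cor c a, T.toFun y ∈ cor c a := by
      intro y hy i
      have h1 := hT.mem y i
      have h2 := hy i
      rw [abs_le] at h2 ⊢
      rcases le_total (c i) (y i) with h | h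
      · rw [uIcc_of_le h] at h1
        constructor <;> linarith [h1.1, h1.2]
      · rw [uIcc_of_ge h] at h1
        constructor <;> linarith [h1.1, h1.2]
    set S := sq1 j c a hρ hq0 hl hl1 with hS
    have hTj : ∀ y, T.toFun y j = y j := fun y => hT.keep y j hj
    have e : ∀ y, (T.trans S).toFun y = S.toFun (T.toFun y) := fun _ => rfl
    have hne : ∀ y i, i ≠ j → (T.trans S).toFun y i = T.toFun y i := fun y i hi => by
      rw [e, hS, sq1_ne hρ hq0 hl hl1 hi]
    have hTn : ∀ y y', ‖T.toFun y - T.toFun y'‖ ≤ 2 * ‖y - y'‖ := by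
      intro y y'
      rw [pi_norm_le_iff_of_nonneg (by positivity)]
      intro k
      have h3 := hT.lip y y' k
      have h4 : |y k - y' k| ≤ ‖y - y'‖ := norm_le_pi_norm (y - y') k
      have h5 : 4 * (ρ / q) * ‖y - y'‖ ≤ 1 * ‖y - y'‖ := by gcongr; linarith
      rw [Pi.sub_apply, Real.norm_eq_abs]
      linarith
    refine ⟨T.trans S, ⟨?_, ?_, ?_, ?_, ?_, ?_⟩, ?_, ?_⟩
    · have := supp_trans hT.supp (supp_sq1 (c := c) (a := a) hρ hq0 hl hl1 haj)
      rwa [union_self] at this
    · intro y hy i hi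
      by_cases hij : i = j
      · subst hij
        rw [e, hS, sq1_core hρ hq0 hl hl1 haj (hcc y hy), Function.update_self, hTj]
      · rw [hne y i hij]
        exact hT.core y hy i (Finset.mem_of_mem_insert_of_ne hi hij)
    · intro y i hi
      rw [Finset.mem_insert, not_or] at hi
      rw [hne y i hi.1, hT.keep y i hi.2]
    · intro y i
      by_cases hij : i = j
      · subst hij
        have := sq1_mem (c := c) (a := a) hρ hq0 hl hl1 (j := i) (T.toFun y)
        rw [hTj] at this
        exact this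
      · rw [hne y i hij]; exact hT.mem y i
    · intro y i
      by_cases hij : i = j
      · subst hij
        have := sq1_sub_le (c := c) (a := a) hρ hq0 hl hl1 (j := i) (T.toFun y)
        rw [hTj] at this
        exact this
      · rw [hne y i hij]; exact hT.disp y i
    · intro y y' i
      by_cases hij : i = j
      · subst hij
        have h1 := sq1_lip (c := c) (a := a) hρ hq0 hl hl1 (j := i) (T.toFun y) (T.toFun y') i
        rw [hTj, hTj] at h1
        have h3 : 2 * (ρ / q) * ‖T.toFun y - T.toFun y'‖ ≤ 2 * (ρ / q) * (2 * ‖y - y'‖) := by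
          have := hTn y y'
          gcongr
        rw [e, e]
        refine h1.trans ?_
        linarith
      · rw [hne y i hij, hne y' i hij]; exact hT.lip y y' i
    · intro h1 y
      rw [e, hTid h1, hS, sq1_id hρ hq0 hl hl1 h1]
    · intro y y' i
      by_cases hij : i = j
      · subst hij
        have h1 := sq1_one (c := c) (a := a) hρ hq0 hl hl1 (j := i) (T.toFun y) (T.toFun y') i
        rw [hTj, hTj] at h1
        have h3 : 2 * (ρ / q) * ‖T.toFun y - T.toFun y'‖ ≤ 2 * (ρ / q) * (2 * ‖y - y'‖) := by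
          have := hTn y y'
          gcongr
        rw [e, e]
        refine h1.trans ?_
        linarith
      · rw [hne y i hij, hne y' i hij]; exact hT1 y y' i

/-- the one-sided bound of a map which is glued from maps with disjoint supports -/
theorem one_glue {ι : Type*} {K : ι → Set (Fin n → ℝ)}
    {Θ : ι → (Fin n → ℝ) → Fin n → ℝ} {f : (Fin n → ℝ) → Fin n → ℝ}
    (hdis : ∀ b c, b ≠ c → Disjoint (K b) (K c)) (hc : ∀ b, Continuous (Θ b))
    (hid : ∀ b, ∀ x ∉ K b, Θ b x = x) (hf : ∀ b, ∀ x ∈ K b, f x = Θ b x)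
    (hf' : ∀ x, (∀ b, x ∉ K b) → f x = x) {ε : ℝ} {i : Fin n}
    (hlip : ∀ b y y', Θ b y i - Θ b y' i ≤ max 0 (y i - y' i) + ε * ‖y - y'‖) (hε : 0 ≤ ε)
    (y y' : Fin n → ℝ) : f y i - f y' i ≤ max 0 (y i - y' i) + ε * ‖y - y'‖ := by
  by_cases hy : ∃ b, y ∈ K b
  · obtain ⟨b, hb⟩ := hy
    by_cases hyb : y' ∈ K b
    · rw [hf b y hb, hf b y' hyb]; exact hlip b y y'
    by_cases hy' : ∃ c, y' ∈ K c
    · obtain ⟨c, hc'⟩ := hy'
      have hbc : b ≠ c := fun h => hyb (by rw [h]; exact hc')
      -- a common fixed point on the segment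
      have hγ : Continuous fun t : ℝ => AffineMap.lineMap y y' t := AffineMap.lineMap_continuous
      obtain ⟨t, ht, h1, h2⟩ := isPreconnected_closed_iff.1 (isPreconnected_Icc (a := (0:ℝ)) (b := 1))
        {t : ℝ | Θ b (AffineMap.lineMap y y' t) = AffineMap.lineMap y y' t}
        {t : ℝ | Θ c (AffineMap.lineMap y y' t) = AffineMap.lineMap y y' t}
        (isClosed_eq ((hc b).comp hγ) hγ) (isClosed_eq ((hc c).comp hγ) hγ)
        (fun t _ => by
          by_cases h : AffineMap.lineMap y y' t ∈ K b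
          · right
            exact hid c _ fun h' => Set.disjoint_left.1 (hdis b c hbc) h h'
          · left
            exact hid b _ h)
        ⟨1, ⟨zero_le_one, le_rfl⟩, by
          show Θ b (AffineMap.lineMap y y' (1:ℝ)) = AffineMap.lineMap y y' (1:ℝ)
          rw [AffineMap.lineMap_apply_one]
          exact hid b _ hyb⟩
        ⟨0, ⟨le_rfl, zero_le_one⟩, by
          show Θ c (AffineMap.lineMap y y' (0:ℝ)) = AffineMap.lineMap y y' (0:ℝ)
          rw [AffineMap.lineMap_apply_zero]
          exact hid c _ fun h' => Set.disjoint_left.1 (hdis b c hbc) hb h'⟩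
      simp only [mem_ofPred_eq] at h1 h2
      set z := AffineMap.lineMap y y' t with hz
      have hzi : ∀ k, z k = y k + t * (y' k - y k) := by
        intro k
        rw [hz, AffineMap.lineMap_apply]
        simp only [vsub_eq_sub, vadd_eq_add, Pi.add_apply, Pi.smul_apply, Pi.sub_apply,
          smul_eq_mul]
        ring
      have n1 : y - z = t • (y - y') := by
        ext k; simp only [Pi.sub_apply, Pi.smul_apply, smul_eq_mul, hzi]; ring
      have n2 : z - y' = (1 - t) • (y - y') := by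
        ext k; simp only [Pi.sub_apply, Pi.smul_apply, smul_eq_mul, hzi]; ring
      have m1 : ‖y - z‖ = t * ‖y - y'‖ := by
        rw [n1, norm_smul, Real.norm_of_nonneg ht.1]
      have m2 : ‖z - y'‖ = (1 - t) * ‖y - y'‖ := by
        rw [n2, norm_smul, Real.norm_of_nonneg (by linarith [ht.2])]
      have k1 : max 0 (y i - z i) = t * max 0 (y i - y' i) := by
        have : y i - z i = t * (y i - y' i) := by rw [hzi]; ring
        rw [this, mul_max_of_nonneg _ _ ht.1, mul_zero]
      have k2 : max 0 (z i - y' i) = (1 - t) * max 0 (y i - y' i) := by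
        have : z i - y' i = (1 - t) * (y i - y' i) := by rw [hzi]; ring
        rw [this, mul_max_of_nonneg _ _ (by linarith [ht.2]), mul_zero]
      have e1 := hlip b y z
      have e2 := hlip c z y'
      rw [h1, m1, k1] at e1
      rw [h2, m2, k2] at e2
      rw [hf b y hb, hf c y' hc']
      nlinarith
    · push Not at hy'
      rw [hf b y hb, hf' y' hy']
      have := hlip b y y'
      rwa [hid b y' hyb] at this
  · push Not at hy
    by_cases hy' : ∃ c, y' ∈ K c
    · obtain ⟨c, hc'⟩ := hy'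
      rw [hf' y hy, hf c y' hc']
      have := hlip c y y'
      rwa [hid c y (hy c)] at this
    · push Not at hy'
      rw [hf' y hy, hf' y' hy']
      have : 0 ≤ ε * ‖y - y'‖ := by positivity
      have := le_max_right 0 (y i - y' i)
      linarith

/-- `exists_squeezeL` with the one-sided bound -/
theorem exists_squeeze1 {ι : Type*} {Λ : Set (Fin n → ℝ)} (hΛ : IsOpen Λ)
    (J : Finset (Fin n)) {R : ℝ} (lam : ι → ℝ) (hl : ∀ b, 0 < lam b) (hl1 : ∀ b, lam b ≤ 1)
    (hR : 4 ≤ R) (c a : ι → Fin n → ℝ) (ρ : ι → ℝ) (hρ : ∀ b, 0 < ρ b)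
    (ha : ∀ b, ∀ j ∈ J, a b j = ρ b)
    (hK : ∀ b, cor (c b) (fun i => a b i + R * ρ b) ⊆ Λ)
    (hdis : ∀ b b', b ≠ b' →
      Disjoint (cor (c b) fun i => a b i + R * ρ b) (cor (c b') fun i => a b' i + R * ρ b'))
    (hfin : ∀ z ∈ Λ, ∃ U ∈ 𝓝 z, {b | ((cor (c b) fun i => a b i + R * ρ b) ∩ U).Nonempty}.Finite) :
    ∃ T : ConHomeo Λ Λ,
      (∀ b, ∀ y ∈ cor (c b) (a b), ∀ i ∈ J, T.toFun y i = c b i + lam b * (y i - c b i)) ∧
      (∀ y, ∀ i ∉ J, T.toFun y i = y i) ∧
      (∀ y, (∀ b, lam b ≠ 1 → y ∉ cor (c b) fun i => a b i + R * ρ b) → T.toFun y = y) ∧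
      (∀ b, ∀ y ∈ cor (c b) (fun i => a b i + R * ρ b), ∀ i,
        T.toFun y i ∈ uIcc (c b i) (y i) ∧ |T.toFun y i - y i| ≤ ρ b) ∧
      (∀ y y' i, T.toFun y i - T.toFun y' i ≤ max 0 (y i - y' i) + 4 / R * ‖y - y'‖) := by
  have hR0 : 0 < R := by linarith
  have h1 : ∀ b, ∃ T, IsSq J (c b) (a b) (ρ b) (R * ρ b) (lam b) T ∧
      (lam b = 1 → ∀ y, T.toFun y = y) ∧ ∀ y y' i, T.toFun y i - T.toFun y' i ≤
        max 0 (y i - y' i) + 4 * (ρ b / (R * ρ b)) * ‖y - y'‖ := fun b =>
    exists_isSq1 J (hρ b) (by have := hρ b; nlinarith) (hl b) (hl1 b) (ha b)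
  choose Θ hΘ hΘid hΘ1 using h1
  obtain ⟨T, hT1, hT2, -, -⟩ := exists_glue_homeo hΛ Θ
    (fun b => cor (c b) fun i => a b i + R * ρ b) (fun b => (hΘ b).supp) hK hfin
    (fun b b' hbb x hx hx' => absurd hx' (Set.disjoint_left.1 (hdis b b' hbb) hx))
  refine ⟨T, ?_, ?_, ?_, ?_, ?_⟩
  · intro b y hy i hi
    have h3 : y ∈ cor (c b) fun i => a b i + R * ρ b := fun k => by
      have := hy k
      have h4 := hρ b
      have : 0 ≤ R * ρ b := by positivity
      show |y k - c b k| ≤ a b k + R * ρ b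
      linarith
    rw [hT1 b y h3]
    exact (hΘ b).core y hy i hi
  · intro y i hi
    by_cases h : ∃ b, y ∈ cor (c b) fun i => a b i + R * ρ b
    · obtain ⟨b, hb⟩ := h
      rw [hT1 b y hb]; exact (hΘ b).keep y i hi
    · push Not at h
      rw [hT2 y h]
  · intro y hy
    by_cases h : ∃ b, y ∈ cor (c b) fun i => a b i + R * ρ b
    · obtain ⟨b, hb⟩ := h
      have h3 : lam b = 1 := by
        by_contra hne
        exact hy b hne hb
      rw [hT1 b y hb, hΘid b h3]
    · push Not at h
      rw [hT2 y h]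
  · intro b y hy i
    rw [hT1 b y hy]
    exact ⟨(hΘ b).mem y i, (hΘ b).disp y i⟩
  · intro y y' i
    refine one_glue hdis (fun b => (hΘ b).supp.cont) (fun b x hx => (hΘ b).supp.id x hx) hT1 hT2
      (fun b y y' => ?_) (by positivity) y y'
    have h4 := hΘ1 b y y' i
    have h5 : 4 * (ρ b / (R * ρ b)) = 4 / R := by
      have := (hρ b).ne'
      field_simp
    rwa [h5] at h4

end one

end Vale.Agent.P073.H471
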