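import Vale.Agent.P073.H471.Cells
import Vale.Agent.P073.H471.Cover
import Vale.Agent.P073.TM907.Sep

/-!
# P073, block KILL-U: universal radii, widths and boxes for the dyadic tilings
-/

open Set Metric Topology Filter

namespace Vale.Agent.P073.H471

open _root_.P073 _root_.P073.Net _root_.P073.PA691 _root_.P073.TM
open Vale.Agent.P073.St (V)
open _root_.P073.PR720 (LF)

variable {Λ : Set V} {ρ : V → ℝ} {v x : V} {σ τ : Face}

/-- the open star box of a cell -/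
def starB (v : V) (σ : Face) : Set V :=
  {x | ∀ k, if σ.n k then σ.lo v k - σ.sd < x k ∧ x k < σ.lo v k + σ.sd
    else σ.lo v k < x k ∧ x k < σ.hi v k}

theorem isOpen_starB (v : V) (σ : Face) : IsOpen (starB v σ) := by
  have : starB v σ = ⋂ k, {x : V | if σ.n k then σ.lo v k - σ.sd < x k ∧ x k < σ.lo v k + σ.sd
    else σ.lo v k < x k ∧ x k < σ.hi v k} := by
    ext x; simp [starB]
  rw [this]
  refine isOpen_iInter_of_finite fun k => ?_
  cases h : σ.n k with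
  | true =>
    simp only [if_true]
    exact (isOpen_lt continuous_const (continuous_apply k)).inter
      (isOpen_lt (continuous_apply k) continuous_const)
  | false =>
    simp only [Bool.false_eq_true, if_false]
    exact (isOpen_lt continuous_const (continuous_apply k)).inter
      (isOpen_lt (continuous_apply k) continuous_const)

/-- the cubes around the cell cover the star box -/
theorem starB_cube (hx : x ∈ starB v σ) : ∃ a, x ∈ dyc v σ.m (σ.cube a) := by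
  refine ⟨fun k => decide (x k < σ.lo v k), fun k => ?_⟩
  have hk := hx k
  rw [Face.div_add_sd]
  cases h : σ.n k with
  | false =>
    rw [h] at hk
    simp only [Bool.false_eq_true, if_false] at hk
    rw [Face.cube_of h]
    rw [Face.hi_of_sd h, Face.lo_apply] at hk
    exact ⟨hk.1.le, by linarith [hk.2]⟩
  | true =>
    rw [h] at hk
    simp only [if_true] at hk
    by_cases hlt : x k < σ.lo v k
    · rw [Face.cube_of_true h _ (by simp [hlt])]
      have : (((σ.z k - 1 : ℤ) : ℝ)) / 2 ^ σ.m = σ.z k / 2 ^ σ.m - σ.sd := by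
        unfold Face.sd; push_cast; ring
      rw [this]
      rw [Face.lo_apply] at hk hlt
      exact ⟨by linarith [hk.1], by linarith⟩
    · rw [Face.cube_of_false _ (by simp [hlt])]
      push Not at hlt
      rw [Face.lo_apply] at hk hlt
      exact ⟨hlt, by linarith [hk.2]⟩

/-- **star lemma**: a tile which meets the open star box contains one of the cubes around the
cell -/
theorem starB_tile (hσ : IsCell ρ v σ) (hx : x ∈ starB v σ) {m : ℕ} {z : Fin 3 → ℤ}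
    (ht : IsTile ρ v m z) (hxt : x ∈ dyc v m z) :
    ∃ a, dyc v σ.m (σ.cube a) ⊆ dyc v m z := by
  obtain ⟨y, hy, hyo⟩ := mem_closure_iff_nhds.1 (dyc_sub_closure v m z hxt) _
    ((isOpen_starB v σ).mem_nhds hx)
  obtain ⟨a, ha⟩ := starB_cube hy
  obtain ⟨m', z', ht', hsub⟩ := hσ.1 a
  obtain ⟨e1, e2⟩ := tile_eq ht ht' hyo (hsub ha)
  subst e1 e2
  exact ⟨a, hsub⟩

theorem starB_cl (hσ : IsCell ρ v σ) (hx : x ∈ starB v σ) {m : ℕ} {z : Fin 3 → ℤ}
    (ht : IsTile ρ v m z) (hxt : x ∈ dyc v m z) : σ.cl v ⊆ dyc v m z := by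
  obtain ⟨a, ha⟩ := starB_tile hσ hx ht hxt
  exact (Face.cl_sub_cube v σ a).trans ha

/-- sides of cells with a common point -/
theorem sd_le_of_le {m m' : ℕ} (h : m' ≤ m + 2) : (1:ℝ) / 2 ^ m ≤ 4 * (1 / 2 ^ m') := by
  have h1 : (2:ℝ) ^ m' ≤ 2 ^ (m + 2) := pow_le_pow_right₀ (by norm_num) h
  rw [pow_add] at h1
  have h2 : (0:ℝ) < 2 ^ m := by positivity
  have h3 : (0:ℝ) < 2 ^ m' := by positivity
  rw [mul_one_div, div_le_div_iff₀ h2 h3]
  linarith

theorem sd_comp (hρ : SizeFn Λ ρ) (hσ : IsCell ρ v σ) (hτ : IsCell ρ v τ) (hx : x ∈ σ.ri v)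
    (hxτ : x ∈ τ.cl v) : σ.sd ≤ τ.sd ∧ τ.sd ≤ 4 * σ.sd := by
  constructor
  · have := hσ.level_le hτ hx hxτ
    unfold Face.sd
    exact one_div_le_one_div_of_le (by positivity) (pow_le_pow_right₀ (by norm_num) this)
  · exact sd_le_of_le (hτ.level_le_add hρ hσ hxτ (Face.ri_sub_cl v σ hx))

namespace Cells

variable {K : BoxCx Λ v} (C : Cells ρ v K)

/-- side at a vertex -/
noncomputable def sW (i : K.W) : ℝ := (C.fW i).sd
/-- side of an edge -/
noncomputable def sG (e : K.G) : ℝ := (C.fG e).sd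
/-- side of a square -/
noncomputable def sS (s : K.S) : ℝ := (C.fS s).sd
/-- side of a tile -/
noncomputable def sT (p : K.T) : ℝ := 1 / 2 ^ (C.fT p).1

theorem sW_pos (i : K.W) : 0 < C.sW i := (C.fW i).sd_pos
theorem sG_pos (e : K.G) : 0 < C.sG e := (C.fG e).sd_pos
theorem sS_pos (s : K.S) : 0 < C.sS s := (C.fS s).sd_pos
theorem sT_pos (p : K.T) : 0 < C.sT p := by unfold sT; positivity

theorem edge_eq (e : K.G) : K.edge e = (C.fG e).cl v := by
  show Icc _ _ = Icc _ _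
  rw [C.a_eq, C.b_eq]

theorem sq_eq (s : K.S) : K.sq s = (C.fS s).cl v := by
  show Icc _ _ = Icc _ _
  rw [C.slo_eq, C.shi_eq]

theorem cl_tf (p : K.T) : (tf (C.fT p).1 (C.fT p).2).cl v = K.cube p := by
  rw [TM.cl_tf, C.cube_eq]

theorem w_ri (i : K.W) : K.w i ∈ (C.fW i).ri v := by
  rw [Face.ri_of_V (C.isV i), C.w_eq]; rfl

/-- vertex and edge -/
theorem sW_sG {i : K.W} {e : K.G} (hρ : SizeFn Λ ρ) (h : K.w i ∈ K.edge e) :
    C.sW i ≤ C.sG e ∧ C.sG e ≤ 4 * C.sW i :=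
  sd_comp hρ (C.cellW i) (C.cellG e) (C.w_ri i) (by rw [← C.edge_eq]; exact h)

/-- vertex and square -/
theorem sW_sS {i : K.W} {s : K.S} (hρ : SizeFn Λ ρ) (h : K.w i ∈ K.sq s) :
    C.sW i ≤ C.sS s ∧ C.sS s ≤ 4 * C.sW i :=
  sd_comp hρ (C.cellW i) (C.cellS s) (C.w_ri i) (by rw [← C.sq_eq]; exact h)

/-- vertex and tile -/
theorem sW_sT {i : K.W} {p : K.T} (hρ : SizeFn Λ ρ) (h : K.w i ∈ K.cube p) :
    C.sW i ≤ C.sT p ∧ C.sT p ≤ 4 * C.sW i :=
  sd_comp hρ (C.cellW i) (isCell_tf (C.tile p)) (C.w_ri i) (by rw [C.cl_tf]; exact h)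

/-- edge and square -/
theorem sG_sS {e : K.G} {s : K.S} (hρ : SizeFn Λ ρ) (h : K.edge e ⊆ K.sq s) :
    C.sG e ≤ C.sS s ∧ C.sS s ≤ 4 * C.sG e :=
  sd_comp hρ (C.cellG e) (C.cellS s) (Face.ctr_mem_ri v _) (by
    rw [← C.sq_eq]; refine h ?_; rw [C.edge_eq]
    exact Face.ri_sub_cl v _ (Face.ctr_mem_ri v _))

/-- edge and tile -/
theorem sG_sT {e : K.G} {p : K.T} (hρ : SizeFn Λ ρ) (h : K.edge e ⊆ K.cube p) :
    C.sG e ≤ C.sT p ∧ C.sT p ≤ 4 * C.sG e :=
  sd_comp hρ (C.cellG e) (isCell_tf (C.tile p)) (Face.ctr_mem_ri v _) (by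
    rw [C.cl_tf]; refine h ?_; rw [C.edge_eq]
    exact Face.ri_sub_cl v _ (Face.ctr_mem_ri v _))

/-- square and tile -/
theorem sS_sT {s : K.S} {p : K.T} (hρ : SizeFn Λ ρ) (h : K.sq s ⊆ K.cube p) :
    C.sS s ≤ C.sT p ∧ C.sT p ≤ 4 * C.sS s :=
  sd_comp hρ (C.cellS s) (isCell_tf (C.tile p)) (Face.ctr_mem_ri v _) (by
    rw [C.cl_tf]; refine h ?_; rw [C.sq_eq]
    exact Face.ri_sub_cl v _ (Face.ctr_mem_ri v _))

theorem hi_sub_lo (p : K.T) (k : Fin 3) : K.hi p k - K.lo p k = C.sT p := by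
  have h1 : Icc (K.lo p) (K.hi p) = Icc (tlo v (C.fT p)) (thi v (C.fT p)) := by
    rw [icc_eq]; exact C.cube_eq p
  have hle : K.lo p ≤ K.hi p := fun k => (K.lt p k).le
  obtain ⟨h2, h3⟩ := (Icc_eq_Icc_iff hle).1 h1
  rw [h2, h3, thi, tlo, sT, add_div]
  ring

theorem box_of_nb {e : K.G} {t : ℝ} (h : x ∈ K.nb e t) : x ∈ (C.fG e).box v t := by
  intro k
  have := h k
  rw [C.a_eq, C.b_eq] at this
  exact this

theorem box_of_ball {i : K.W} {t : ℝ} (h : x ∈ closedBall (K.w i) t) :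
    x ∈ (C.fW i).box v t := by
  intro k
  rw [mem_closedBall, dist_eq_norm] at h
  have h1 := (norm_le_pi_norm (x - K.w i) k).trans h
  rw [Pi.sub_apply, Real.norm_eq_abs, C.w_eq, abs_le] at h1
  rw [Face.hi_of_V (C.isV i)]
  constructor <;> linarith

theorem box_of_cube {p : K.T} (h : x ∈ K.cube p) :
    x ∈ (tf (C.fT p).1 (C.fT p).2).box v 0 := by
  refine Face.cl_sub_box le_rfl ?_
  rw [C.cl_tf]; exact h

theorem starB_of_ball {i : K.W} {t : ℝ} (ht : t < C.sW i) (h : x ∈ closedBall (K.w i) t) :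
    x ∈ starB v (C.fW i) := by
  intro k
  have h1 := C.box_of_ball h k
  rw [Face.hi_of_V (C.isV i)] at h1
  rw [if_pos (C.isV i k)]
  have : C.sW i = (C.fW i).sd := rfl
  constructor <;> linarith

/-- the star box of an edge -/
theorem starB_of_tube {e : K.G} (h : ∀ k, k ≠ K.dir e → |x k - K.w (K.a e) k| < C.sG e)
    (h1 : K.w (K.a e) (K.dir e) < x (K.dir e)) (h2 : x (K.dir e) < K.w (K.b e) (K.dir e)) :
    x ∈ starB v (C.fG e) := by
  intro k
  by_cases hk : k = K.dir e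
  · subst hk
    rw [if_neg (by simp [Face.E_t (C.isE e)])]
    rw [C.a_eq] at h1
    rw [C.b_eq] at h2
    exact ⟨h1, h2⟩
  · rw [if_pos (Face.E_n (C.isE e) hk)]
    have h3 := abs_lt.1 (h k hk)
    rw [C.a_eq] at h3
    have : C.sG e = (C.fG e).sd := rfl
    constructor <;> linarith

/-- universal radii -/
noncomputable def rad (hρ : SizeFn Λ ρ) : Rad K where
  r := fun i => C.sW i / 128
  q := fun e => C.sG e / 128
  r_pos := fun i => by have := C.sW_pos i; positivity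
  q_pos := fun e => by have := C.sG_pos e; positivity
  U_sub := fun i x hx => (C.cellW i).box_sub hρ (r := 2 * (C.sW i / 128))
    (by unfold sW; linarith) (C.box_of_ball hx)
  U_disj := by
    intro i i' hne
    rw [Set.disjoint_left]
    intro x hx hx'
    obtain ⟨p, hp, hp'⟩ := (C.cellW i).nonempty_inter hρ (C.cellW i') (r := 2 * (C.sW i / 128))
      (r' := 2 * (C.sW i' / 128)) (by unfold sW; linarith) (by unfold sW; linarith)
      (C.box_of_ball hx) (C.box_of_ball hx')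
    rw [Face.cl_of_V (C.isV i), mem_singleton_iff] at hp
    rw [Face.cl_of_V (C.isV i'), mem_singleton_iff] at hp'
    refine hne (K.w_inj ?_)
    rw [C.w_eq, C.w_eq, ← hp, ← hp']
  U_tile := by
    intro i p x hx hxp
    have h1 : x ∈ starB v (C.fW i) := C.starB_of_ball (by have := C.sW_pos i; linarith) hx
    rw [C.cube_eq] at hxp ⊢
    have h2 := starB_cl (C.cellW i) h1 (C.tile p) hxp
    refine h2 ?_
    rw [C.w_eq]
    exact Face.lo_mem_cl v _
  U_edge := by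
    intro i e x hx hxe
    obtain ⟨p, hp, hp'⟩ := (C.cellW i).nonempty_inter hρ (C.cellG e) (r := 2 * (C.sW i / 128))
      (r' := 2 * (C.sG e / 128)) (by unfold sW; linarith) (by unfold sG; linarith)
      (C.box_of_ball hx) (C.box_of_nb hxe)
    rw [Face.cl_of_V (C.isV i), mem_singleton_iff, ← C.w_eq] at hp
    rw [← C.edge_eq, hp] at hp'
    exact K.w_on_edge i e hp'
  tube_sub := fun e x hx => (C.cellG e).box_sub hρ (r := 2 * (C.sG e / 128))
    (by unfold sG; linarith) (C.box_of_nb hx)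
  tube_tile := by
    intro e p x h h1 h2 hxp
    have hs := C.sG_pos e
    have h3 : x ∈ starB v (C.fG e) := C.starB_of_tube (fun k hk => (h k hk).trans_lt
      (by linarith)) h1 h2
    rw [C.cube_eq] at hxp ⊢
    rw [C.edge_eq]
    exact starB_cl (C.cellG e) h3 (C.tile p) hxp
  tube_disj := by
    intro e e' hne x hx hx'
    obtain ⟨p, hp, hp'⟩ := (C.cellG e).nonempty_inter hρ (C.cellG e') (r := 2 * (C.sG e / 128))
      (r' := 2 * (C.sG e' / 128)) (by unfold sG; linarith) (by unfold sG; linarith)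
      (C.box_of_nb hx) (C.box_of_nb hx')
    rw [← C.edge_eq] at hp hp'
    obtain ⟨i, hi⟩ := K.edge_meet e e' hne p hp hp'
    exact ⟨i, K.w_on_edge i e (hi ▸ hp), K.w_on_edge i e' (hi ▸ hp')⟩
  lfU := by
    intro z hz
    obtain ⟨U, hU, hfin⟩ := K.lfT z hz
    have hfv : ∀ p, {i | K.w i ∈ K.cube p}.Finite := by
      intro p
      have hE := TM.lf_finite K.lfG (C := K.cube p) isCompact_Icc (K.sub p)
      refine ((hE.image K.a).union (hE.image K.b)).subset ?_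
      intro i hi
      obtain ⟨e, he | he⟩ := K.w_edge i
      · left
        exact ⟨e, ⟨K.w (K.a e), TM.wa_mem K e, he ▸ hi⟩, he.symm⟩
      · right
        exact ⟨e, ⟨K.w (K.b e), TM.wb_mem K e, he ▸ hi⟩, he.symm⟩
    refine ⟨U, hU, (hfin.biUnion fun p _ => hfv p).subset ?_⟩
    rintro i ⟨x, hx, hxU⟩
    have hxΛ : x ∈ Λ := (C.cellW i).box_sub hρ (r := 2 * (C.sW i / 128))
      (by unfold sW; linarith) (C.box_of_ball hx)
    obtain ⟨p, hp⟩ := K.cover x hxΛ
    rw [mem_iUnion₂]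
    refine ⟨p, ⟨x, hp, hxU⟩, ?_⟩
    have h1 : x ∈ starB v (C.fW i) := C.starB_of_ball (by have := C.sW_pos i; linarith) hx
    have hp' : x ∈ K.cube p := hp
    rw [C.cube_eq] at hp'
    have h2 := starB_cl (C.cellW i) h1 (C.tile p) hp' (Face.lo_mem_cl v _)
    rw [← C.w_eq, ← C.cube_eq] at h2
    exact h2
  lfTube := by
    intro z hz
    obtain ⟨U, hU, hfin⟩ := K.lfT z hz
    have hfe : ∀ p, {e | (Icc (K.w (K.a e)) (K.w (K.b e)) ∩ K.cube p).Nonempty}.Finite := fun p =>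
      TM.lf_finite K.lfG (C := K.cube p) isCompact_Icc (K.sub p)
    refine ⟨U, hU, (hfin.biUnion fun p _ => hfe p).subset ?_⟩
    rintro e ⟨x, hx, hxU⟩
    have hxΛ : x ∈ Λ := (C.cellG e).box_sub hρ (r := 2 * (C.sG e / 128))
      (by unfold sG; linarith) (C.box_of_nb hx)
    obtain ⟨p, hp⟩ := K.cover x hxΛ
    rw [mem_iUnion₂]
    refine ⟨p, ⟨x, hp, hxU⟩, ?_⟩
    obtain ⟨y, hy, hy'⟩ := (C.cellG e).nonempty_inter hρ (isCell_tf (C.tile p))
      (r := 2 * (C.sG e / 128)) (r' := 0) (by unfold sG; linarith)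
      (by have := (tf (C.fT p).1 (C.fT p).2).sd_pos; positivity)
      (C.box_of_nb hx) (C.box_of_cube hp)
    rw [← C.edge_eq] at hy
    rw [C.cl_tf] at hy'
    exact ⟨y, hy, hy'⟩

/-- universal widths -/
noncomputable def wid (hρ : SizeFn Λ ρ) {A B D : ℝ} (hA : 0 < A) (hB : 0 < B) (hD : 0 < D)
    (hA1 : A ≤ 1 / 128) (hB1 : B ≤ 1 / 128) (hD1 : D ≤ 1 / 4) : Wid K (C.rad hρ) where
  wv := fun i => A * C.sW i
  we := fun e => B * C.sG e
  ws := fun s => D * C.sS s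
  wv_pos := fun i => mul_pos hA (C.sW_pos i)
  we_pos := fun e => mul_pos hB (C.sG_pos e)
  ws_pos := fun s => mul_pos hD (C.sS_pos s)
  wv_le := fun i => by
    show A * C.sW i ≤ C.sW i / 128
    nlinarith [C.sW_pos i]
  we_le := fun e => by
    show B * C.sG e ≤ C.sG e / 128
    nlinarith [C.sG_pos e]
  ws_le := fun s => by
    rw [C.hi_sub_lo]
    have := (C.sS_sT hρ (TM.sq_subset K s).1).1
    nlinarith [C.sS_pos s]
  ws_le' := fun s => by
    rw [C.hi_sub_lo]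
    have := (C.sS_sT hρ (TM.sq_subset K s).2).1
    nlinarith [C.sS_pos s]

/-- universal boxes -/
noncomputable def boxes (hρ : SizeFn Λ ρ) {A B D : ℝ} (hA : 0 < A) (hB : 0 < B) (hD : 0 < D)
    (hA1 : A ≤ 1 / 128) (hB1 : B ≤ 1 / 128) (hD1 : D ≤ 1 / 4) {T u t : ℝ} (hT : 0 < T)
    (hu : 0 < u) (ht : 0 < t) (hTB : T ≤ B) (hTA : 32 * T ≤ A) (huT : 8 * u ≤ T) (htu : 4 * t ≤ u)
    (htD : t ≤ D) : Boxes (C.wid hρ hA hB hD hA1 hB1 hD1) where
  T := fun e => T * C.sG e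
  u := fun s => u * C.sS s
  τ := fun s => t * C.sS s
  T_pos := fun e => mul_pos hT (C.sG_pos e)
  u_pos := fun s => mul_pos hu (C.sS_pos s)
  τ_pos := fun s => mul_pos ht (C.sS_pos s)
  T_le := fun e => mul_le_mul_of_nonneg_right hTB (C.sG_pos e).le
  T_le_a := fun e => by
    show 8 * (T * C.sG e) ≤ A * C.sW (K.a e)
    have := (C.sW_sG hρ (TM.wa_mem K e)).2
    nlinarith [C.sW_pos (K.a e), mul_le_mul_of_nonneg_left this hT.le]
  T_le_b := fun e => by
    show 8 * (T * C.sG e) ≤ A * C.sW (K.b e)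
    have := (C.sW_sG hρ (TM.wb_mem K e)).2
    nlinarith [C.sW_pos (K.b e), mul_le_mul_of_nonneg_left this hT.le]
  u_le := fun s e h => by
    have := (C.sG_sS hρ h).2
    nlinarith [C.sG_pos e, mul_le_mul_of_nonneg_left this hu.le]
  τ_le := fun s => mul_le_mul_of_nonneg_right htD (C.sS_pos s).le
  τ_le_u := fun s => by nlinarith [C.sS_pos s]

/-- **universal covering** -/
theorem cover (hρ : SizeFn Λ ρ) {A B D : ℝ} (hA : 0 < A) (hB : 0 < B) (hD : 0 < D)
    (hA1 : A ≤ 1 / 128) (hB1 : B ≤ 1 / 128) (hD1 : D ≤ 1 / 4) {T u t : ℝ} (hT : 0 < T)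
    (hu : 0 < u) (ht : 0 < t) (hTB : T ≤ B) (hTA : 32 * T ≤ A) (huT : 8 * u ≤ T) (htu : 4 * t ≤ u)
    (htD : t ≤ D) {p : K.T} {y : V} (hy : y ∈ K.cube p)
    (hyk : ∃ k, y k ≤ K.lo p k + t / 8 * C.sT p ∨ K.hi p k - t / 8 * C.sT p ≤ y k) :
    (∃ s, (p = K.sm s ∨ p = K.sp s) ∧ closedBall y (t / 8 * C.sT p) ⊆
      (C.boxes hρ hA hB hD hA1 hB1 hD1 hT hu ht hTB hTA huT htu htD).P s) ∨
    (∃ e, K.edge e ⊆ K.cube p ∧ closedBall y (t / 8 * C.sT p) ⊆
      (C.boxes hρ hA hB hD hA1 hB1 hD1 hT hu ht hTB hTA huT htu htD).E e) ∨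
    ∃ i, K.w i ∈ K.cube p ∧ closedBall y (t / 8 * C.sT p) ⊆
      Zv (C.wid hρ hA hB hD hA1 hB1 hD1) i := by
  have e1 : t / 8 * C.sT p = (t / 4 * C.sT p) / 2 := by ring
  have hp := C.sT_pos p
  rw [e1] at hyk ⊢
  refine (C.boxes hρ hA hB hD hA1 hB1 hD1 hT hu ht hTB hTA huT htu htD).cover_near
    (by positivity) (fun s hs => ?_) (fun e he => ?_) (fun i hi => ?_) hy hyk
  · show t / 4 * C.sT p ≤ t * C.sS s
    have hsub : K.sq s ⊆ K.cube p := by
      rcases hs with rfl | rfl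
      · exact (TM.sq_subset K s).1
      · exact (TM.sq_subset K s).2
    have := (C.sS_sT hρ hsub).2
    nlinarith
  · show 8 * (t / 4 * C.sT p) ≤ T * C.sG e
    have := (C.sG_sT hρ he).2
    have h2 := C.sG_pos e
    have h3 : 8 * t ≤ T := by linarith
    nlinarith [mul_le_mul_of_nonneg_left this ht.le, mul_le_mul_of_nonneg_right h3 h2.le]
  · show t / 4 * C.sT p ≤ A * C.sW i
    have := (C.sW_sT hρ hi).2
    have h2 := C.sW_pos i
    have h3 : t ≤ A := by linarith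
    nlinarith [mul_le_mul_of_nonneg_left this ht.le, mul_le_mul_of_nonneg_right h3 h2.le]

end Cells

end Vale.Agent.P073.H471
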