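import Vale.Agent.P073.H471.Stage
import Vale.Agent.P073.H471.Avg

/-!
# P073, block FF: centres and weights for a locally finite family of cubes
-/

open Set Metric Topology Filter MeasureTheory
open scoped ENNReal NNReal

namespace Vale.Agent.P073.H471

open _root_.P073 _root_.P073.Net
open Vale.Agent.P073.St (V)

variable {ι : Type*} {Λ : Set V} {z c : ι → V} {σ : ι → ℝ}

/-- the octant in which the cube `closedBall a s` is seen from `y` -/
noncomputable def oct (a y : V) : Fin 3 → Bool := by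
  classical exact fun k => decide (y k ≤ a k)

theorem oct_mem {a y : V} {s : ℝ} (hy : y ∈ closedBall a s) {t : ℝ} (ht : 0 < t) (hts : t < s) :
    (fun k => y k + t * (if oct a y k then 1 else -1) : V) ∈ ball a s := by
  rw [mem_ball, dist_eq_norm, pi_norm_lt_iff (ht.trans hts)]
  intro k
  have h1 := norm_le_pi_norm (y - a) k
  rw [mem_closedBall, dist_eq_norm] at hy
  rw [Pi.sub_apply, Real.norm_eq_abs] at h1
  have h2 := abs_le.1 (h1.trans hy)
  rw [Pi.sub_apply, Real.norm_eq_abs, abs_lt]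
  simp only [oct]
  by_cases h : y k ≤ a k
  · simp only [h, decide_true, if_true, mul_one]
    exact ⟨by linarith [h2.1], by linarith⟩
  · simp only [h, decide_false, Bool.false_eq_true, if_false, mul_neg, mul_one]
    push Not at h
    exact ⟨by linarith, by linarith [h2.2]⟩

theorem Cubes.oct_inj (W : Cubes Λ z σ) (y : V) :
    InjOn (fun i => oct (z i) y) {i | y ∈ closedBall (z i) (σ i)} := by
  intro i hi j hj hij
  by_contra hne
  have hp := W.pos i
  have hq := W.pos j
  have ht : 0 < min (σ i) (σ j) / 2 := by positivity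
  have h1 := oct_mem (s := σ i) hi ht (by have := min_le_left (σ i) (σ j); linarith)
  have h2 := oct_mem (s := σ j) hj ht (by have := min_le_right (σ i) (σ j); linarith)
  have hij' : oct (z i) y = oct (z j) y := hij
  rw [← hij'] at h2
  exact disjoint_left.1 (W.disj i j hne) h1 h2

theorem Cubes.finite_mem (W : Cubes Λ z σ) (y : V) : {i | y ∈ closedBall (z i) (σ i)}.Finite :=
  Set.Finite.of_injOn (t := univ) (fun _ _ => mem_univ _) (W.oct_inj y) finite_univ

/-- at most eight closed cubes contain a point -/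
theorem Cubes.overlap (W : Cubes Λ z σ) (y : V) (S : Finset ι)
    (hS : ∀ i ∈ S, y ∈ closedBall (z i) (σ i)) : S.card ≤ 8 := by
  have h1 : S.card ≤ (Finset.univ : Finset (Fin 3 → Bool)).card :=
    Finset.card_le_card_of_injOn (fun i => oct (z i) y) (fun _ _ => Finset.mem_univ _)
      fun i hi j hj hij => W.oct_inj y (hS i hi) (hS j hj) hij
  simpa using h1

/-- the weight at a point of the target -/
noncomputable def wgt (z : ι → V) (σ : ι → ℝ) (c : ι → V) (y : V) : ℝ≥0∞ :=
  1 + ∑' i, (closedBall (z i) (σ i)).indicator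
    (fun y => ENNReal.ofReal (σ i) / ENNReal.ofReal ‖y - c i‖) y

theorem one_le_wgt (y : V) : 1 ≤ wgt z σ c y := le_self_add

theorem le_wgt {i : ι} {y : V} (hy : y ∈ closedBall (z i) (σ i)) :
    ENNReal.ofReal (σ i) / ENNReal.ofReal ‖y - c i‖ ≤ wgt z σ c y := by
  unfold wgt
  refine le_trans ?_ le_add_self
  refine le_trans (le_of_eq ?_) (ENNReal.le_tsum i)
  rw [indicator_of_mem hy]

theorem sum_rpow_le {S : Finset ι} (hS : S.card ≤ 8) (a : ι → ℝ≥0∞) {p : ℝ} (hp : 0 ≤ p) :
    (1 + ∑ i ∈ S, a i) ^ p ≤ 9 ^ p * (1 + ∑ i ∈ S, a i ^ p) := by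
  set M := 1 ⊔ S.sup a with hM
  have h1 : 1 + ∑ i ∈ S, a i ≤ 9 * M := by
    have h2 : ∑ i ∈ S, a i ≤ S.card • M := by
      rw [← Finset.sum_const]
      exact Finset.sum_le_sum fun i hi => (Finset.le_sup hi).trans le_sup_right
    have h3 : (S.card : ℕ) • M ≤ 8 • M := by
      rw [nsmul_eq_mul, nsmul_eq_mul]
      gcongr
    calc 1 + ∑ i ∈ S, a i ≤ M + 8 • M := add_le_add le_sup_left (h2.trans h3)
      _ = 9 * M := by rw [nsmul_eq_mul]; push_cast; ring
  have h4 : M ^ p ≤ 1 + ∑ i ∈ S, a i ^ p := by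
    rcases le_total (S.sup a) 1 with h | h
    · rw [hM, sup_eq_left.2 h, ENNReal.one_rpow]
      exact le_self_add
    · rw [hM, sup_eq_right.2 h]
      rcases S.eq_empty_or_nonempty with rfl | hne
      · simp at h
      · obtain ⟨i, hi, he⟩ := Finset.exists_mem_eq_sup S hne a
        rw [he]
        exact (Finset.single_le_sum (f := fun i => a i ^ p) (fun _ _ => zero_le) hi).trans
          le_add_self
  calc (1 + ∑ i ∈ S, a i) ^ p ≤ (9 * M) ^ p := by gcongr
    _ = 9 ^ p * M ^ p := ENNReal.mul_rpow_of_nonneg _ _ hp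
    _ ≤ _ := by gcongr

/-- the `p`-th power of the weight -/
theorem wgt_rpow_le (W : Cubes Λ z σ) {p : ℝ} (hp : 0 ≤ p) (y : V) :
    wgt z σ c y ^ p ≤ 9 ^ p * (1 + ∑' i, (closedBall (z i) (σ i)).indicator
      (fun y => wt p (σ i) (y - c i)) y) := by
  have hf := W.finite_mem y
  have hz : ∀ g : ι → V → ℝ≥0∞, ∀ i ∉ hf.toFinset,
      (closedBall (z i) (σ i)).indicator (g i) y = 0 := fun g i hi => by
    rw [Finite.mem_toFinset] at hi
    have hi' : y ∉ closedBall (z i) (σ i) := hi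
    exact indicator_of_notMem hi' (g i)
  have hcard : hf.toFinset.card ≤ 8 := W.overlap y _ fun i hi => by
    rwa [Finite.mem_toFinset] at hi
  unfold wgt
  rw [tsum_eq_sum (hz fun i y => ENNReal.ofReal (σ i) / ENNReal.ofReal ‖y - c i‖),
    tsum_eq_sum (hz fun i y => wt p (σ i) (y - c i))]
  refine (sum_rpow_le hcard _ hp).trans (le_of_eq ?_)
  congr 2
  refine Finset.sum_congr rfl fun i hi => ?_
  rw [Finite.mem_toFinset] at hi
  have hi' : y ∈ closedBall (z i) (σ i) := hi
  rw [indicator_of_mem hi', indicator_of_mem hi']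
  rfl

/-- **Choice of the centres.** -/
theorem exists_centers (W : Cubes Λ z σ) {p : ℝ} {X : Type*} [MeasurableSpace X] (ν : Measure X)
    [SFinite ν] {f : X → V} (hf : AEMeasurable f ν) {N : Set V} (hN : volume N = 0) :
    ∃ c : ι → V, (∀ i, ‖c i - z i‖ ≤ σ i / 2) ∧ (∀ i, c i ∉ N) ∧
      ∀ i, ∫⁻ x in f ⁻¹' closedBall (z i) (σ i), wt p (σ i) (f x - c i) ∂ν ≤
        Cw p * ν (f ⁻¹' closedBall (z i) (σ i)) := by
  choose c h1 h2 h3 using fun i => exists_center (p := p) ν hf (z i) (W.pos i) hN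
  exact ⟨c, fun i => by rw [← dist_eq_norm]; exact mem_closedBall.1 (h1 i), h2, h3⟩

theorem lintegral_indicator_comp {X : Type*} [MeasurableSpace X] {ν : Measure X} {f : X → V}
    (hf : AEMeasurable f ν) {B : Set V} (hB : MeasurableSet B) {g : V → ℝ≥0∞} :
    ∫⁻ x, B.indicator g (f x) ∂ν = ∫⁻ x in f ⁻¹' B, g (f x) ∂ν := by
  have h1 : NullMeasurableSet (f ⁻¹' B) ν := hf.nullMeasurable hB
  rw [← lintegral_indicator₀ h1]
  rfl

/-- the overlap for measures -/
theorem tsum_measure_le [Countable ι] (W : Cubes Λ z σ) {X : Type*} [MeasurableSpace X]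
    (ν : Measure X) {f : X → V} (hf : AEMeasurable f ν) :
    ∑' i, ν (f ⁻¹' closedBall (z i) (σ i)) ≤ 8 * ν univ := by
  have h1 : ∀ i, ν (f ⁻¹' closedBall (z i) (σ i)) =
      ∫⁻ x, (closedBall (z i) (σ i)).indicator (fun _ => (1:ℝ≥0∞)) (f x) ∂ν := fun i => by
    rw [lintegral_indicator_comp hf measurableSet_closedBall, lintegral_const, one_mul,
      Measure.restrict_apply_univ]
  simp only [h1]
  have hme : ∀ i, AEMeasurable (fun x => (closedBall (z i) (σ i)).indicator
      (fun _ => (1:ℝ≥0∞)) (f x)) ν := fun i =>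
    (measurable_const.indicator measurableSet_closedBall).comp_aemeasurable hf
  rw [← lintegral_tsum hme]
  calc _ ≤ ∫⁻ _, 8 ∂ν := by
        refine lintegral_mono fun x => ?_
        have hfi := W.finite_mem (f x)
        have hz : ∀ i ∉ hfi.toFinset,
            (closedBall (z i) (σ i)).indicator (fun _ => (1:ℝ≥0∞)) (f x) = 0 := fun i hi => by
          rw [Finite.mem_toFinset] at hi
          have hi' : f x ∉ closedBall (z i) (σ i) := hi
          exact indicator_of_notMem hi' _
        rw [tsum_eq_sum hz]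
        have hcard : hfi.toFinset.card ≤ 8 := W.overlap (f x) _ fun i hi => by
          rwa [Finite.mem_toFinset] at hi
        calc _ ≤ ∑ i ∈ hfi.toFinset, (1:ℝ≥0∞) := Finset.sum_le_sum fun i _ =>
              indicator_le_self _ (fun _ => (1:ℝ≥0∞)) _
          _ = (hfi.toFinset.card : ℝ≥0∞) := by simp
          _ ≤ 8 := by exact_mod_cast hcard
    _ = 8 * ν univ := by rw [lintegral_const]

/-- **The weighted energy**: for `p < 3` and suitable centres, with `ν = |Df|^p dx`. -/
theorem lintegral_wgt_le' [Countable ι] (W : Cubes Λ z σ) {p : ℝ} (hp : 0 ≤ p) {K : ℝ≥0∞}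
    {X : Type*} [MeasurableSpace X] (ν : Measure X) {f : X → V} (hf : AEMeasurable f ν)
    (hc : ∀ i, ∫⁻ x in f ⁻¹' closedBall (z i) (σ i), wt p (σ i) (f x - c i) ∂ν ≤
        K * ν (f ⁻¹' closedBall (z i) (σ i))) :
    ∫⁻ x, wgt z σ c (f x) ^ p ∂ν ≤ 9 ^ p * (1 + 8 * K) * ν univ := by
  have hm : ∀ i, Measurable fun y => (closedBall (z i) (σ i)).indicator
      (fun y => wt p (σ i) (y - c i)) y := fun i =>
    ((measurable_wt p (σ i)).comp (measurable_id.sub_const _)).indicator measurableSet_closedBall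
  have hme : ∀ i, AEMeasurable (fun x => (closedBall (z i) (σ i)).indicator
      (fun y => wt p (σ i) (y - c i)) (f x)) ν := fun i => (hm i).comp_aemeasurable hf
  calc ∫⁻ x, wgt z σ c (f x) ^ p ∂ν
      ≤ ∫⁻ x, 9 ^ p * (1 + ∑' i, (closedBall (z i) (σ i)).indicator
          (fun y => wt p (σ i) (y - c i)) (f x)) ∂ν := lintegral_mono fun x => wgt_rpow_le W hp _
    _ = 9 ^ p * ∫⁻ x, (1 + ∑' i, (closedBall (z i) (σ i)).indicator
          (fun y => wt p (σ i) (y - c i)) (f x)) ∂ν :=
        lintegral_const_mul' _ _ (ENNReal.rpow_ne_top_of_nonneg hp (by simp))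
    _ = 9 ^ p * (ν univ + ∑' i, ∫⁻ x in f ⁻¹' closedBall (z i) (σ i),
          wt p (σ i) (f x - c i) ∂ν) := by
        congr 1
        rw [lintegral_add_left measurable_const, lintegral_const, one_mul,
          lintegral_tsum hme]
        congr 2
        funext i
        exact lintegral_indicator_comp hf measurableSet_closedBall
    _ ≤ 9 ^ p * (ν univ + ∑' i, K * ν (f ⁻¹' closedBall (z i) (σ i))) := by
        gcongr with i
        exact hc i
    _ ≤ 9 ^ p * (ν univ + K * (8 * ν univ)) := by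
        rw [ENNReal.tsum_mul_left]
        gcongr
        exact tsum_measure_le W ν hf
    _ = 9 ^ p * (1 + 8 * K) * ν univ := by ring

/-- the weighted energy, centres of `exists_centers` -/
theorem lintegral_wgt_le [Countable ι] (W : Cubes Λ z σ) {p : ℝ} (hp : 0 ≤ p) {X : Type*}
    [MeasurableSpace X] (ν : Measure X) {f : X → V} (hf : AEMeasurable f ν)
    (hc : ∀ i, ∫⁻ x in f ⁻¹' closedBall (z i) (σ i), wt p (σ i) (f x - c i) ∂ν ≤
        Cw p * ν (f ⁻¹' closedBall (z i) (σ i))) :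
    ∫⁻ x, wgt z σ c (f x) ^ p ∂ν ≤ 9 ^ p * (1 + 8 * Cw p) * ν univ :=
  lintegral_wgt_le' W hp ν hf hc

/-- **The weight is comparable at points which are near relative to the centres.** -/
theorem wgt_le_wgt (W : Cubes Λ z σ) (hc : ∀ i, ‖c i - z i‖ ≤ σ i / 2) {y y' : V}
    (h : ∀ i, y ∈ closedBall (z i) (σ i) → ‖y - y'‖ ≤ ‖y - c i‖) :
    wgt z σ c y ≤ 33 * wgt z σ c y' := by
  have hf := W.finite_mem y
  have hz : ∀ i ∉ hf.toFinset, (closedBall (z i) (σ i)).indicator
      (fun y => ENNReal.ofReal (σ i) / ENNReal.ofReal ‖y - c i‖) y = 0 := fun i hi => by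
    rw [Finite.mem_toFinset] at hi
    have hi' : y ∉ closedBall (z i) (σ i) := hi
    exact indicator_of_notMem hi' _
  have hcard : hf.toFinset.card ≤ 8 := W.overlap y _ fun i hi => by
    rwa [Finite.mem_toFinset] at hi
  have key : ∀ i ∈ hf.toFinset, (closedBall (z i) (σ i)).indicator
      (fun y => ENNReal.ofReal (σ i) / ENNReal.ofReal ‖y - c i‖) y ≤ 4 * wgt z σ c y' := by
    intro i hi
    rw [Finite.mem_toFinset] at hi
    have hi' : y ∈ closedBall (z i) (σ i) := hi
    rw [indicator_of_mem hi']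
    have hp := W.pos i
    have h1 := h i hi'
    have h2 : ‖y' - c i‖ ≤ 2 * ‖y - c i‖ := by
      calc ‖y' - c i‖ = ‖(y - c i) - (y - y')‖ := by congr 1; abel
        _ ≤ ‖y - c i‖ + ‖y - y'‖ := norm_sub_le _ _
        _ ≤ 2 * ‖y - c i‖ := by linarith
    by_cases hy' : y' ∈ closedBall (z i) (σ i)
    · calc ENNReal.ofReal (σ i) / ENNReal.ofReal ‖y - c i‖
          ≤ 2 * (ENNReal.ofReal (σ i) / ENNReal.ofReal ‖y' - c i‖) := by
            have h5 : ENNReal.ofReal ‖y' - c i‖ ≤ 2 * ENNReal.ofReal ‖y - c i‖ := by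
              rw [show (2:ℝ≥0∞) = ENNReal.ofReal 2 by simp, ← ENNReal.ofReal_mul (by norm_num)]
              exact ENNReal.ofReal_le_ofReal h2
            have h6 := ENNReal.inv_le_inv.2 h5
            rw [ENNReal.mul_inv (Or.inl (by simp)) (Or.inl (by simp))] at h6
            rw [div_eq_mul_inv, div_eq_mul_inv]
            calc ENNReal.ofReal (σ i) * (ENNReal.ofReal ‖y - c i‖)⁻¹
                = 2 * (ENNReal.ofReal (σ i) * (2⁻¹ * (ENNReal.ofReal ‖y - c i‖)⁻¹)) := by
                  rw [mul_left_comm (ENNReal.ofReal (σ i)), ← mul_assoc 2,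
                    ENNReal.mul_inv_cancel (by simp) (by simp), one_mul]
              _ ≤ _ := by gcongr
        _ ≤ 4 * wgt z σ c y' := by
            gcongr
            · norm_num
            · exact le_wgt hy'
    · rw [mem_closedBall, dist_eq_norm, not_le] at hy'
      have h3 : σ i / 2 ≤ ‖y' - c i‖ := by
        have h4 : ‖y' - z i‖ ≤ ‖y' - c i‖ + ‖c i - z i‖ := by
          refine le_trans (le_of_eq ?_) (norm_add_le _ _)
          congr 1; abel
        linarith [hc i]
      calc ENNReal.ofReal (σ i) / ENNReal.ofReal ‖y - c i‖ ≤ 4 := by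
            refine ENNReal.div_le_of_le_mul ?_
            rw [show (4:ℝ≥0∞) = ENNReal.ofReal 4 by simp, ← ENNReal.ofReal_mul (by norm_num)]
            exact ENNReal.ofReal_le_ofReal (by linarith)
        _ ≤ 4 * wgt z σ c y' := le_mul_of_one_le_right zero_le (one_le_wgt y')
  calc wgt z σ c y = 1 + ∑ i ∈ hf.toFinset, (closedBall (z i) (σ i)).indicator
        (fun y => ENNReal.ofReal (σ i) / ENNReal.ofReal ‖y - c i‖) y := by
        unfold wgt; rw [tsum_eq_sum hz]
    _ ≤ wgt z σ c y' + ∑ i ∈ hf.toFinset, 4 * wgt z σ c y' := by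
        gcongr with i hi
        · exact one_le_wgt y'
        · exact key i hi
    _ ≤ wgt z σ c y' + 8 * (4 * wgt z σ c y') := by
        rw [Finset.sum_const, nsmul_eq_mul]
        gcongr
        exact_mod_cast hcard
    _ = 33 * wgt z σ c y' := by ring

/-- **Edge lengths after the stage**: the factor is the weight -/
theorem IsStage.len_le_wgt {κ : ι → ℝ} {m : ι → ℕ} {W : Cubes Λ z σ} {hc : ∀ i, ‖c i - z i‖ < σ i}
    {hκ : ∀ i, 0 < κ i} {hκ1 : ∀ i, κ i < 1 / 2} {T : ConHomeo Λ Λ}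
    (H : IsStage W hc hκ hκ1 m T) (hΛ : IsOpen Λ)
    (hc2 : ∀ i, ‖c i - z i‖ ≤ σ i / 2) {γ : ℝ → V} {a b : ℝ} (hab : a ≤ b)
    (hγ : ContinuousOn γ (Icc a b)) (hγΛ : ∀ t ∈ Icc a b, γ t ∈ Λ) {w : ℝ}
    (hw : ∀ t ∈ Icc a b, wgt z σ c (γ t) ≤ ENNReal.ofReal w) :
    len (fun t => T.toFun (γ t)) (Icc a b) ≤ ENNReal.ofReal (26 * w) * len γ (Icc a b) := by
  have hw1 : 1 ≤ w := by
    have h1 := (one_le_wgt (z := z) (σ := σ) (c := c) (γ a)).trans (hw a (left_mem_Icc.2 hab))
    rwa [← ENNReal.ofReal_one, ENNReal.ofReal_le_ofReal_iff' , or_iff_left (by norm_num)] at h1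
  rw [show 26 * w = 2 * (13 * w) by ring]
  refine H.len_le hΛ hc2 hab hγ hγΛ (by linarith) fun t ht i hi => ?_
  have h1 := (le_wgt (c := c) hi).trans (hw t ht)
  have hp := W.pos i
  rcases eq_or_ne ‖γ t - c i‖ 0 with h0 | h0
  · rw [h0, ENNReal.ofReal_zero, ENNReal.div_zero (by simpa using hp)] at h1
    exact absurd h1 (by simp)
  · have h2 : 0 < ‖γ t - c i‖ := lt_of_le_of_ne (norm_nonneg _) (Ne.symm h0)
    rw [← ENNReal.ofReal_div_of_pos h2, ENNReal.ofReal_le_ofReal_iff (by linarith),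
      div_le_iff₀ h2] at h1
    have h3 : 0 < w * ‖γ t - c i‖ := by positivity
    linarith

end Vale.Agent.P073.H471
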