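import Vale.Agent.P073.H236.TZero2

/-!
# P073, block XI: the squeeze of a family of thin boxes

A locally finite family of boxes `cor (c b) (a b)` with disjoint neighbourhoods
`cor (c b) (a b + q b)`: a conical homeomorphism of `Λ` which multiplies the coordinates in `J` by
`lam b` in the boxes, is the identity off the neighbourhoods, and has a Lipschitz constant which
does not depend on `lam b`.
-/

open Set Metric Topology Filter

namespace Vale.Agent.P073.H471

open _root_.P073 _root_.P073.H236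

/-- what a squeeze of the box `cor c a` in the directions `j ∈ J` does -/
structure IsX {n : ℕ} (J : Finset (Fin n)) (c a : Fin n → ℝ) (q lam : ℝ)
    (T : ConHomeo (univ : Set (Fin n → ℝ)) (univ : Set (Fin n → ℝ))) : Prop where
  supp : Supp T.toFun (cor c fun i => a i + q)
  core : ∀ y ∈ cor c a, ∀ i ∈ J, T.toFun y i = c i + lam * (y i - c i)
  keep : ∀ y, ∀ i ∉ J, T.toFun y i = y i
  mem : ∀ y i, T.toFun y i ∈ uIcc (c i) (y i)
  lip : ∀ y y', ‖T.toFun y - T.toFun y'‖ ≤ (∏ j ∈ J, (1 + 2 * (a j / q))) * ‖y - y'‖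

theorem exists_isX {n : ℕ} (J : Finset (Fin n)) {c a : Fin n → ℝ} {q lam : ℝ} (hq : 0 < q)
    (hl : 0 < lam) (hl1 : lam ≤ 1) (ha : ∀ j ∈ J, 0 < a j) : ∃ T, IsX J c a q lam T := by
  classical
  have hu : ConicalSet (univ : Set (Fin n → ℝ)) := isOpen_univ.conicalSet
  induction J using Finset.induction_on with
  | empty =>
    refine ⟨ConHomeo.refl hu, ⟨?_, ?_, ?_, ?_, ?_⟩⟩
    · exact ⟨continuous_id, conicalOn_id hu, fun _ _ => rfl, mapsTo_id _, surjOn_id _⟩
    · intro y _ i hi; exact absurd hi (Finset.notMem_empty i)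
    · intro y i _; rfl
    · intro y i; exact right_mem_uIcc
    · intro y y'
      show ‖y - y'‖ ≤ _
      rw [Finset.prod_empty, one_mul]
  | insert j l hj ih =>
    obtain ⟨T, hT⟩ := ih fun i hi => ha i (Finset.mem_insert_of_mem hi)
    have haj := ha j (Finset.mem_insert_self j l)
    have hcc : ∀ y ∈ cor c a, T.toFun y ∈ cor c a := by
      intro y hy i
      have h1 := hT.mem y i
      have h2 := hy i
      rw [abs_le] at h2 ⊢
      rcases le_total (c i) (y i) with h | h
      · rw [uIcc_of_le h] at h1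
        constructor <;> linarith [h1.1, h1.2]
      · rw [uIcc_of_ge h] at h1
        constructor <;> linarith [h1.1, h1.2]
    set S := sq1 j c a haj hq hl hl1 with hS
    have hTj : ∀ y, T.toFun y j = y j := fun y => hT.keep y j hj
    have e : ∀ y, (T.trans S).toFun y = S.toFun (T.toFun y) := fun _ => rfl
    have hne : ∀ y i, i ≠ j → (T.trans S).toFun y i = T.toFun y i := fun y i hi => by
      rw [e, hS, sq1_ne haj hq hl hl1 hi]
    refine ⟨T.trans S, ⟨?_, ?_, ?_, ?_, ?_⟩⟩
    · have := supp_trans hT.supp (supp_sq1 (c := c) (a := a) haj hq hl hl1 rfl)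
      rwa [union_self] at this
    · intro y hy i hi
      by_cases hij : i = j
      · subst hij
        rw [e, hS, sq1_core haj hq hl hl1 rfl (hcc y hy), Function.update_self, hTj]
      · rw [hne y i hij]
        exact hT.core y hy i (Finset.mem_of_mem_insert_of_ne hi hij)
    · intro y i hi
      rw [Finset.mem_insert, not_or] at hi
      rw [hne y i hi.1, hT.keep y i hi.2]
    · intro y i
      by_cases hij : i = j
      · subst hij
        have := sq1_mem (c := c) (a := a) haj hq hl hl1 (j := i) (T.toFun y)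
        rw [hTj] at this
        exact this
      · rw [hne y i hij]; exact hT.mem y i
    · intro y y'
      rw [e, e, Finset.prod_insert hj, mul_assoc]
      have h0 : 0 ≤ a j / q := by positivity
      have h1 : ‖S.toFun (T.toFun y) - S.toFun (T.toFun y')‖ ≤
          (1 + 2 * (a j / q)) * ‖T.toFun y - T.toFun y'‖ := by
        rw [pi_norm_le_iff_of_nonneg (by positivity)]
        intro i
        rw [Pi.sub_apply, Real.norm_eq_abs]
        have h2 := sq1_lip (c := c) (a := a) haj hq hl hl1 (j := j) (T.toFun y) (T.toFun y') i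
        have h3 : |T.toFun y i - T.toFun y' i| ≤ ‖T.toFun y - T.toFun y'‖ :=
          norm_le_pi_norm (T.toFun y - T.toFun y') i
        rw [hS]
        linarith
      refine h1.trans ?_
      have h2 := hT.lip y y'
      gcongr

/-- the Lipschitz bound of a map which is glued from maps with disjoint supports -/
theorem norm_glue {n : ℕ} {ι : Type*} {K : ι → Set (Fin n → ℝ)}
    {Θ : ι → (Fin n → ℝ) → Fin n → ℝ} {f : (Fin n → ℝ) → Fin n → ℝ}
    (hdis : ∀ b c, b ≠ c → Disjoint (K b) (K c)) (hc : ∀ b, Continuous (Θ b))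
    (hid : ∀ b, ∀ x ∉ K b, Θ b x = x) (hf : ∀ b, ∀ x ∈ K b, f x = Θ b x)
    (hf' : ∀ x, (∀ b, x ∉ K b) → f x = x) {L : ℝ} (hL : 1 ≤ L)
    (hlip : ∀ b y y', ‖Θ b y - Θ b y'‖ ≤ L * ‖y - y'‖)
    (y y' : Fin n → ℝ) : ‖f y - f y'‖ ≤ L * ‖y - y'‖ := by
  by_cases hy : ∃ b, y ∈ K b
  · obtain ⟨b, hb⟩ := hy
    by_cases hyb : y' ∈ K b
    · rw [hf b y hb, hf b y' hyb]; exact hlip b y y'
    by_cases hy' : ∃ c, y' ∈ K c
    · obtain ⟨c, hc'⟩ := hy'
      have hbc : b ≠ c := fun h => hyb (by rw [h]; exact hc')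
      -- a common fixed point on the segment
      have hγ : Continuous fun t : ℝ => AffineMap.lineMap y y' t := AffineMap.lineMap_continuous
      obtain ⟨t, ht, h1, h2⟩ := isPreconnected_closed_iff.1 (isPreconnected_Icc (a := (0:ℝ)) (b := 1))
        {t : ℝ | Θ b (AffineMap.lineMap y y' t) = AffineMap.lineMap y y' t}
        {t : ℝ | Θ c (AffineMap.lineMap y y' t) = AffineMap.lineMap y y' t}
        (isClosed_eq ((hc b).comp hγ) hγ) (isClosed_eq ((hc c).comp hγ) hγ)
        (fun t _ => by
          by_cases h : AffineMap.lineMap y y' t ∈ K b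
          · right
            exact hid c _ fun h' => Set.disjoint_left.1 (hdis b c hbc) h h'
          · left
            exact hid b _ h)
        ⟨1, ⟨zero_le_one, le_rfl⟩, by
          show Θ b (AffineMap.lineMap y y' (1:ℝ)) = AffineMap.lineMap y y' (1:ℝ)
          rw [AffineMap.lineMap_apply_one]
          exact hid b _ hyb⟩
        ⟨0, ⟨le_rfl, zero_le_one⟩, by
          show Θ c (AffineMap.lineMap y y' (0:ℝ)) = AffineMap.lineMap y y' (0:ℝ)
          rw [AffineMap.lineMap_apply_zero]
          exact hid c _ fun h' => Set.disjoint_left.1 (hdis b c hbc) hb h'⟩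
      simp only [mem_ofPred_eq] at h1 h2
      set z := AffineMap.lineMap y y' t with hz
      have hzi : ∀ k, z k = y k + t * (y' k - y k) := by
        intro k
        rw [hz, AffineMap.lineMap_apply]
        simp only [vsub_eq_sub, vadd_eq_add, Pi.add_apply, Pi.smul_apply, Pi.sub_apply,
          smul_eq_mul]
        ring
      have n1 : y - z = t • (y - y') := by
        ext k; simp only [Pi.sub_apply, Pi.smul_apply, smul_eq_mul, hzi]; ring
      have n2 : z - y' = (1 - t) • (y - y') := by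
        ext k; simp only [Pi.sub_apply, Pi.smul_apply, smul_eq_mul, hzi]; ring
      have m1 : ‖y - z‖ = t * ‖y - y'‖ := by
        rw [n1, norm_smul, Real.norm_of_nonneg ht.1]
      have m2 : ‖z - y'‖ = (1 - t) * ‖y - y'‖ := by
        rw [n2, norm_smul, Real.norm_of_nonneg (by linarith [ht.2])]
      have e1 := hlip b y z
      have e2 := hlip c z y'
      rw [h1, m1] at e1
      rw [h2, m2] at e2
      rw [hf b y hb, hf c y' hc']
      have e3 := norm_sub_le_norm_sub_add_norm_sub (Θ b y) z (Θ c y')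
      nlinarith
    · push Not at hy'
      rw [hf b y hb, hf' y' hy']
      have := hlip b y y'
      rwa [hid b y' hyb] at this
  · push Not at hy
    by_cases hy' : ∃ c, y' ∈ K c
    · obtain ⟨c, hc'⟩ := hy'
      rw [hf' y hy, hf c y' hc']
      have := hlip c y y'
      rwa [hid c y (hy c)] at this
    · push Not at hy'
      rw [hf' y hy, hf' y' hy']
      have := norm_nonneg (y - y')
      nlinarith

/-- **the squeeze of a family of boxes** -/
theorem exists_xfam {n : ℕ} {ι : Type*} {Λ : Set (Fin n → ℝ)} (hΛ : IsOpen Λ)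
    (J : Finset (Fin n)) (c a : ι → Fin n → ℝ) (q lam : ι → ℝ) (hq : ∀ b, 0 < q b)
    (hl : ∀ b, 0 < lam b) (hl1 : ∀ b, lam b ≤ 1) (ha : ∀ b, ∀ j ∈ J, 0 < a b j) {L : ℝ}
    (hL : 1 ≤ L) (hLb : ∀ b, ∏ j ∈ J, (1 + 2 * (a b j / q b)) ≤ L)
    (hK : ∀ b, cor (c b) (fun i => a b i + q b) ⊆ Λ)
    (hdis : ∀ b b', b ≠ b' →
      Disjoint (cor (c b) fun i => a b i + q b) (cor (c b') fun i => a b' i + q b'))
    (hfin : ∀ z ∈ Λ, ∃ U ∈ 𝓝 z, {b | ((cor (c b) fun i => a b i + q b) ∩ U).Nonempty}.Finite) :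
    ∃ T : ConHomeo Λ Λ,
      (∀ b, ∀ y ∈ cor (c b) (a b), ∀ i ∈ J, T.toFun y i = c b i + lam b * (y i - c b i)) ∧
      (∀ y, ∀ i ∉ J, T.toFun y i = y i) ∧
      (∀ y, (∀ b, y ∉ cor (c b) fun i => a b i + q b) → T.toFun y = y) ∧
      (∀ b, ∀ y ∈ cor (c b) (fun i => a b i + q b),
        T.toFun y ∈ cor (c b) (fun i => a b i + q b) ∧ ∀ i, T.toFun y i ∈ uIcc (c b i) (y i)) ∧
      (∀ y y', ‖T.toFun y - T.toFun y'‖ ≤ L * ‖y - y'‖) := by
  have h1 : ∀ b, ∃ T, IsX J (c b) (a b) (q b) (lam b) T := fun b =>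
    exists_isX J (hq b) (hl b) (hl1 b) (ha b)
  choose Θ hΘ using h1
  obtain ⟨T, hT1, hT2, -, -⟩ := exists_glue_homeo hΛ Θ
    (fun b => cor (c b) fun i => a b i + q b) (fun b => (hΘ b).supp) hK hfin
    (fun b b' hbb x hx hx' => absurd hx' (Set.disjoint_left.1 (hdis b b' hbb) hx))
  refine ⟨T, ?_, ?_, hT2, ?_, ?_⟩
  · intro b y hy i hi
    have h3 : y ∈ cor (c b) fun i => a b i + q b := fun k => by
      have := hy k
      have h4 := hq b
      show |y k - c b k| ≤ a b k + q b
      linarith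
    rw [hT1 b y h3]
    exact (hΘ b).core y hy i hi
  · intro y i hi
    by_cases h : ∃ b, y ∈ cor (c b) fun i => a b i + q b
    · obtain ⟨b, hb⟩ := h
      rw [hT1 b y hb]; exact (hΘ b).keep y i hi
    · push Not at h
      rw [hT2 y h]
  · intro b y hy
    rw [hT1 b y hy]
    exact ⟨(hΘ b).supp.maps hy, fun i => (hΘ b).mem y i⟩
  · exact norm_glue hdis (fun b => (hΘ b).supp.cont) (fun b x hx => (hΘ b).supp.id x hx) hT1 hT2
      hL fun b y y' => ((hΘ b).lip y y').trans (mul_le_mul_of_nonneg_right (hLb b)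
        (norm_nonneg _))

end Vale.Agent.P073.H471
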