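import Vale.Agent.P073.H471.Xi
import Vale.Agent.P073.H304.Round1

/-!
# P073, block XI: the squeeze of thin plates over faces of the dyadic grid

* `exists_xiT`: a family of faces of cubes of generation `n`; the plates over the faces go into
  small balls, with a Lipschitz constant which does not depend on the size of the balls;
* `exists_xi_blocks`: the same in disjoint affine images of boxes.
-/

open Set Metric Topology Filter

namespace Vale.Agent.P073.H471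

open Vale.Agent.P073
open Vale.Agent.P073.St (V)
open Vale.Agent.P073.H73 (ctr)
open Vale.Agent.P073.H304 (af afi afH af_afi afi_af continuous_af continuous_afi)
open _root_.P073 _root_.P073.H236

/-! ### faces of the grid -/

/-- the centre of the face of the tile `t` with normal direction `l` and side `s = ± 1` -/
noncomputable def fc (w : V) (t : ℕ × (Fin 3 → ℤ)) (l : Fin 3) (s : ℝ) : V :=
  Function.update (ctr w t.1 t.2) l (ctr w t.1 t.2 l + s / 2 / 2 ^ t.1)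

/-- the support of the squeeze over a face -/
def UP (w : V) (m : ℝ) (t : ℕ × (Fin 3 → ℤ)) (l : Fin 3) (s : ℝ) : Set V :=
  {y | |y l - (ctr w t.1 t.2 l + s / 2 / 2 ^ t.1)| ≤ m / 4 / 2 ^ t.1 ∧
    ∀ j, j ≠ l → |y j - ctr w t.1 t.2 j| ≤ (1 - m) / 2 / 2 ^ t.1}

/-- the plate over a face -/
def PP (w : V) (m : ℝ) (t : ℕ × (Fin 3 → ℤ)) (l : Fin 3) (s : ℝ) : Set V :=
  {y | |y l - (ctr w t.1 t.2 l + s / 2 / 2 ^ t.1)| ≤ m / 8 / 2 ^ t.1 ∧
    ∀ j, j ≠ l → |y j - ctr w t.1 t.2 j| ≤ (1 - 2 * m) / 2 / 2 ^ t.1}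

/-- the canonical index of a face: the cube above it -/
noncomputable def can (f : (Fin 3 → ℤ) × Fin 3 × ℝ) : (Fin 3 → ℤ) × Fin 3 :=
  (Function.update f.1 f.2.1 (f.1 f.2.1 + if f.2.2 = 1 then 1 else 0), f.2.1)

/-- half widths of the plates -/
noncomputable def hw (n : ℕ) (m : ℝ) (l : Fin 3) : V := fun k =>
  if k = l then m / 8 / 2 ^ n else (1 - 2 * m) / 2 / 2 ^ n

theorem fc_can (w : V) (n : ℕ) {f : (Fin 3 → ℤ) × Fin 3 × ℝ} (h : f.2.2 = 1 ∨ f.2.2 = -1) :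
    fc w (n, (can f).1) (can f).2 (-1) = fc w (n, f.1) f.2.1 f.2.2 := by
  obtain ⟨z, l, s⟩ := f
  simp only at h
  funext k
  simp only [fc, can]
  by_cases hk : k = l
  · subst hk
    simp only [Function.update_self, ctr]
    rcases h with h | h
    · subst h
      rw [if_pos rfl]
      push_cast
      field_simp
      ring
    · subst h
      rw [if_neg (by norm_num)]
      push_cast
      ring
  · simp only [Function.update_of_ne hk, ctr]

theorem mem_UP_iff {w : V} {m : ℝ} {n : ℕ} {z : Fin 3 → ℤ} {l : Fin 3} {s : ℝ} {y : V} :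
    y ∈ UP w m (n, z) l s ↔ ∀ k, |y k - fc w (n, z) l s k| ≤
      if k = l then m / 4 / 2 ^ n else (1 - m) / 2 / 2 ^ n := by
  constructor
  · rintro ⟨h1, h2⟩ k
    by_cases hk : k = l
    · subst hk; simpa [fc] using h1
    · simpa [fc, hk] using h2 k hk
  · intro h
    refine ⟨by simpa [fc] using h l, fun j hj => ?_⟩
    simpa [fc, hj] using h j

theorem mem_PP_iff {w : V} {m : ℝ} {n : ℕ} {z : Fin 3 → ℤ} {l : Fin 3} {s : ℝ} {y : V} :
    y ∈ PP w m (n, z) l s ↔ y ∈ cor (fc w (n, z) l s) (hw n m l) := by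
  constructor
  · rintro ⟨h1, h2⟩ k
    by_cases hk : k = l
    · subst hk; simpa [fc, hw] using h1
    · simpa [fc, hw, hk] using h2 k hk
  · intro h
    refine ⟨by simpa [fc, hw] using h l, fun j hj => ?_⟩
    simpa [fc, hw, hj] using h j

theorem cor_subset_UP {w : V} {m : ℝ} (hm : 0 < m) {n : ℕ} {z : Fin 3 → ℤ} {l : Fin 3} {s : ℝ} :
    cor (fc w (n, z) l s) (fun k => hw n m l k + m / 8 / 2 ^ n) ⊆ UP w m (n, z) l s := by
  intro y hy
  rw [mem_UP_iff]
  intro k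
  refine (hy k).trans ?_
  have h2 : (0 : ℝ) < 2 ^ n := by positivity
  by_cases hk : k = l
  · rw [if_pos hk]
    simp only [hw, if_pos hk]
    rw [← add_div]
    exact div_le_div_of_nonneg_right (by linarith) h2.le
  · rw [if_neg hk]
    simp only [hw, if_neg hk]
    rw [← add_div]
    exact div_le_div_of_nonneg_right (by linarith) h2.le

/-- the supports of different faces are disjoint -/
theorem UP_disjoint {w : V} {m : ℝ} (hm : 0 < m) (hm1 : m ≤ 1 / 4) {n : ℕ} {z z' : Fin 3 → ℤ}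
    {l l' : Fin 3} {y : V} (h : y ∈ UP w m (n, z) l (-1)) (h' : y ∈ UP w m (n, z') l' (-1)) :
    z = z' ∧ l = l' := by
  set σ : ℝ := 1 / 2 ^ n with hσ
  have hσ0 : 0 < σ := by positivity
  have e1 : ∀ (c : ℝ), c / 2 ^ n = c * σ := fun c => by rw [hσ]; ring
  have k1 : ∀ {z : Fin 3 → ℤ} {l : Fin 3}, y ∈ UP w m (n, z) l (-1) →
      |y l - (w l + z l * σ)| ≤ m / 4 * σ := by
    intro z l hz
    have := hz.1
    simp only [ctr, e1] at this
    rw [show y l - (w l + z l * σ) = y l - (w l + (z l + 1 / 2) * σ + -1 / 2 * σ) by ring]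
    exact this
  have k2 : ∀ {z : Fin 3 → ℤ} {l j : Fin 3}, y ∈ UP w m (n, z) l (-1) → j ≠ l →
      |y j - (w j + (z j + 1 / 2) * σ)| ≤ (1 - m) / 2 * σ := by
    intro z l j hz hj
    have := hz.2 j hj
    simp only [ctr, e1] at this
    exact this
  have half : ∀ {a b : ℤ}, |((a : ℝ) - b - 1 / 2) * σ| < 1 / 2 * σ → False := by
    intro a b h
    rw [abs_mul, abs_of_pos hσ0, mul_lt_mul_iff_left₀ hσ0, abs_lt] at h
    have h1 : ((0 : ℤ) : ℝ) < ((a - b : ℤ) : ℝ) := by push_cast; linarith [h.1]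
    have h2 : ((a - b : ℤ) : ℝ) < ((1 : ℤ) : ℝ) := by push_cast; linarith [h.2]
    have h3 : 0 < a - b := by exact_mod_cast h1
    have h4 : a - b < 1 := by exact_mod_cast h2
    omega
  have one : ∀ {a b : ℤ}, |((a : ℝ) - b) * σ| < σ → a = b := by
    intro a b h
    have h' : |((a : ℝ) - b) * σ| < 1 * σ := by rwa [one_mul]
    rw [abs_mul, abs_of_pos hσ0, mul_lt_mul_iff_left₀ hσ0, abs_lt] at h'
    have h1 : ((-1 : ℤ) : ℝ) < ((a - b : ℤ) : ℝ) := by push_cast; linarith [h'.1]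
    have h2 : ((a - b : ℤ) : ℝ) < ((1 : ℤ) : ℝ) := by push_cast; linarith [h'.2]
    have h3 : -1 < a - b := by exact_mod_cast h1
    have h4 : a - b < 1 := by exact_mod_cast h2
    omega
  have hl : l = l' := by
    by_contra hne
    have h1 := abs_le.1 (k1 h)
    have h2 := abs_le.1 (k2 h' hne)
    refine half (a := z l) (b := z' l) (abs_lt.2 ⟨?_, ?_⟩)
    · nlinarith [h1.1, h1.2, h2.1, h2.2, mul_pos hm hσ0]
    · nlinarith [h1.1, h1.2, h2.1, h2.2, mul_pos hm hσ0]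
  subst hl
  refine ⟨funext fun k => ?_, rfl⟩
  by_cases hk : k = l
  · subst hk
    have h1 := abs_le.1 (k1 h)
    have h2 := abs_le.1 (k1 h')
    have h3 : m * σ ≤ 1 / 4 * σ := by gcongr
    refine one (abs_lt.2 ⟨?_, ?_⟩)
    · nlinarith [h1.1, h1.2, h2.1, h2.2, mul_pos hm hσ0]
    · nlinarith [h1.1, h1.2, h2.1, h2.2, mul_pos hm hσ0]
  · have h1 := abs_le.1 (k2 h hk)
    have h2 := abs_le.1 (k2 h' hk)
    refine one (abs_lt.2 ⟨?_, ?_⟩)
    · nlinarith [h1.1, h1.2, h2.1, h2.2, mul_pos hm hσ0]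
    · nlinarith [h1.1, h1.2, h2.1, h2.2, mul_pos hm hσ0]

/-- the supports form a locally finite family -/
theorem UP_finite (w : V) {m : ℝ} (hm : 0 < m) (hm1 : m ≤ 1 / 4) (n : ℕ) (y₀ : V) :
    {f : (Fin 3 → ℤ) × Fin 3 | (UP w m (n, f.1) f.2 (-1) ∩ ball y₀ 1).Nonempty}.Finite := by
  have h2 : (0 : ℝ) < 2 ^ n := by positivity
  set R : Fin 3 → ℝ := fun k => (|y₀ k - w k| + 3) * 2 ^ n with hR
  have hfin : {z : Fin 3 → ℤ | ∀ k, |(z k : ℝ)| ≤ R k}.Finite := by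
    refine (Set.finite_Icc (fun k => -⌈R k⌉) (fun k => ⌈R k⌉)).subset fun z hz => ?_
    rw [mem_Icc, Pi.le_def, Pi.le_def]
    constructor
    · intro k
      have h1 := (abs_le.1 (hz k)).1
      have h3 : ((-⌈R k⌉ : ℤ) : ℝ) ≤ (z k : ℝ) := by
        push_cast; linarith [Int.le_ceil (R k)]
      exact_mod_cast h3
    · intro k
      have h1 := (abs_le.1 (hz k)).2
      have h3 : (z k : ℝ) ≤ ((⌈R k⌉ : ℤ) : ℝ) := by linarith [Int.le_ceil (R k)]
      exact_mod_cast h3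
  refine (hfin.prod (Set.finite_univ (α := Fin 3))).subset ?_
  rintro ⟨z, l⟩ ⟨y, hy, hyb⟩
  refine ⟨fun k => ?_, mem_univ _⟩
  have h3 : |y k - y₀ k| < 1 := by
    have h4 : |(y - y₀) k| ≤ ‖y - y₀‖ := norm_le_pi_norm (y - y₀) k
    have h5 : ‖y - y₀‖ < 1 := by rwa [mem_ball, dist_eq_norm] at hyb
    rw [Pi.sub_apply] at h4
    linarith
  have h4 : |y k - fc w (n, z) l (-1) k| ≤ 1 / 2 / 2 ^ n := by
    refine ((mem_UP_iff.1 hy) k).trans ?_
    split_ifs
    · exact div_le_div_of_nonneg_right (by linarith) h2.le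
    · exact div_le_div_of_nonneg_right (by linarith) h2.le
  have h5 : |fc w (n, z) l (-1) k - (w k + z k / 2 ^ n)| ≤ 1 / 2 / 2 ^ n := by
    have h6 : (0 : ℝ) ≤ 1 / 2 / 2 ^ n := by positivity
    by_cases hk : k = l
    · subst hk
      simp only [fc, Function.update_self, ctr]
      rw [show w k + ((z k : ℝ) + 1 / 2) / 2 ^ n + -1 / 2 / 2 ^ n - (w k + z k / 2 ^ n) = 0 by ring,
        abs_zero]
      exact h6
    · simp only [fc, Function.update_of_ne hk, ctr]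
      rw [show w k + ((z k : ℝ) + 1 / 2) / 2 ^ n - (w k + z k / 2 ^ n) = 1 / 2 / 2 ^ n by ring,
        abs_of_nonneg h6]
  have h6 : (1 : ℝ) / 2 / 2 ^ n ≤ 1 / 2 := by
    rw [div_le_iff₀ h2]
    nlinarith [one_le_pow₀ (M₀ := ℝ) (one_le_two) (n := n)]
  have h7 : |(z k : ℝ) / 2 ^ n| ≤ |y₀ k - w k| + 3 := by
    rw [abs_lt] at h3
    rw [abs_le] at h4 h5
    have h8 := neg_abs_le (y₀ k - w k)
    have h9 := le_abs_self (y₀ k - w k)
    rw [abs_le]
    constructor <;> linarith [h3.1, h3.2, h4.1, h4.2, h5.1, h5.2]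
  rw [abs_div, abs_of_pos h2, div_le_iff₀ h2] at h7
  exact h7

/-- what the squeeze of the plates over the faces in `𝓕` (cubes of generation `n`) does -/
structure IsXi (w : V) (n : ℕ) (m θ : ℝ) (𝓕 : Set ((Fin 3 → ℤ) × Fin 3 × ℝ))
    (Ξ : ConHomeo (univ : Set V) (univ : Set V)) : Prop where
  off : ∀ y, (∀ z l s, (z, l, s) ∈ 𝓕 → y ∉ UP w m (n, z) l s) → Ξ.toFun y = y
  maps : ∀ z l s, (z, l, s) ∈ 𝓕 → ∀ y ∈ UP w m (n, z) l s, Ξ.toFun y ∈ UP w m (n, z) l s
  core : ∀ z l s, (z, l, s) ∈ 𝓕 → ∀ y ∈ PP w m (n, z) l s, ∀ j,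
    Ξ.toFun y j = fc w (n, z) l s j + θ * (y j - fc w (n, z) l s j)
  mem : ∀ z l s, (z, l, s) ∈ 𝓕 → ∀ y ∈ UP w m (n, z) l s, ∀ j,
    Ξ.toFun y j ∈ uIcc (fc w (n, z) l s j) (y j)
  disp : ∀ y j, |Ξ.toFun y j - y j| ≤ 1 / 2 / 2 ^ n
  lip : ∀ y y', ‖Ξ.toFun y - Ξ.toFun y'‖ ≤ 192 / m ^ 2 * ‖y - y'‖

theorem abs_sub_of_uIcc {a b x : ℝ} (h : x ∈ uIcc a b) : |x - a| ≤ |b - a| := by
  rcases le_total a b with hab | hab
  · rw [uIcc_of_le hab] at h
    rw [abs_of_nonneg (by linarith [h.1]), abs_of_nonneg (by linarith)]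
    linarith [h.2]
  · rw [uIcc_of_ge hab] at h
    rw [abs_of_nonpos (by linarith [h.2]), abs_of_nonpos (by linarith)]
    linarith [h.1]

theorem abs_sub_of_uIcc' {a b x : ℝ} (h : x ∈ uIcc a b) : |x - b| ≤ |b - a| := by
  rw [uIcc_comm] at h
  rw [abs_sub_comm b a]
  exact abs_sub_of_uIcc h

/-- **the squeeze of plates over a family of faces of the grid** -/
theorem exists_xiT (w : V) (n : ℕ) (𝓕 : Set ((Fin 3 → ℤ) × Fin 3 × ℝ))
    (h𝓕 : ∀ f ∈ 𝓕, f.2.2 = 1 ∨ f.2.2 = -1) {m θ : ℝ} (hm : 0 < m) (hm1 : m ≤ 1 / 4) (hθ : 0 < θ)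
    (hθ1 : θ ≤ 1) : ∃ Ξ : ConHomeo (univ : Set V) (univ : Set V), IsXi w n m θ 𝓕 Ξ := by
  classical
  have h2 : (0 : ℝ) < 2 ^ n := by positivity
  set ι := {f : (Fin 3 → ℤ) × Fin 3 // ∃ g ∈ 𝓕, can g = f} with hι
  set q : ℝ := m / 8 / 2 ^ n with hq
  have hq0 : 0 < q := by positivity
  set c : ι → V := fun i => fc w (n, i.1.1) i.1.2 (-1) with hc
  set a : ι → V := fun i => hw n m i.1.2 with ha
  have hsub : ∀ i : ι, cor (c i) (fun k => a i k + q) ⊆ UP w m (n, i.1.1) i.1.2 (-1) := fun i =>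
    cor_subset_UP hm
  have hprod : ∀ i : ι, ∏ j ∈ (Finset.univ : Finset (Fin 3)), (1 + 2 * (a i j / q)) ≤
      192 / m ^ 2 := by
    intro i
    have h3 : ∀ j, j = i.1.2 → 1 + 2 * (a i j / q) = 3 := by
      intro j hj
      rw [ha]
      simp only [hw, if_pos hj, hq]
      rw [div_self (by positivity)]
      norm_num
    have h4 : ∀ j, j ≠ i.1.2 → 1 + 2 * (a i j / q) ≤ 8 / m := by
      intro j hj
      rw [ha]
      simp only [hw, if_neg hj, hq]
      rw [div_div_div_cancel_right₀ h2.ne', show (1 - 2 * m) / 2 / (m / 8) = 4 / m - 8 by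
        field_simp; ring]
      have : 8 / m = 2 * (4 / m) := by ring
      rw [this]; linarith
    have h5 : ∀ j, 0 ≤ 1 + 2 * (a i j / q) := by
      intro j
      have : 0 ≤ a i j := by
        rw [ha]; simp only [hw]
        split_ifs
        · positivity
        · exact div_nonneg (by linarith) h2.le
      positivity
    have h8 : (0 : ℝ) < 8 / m := by positivity
    rw [← Finset.mul_prod_erase _ _ (Finset.mem_univ i.1.2), h3 _ rfl]
    have h6 : ∏ j ∈ (Finset.univ : Finset (Fin 3)).erase i.1.2, (1 + 2 * (a i j / q)) ≤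
        ∏ _j ∈ (Finset.univ : Finset (Fin 3)).erase i.1.2, (8 / m) :=
      Finset.prod_le_prod (fun j _ => h5 j) fun j hj => h4 j (Finset.ne_of_mem_erase hj)
    rw [Finset.prod_const, Finset.card_erase_of_mem (Finset.mem_univ _), Finset.card_univ,
      Fintype.card_fin] at h6
    calc 3 * ∏ j ∈ (Finset.univ : Finset (Fin 3)).erase i.1.2, (1 + 2 * (a i j / q))
        ≤ 3 * (8 / m) ^ (3 - 1) := by linarith
      _ = 192 / m ^ 2 := by
          rw [show (3 - 1 : ℕ) = 2 from rfl, div_pow]; ring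
  have hL1 : (1 : ℝ) ≤ 192 / m ^ 2 := by
    rw [le_div_iff₀ (by positivity)]
    nlinarith
  obtain ⟨Ξ, t1, -, t3, t4, t5⟩ := exists_xfam (Λ := (univ : Set V)) isOpen_univ Finset.univ c a
    (fun _ : ι => q) (fun _ => θ) (fun _ => hq0) (fun _ => hθ) (fun _ => hθ1) (fun i j _ => by
      rw [ha]; simp only [hw]
      split_ifs
      · positivity
      · exact div_pos (by linarith) h2) hL1 hprod (fun i => subset_univ _)
    (fun i i' hii => by
      rw [Set.disjoint_left]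
      intro y hy hy'
      obtain ⟨e1, e2⟩ := UP_disjoint hm hm1 (hsub i hy) (hsub i' hy')
      exact hii (Subtype.ext (Prod.ext e1 e2)))
    (fun y₀ _ => ⟨ball y₀ 1, ball_mem_nhds _ one_pos, by
      refine ((UP_finite w hm hm1 n y₀).preimage (f := (Subtype.val : ι → _))
        (Subtype.val_injective.injOn)).subset ?_
      rintro i ⟨y, hy, hyb⟩
      exact ⟨y, hsub i hy, hyb⟩⟩)
  -- translation into faces
  have idx : ∀ z l s, (z, l, s) ∈ 𝓕 → ∃ i : ι, c i = fc w (n, z) l s ∧ i.1.2 = l := by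
    intro z l s hf
    exact ⟨⟨can (z, l, s), _, hf, rfl⟩, fc_can w n (h𝓕 _ hf), rfl⟩
  have UPi : ∀ z l s (i : ι), c i = fc w (n, z) l s → i.1.2 = l →
      UP w m (n, i.1.1) i.1.2 (-1) = UP w m (n, z) l s := by
    intro z l s i h1 h3
    ext y
    rw [mem_UP_iff, mem_UP_iff, ← h1, h3]
    rw [hc]
    simp only [h3]
  have cori : ∀ z l s (i : ι), c i = fc w (n, z) l s → i.1.2 = l →
      ∀ y ∈ UP w m (n, z) l s, (∀ j, Ξ.toFun y j ∈ uIcc (fc w (n, z) l s j) (y j)) := by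
    intro z l s i h1 h3 y hy j
    by_cases hyc : ∃ i' : ι, y ∈ cor (c i') fun k => a i' k + q
    · obtain ⟨i', hi'⟩ := hyc
      have h4 : i = i' := by
        rw [← UPi z l s i h1 h3] at hy
        obtain ⟨e1, e2⟩ := UP_disjoint hm hm1 hy (hsub i' hi')
        exact Subtype.ext (Prod.ext e1 e2)
      subst h4
      rw [← h1]
      exact (t4 i y hi').2 j
    · push Not at hyc
      rw [t3 y hyc]
      exact right_mem_uIcc
  refine ⟨Ξ, ?_, ?_, ?_, ?_, ?_, t5⟩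
  · intro y hy
    refine t3 y fun i hi => ?_
    obtain ⟨g, hg, hgi⟩ := i.2
    have h3 : c i = fc w (n, g.1) g.2.1 g.2.2 := by
      rw [← fc_can w n (h𝓕 g hg), hgi]
    have h4 : i.1.2 = g.2.1 := by rw [← hgi]; rfl
    have h5 := hsub i hi
    rw [UPi _ _ _ i h3 h4] at h5
    exact hy _ _ _ hg h5
  · intro z l s hf y hy
    obtain ⟨i, hi1, hi2⟩ := idx z l s hf
    rw [mem_UP_iff] at hy ⊢
    intro k
    exact (abs_sub_of_uIcc (cori z l s i hi1 hi2 y (mem_UP_iff.2 hy) k)).trans (hy k)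
  · intro z l s hf y hy j
    obtain ⟨i, hi1, hi2⟩ := idx z l s hf
    rw [mem_PP_iff] at hy
    have h3 := t1 i y (by rw [hi1, ha]; simp only [hi2]; exact hy) j (Finset.mem_univ _)
    rw [h3, hi1]
  · intro z l s hf y hy j
    obtain ⟨i, hi1, hi2⟩ := idx z l s hf
    exact cori z l s i hi1 hi2 y hy j
  · intro y j
    by_cases hyc : ∃ i' : ι, y ∈ cor (c i') fun k => a i' k + q
    · obtain ⟨i, hi⟩ := hyc
      have h3 := abs_sub_of_uIcc' ((t4 i y hi).2 j)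
      refine h3.trans ?_
      have h4 := (mem_UP_iff.1 (hsub i hi)) j
      refine h4.trans ?_
      split_ifs
      · exact div_le_div_of_nonneg_right (by linarith) h2.le
      · exact div_le_div_of_nonneg_right (by linarith) h2.le
    · push Not at hyc
      rw [t3 y hyc, sub_self, abs_zero]
      positivity

/-! ### affine images -/

/-- gluing of homeomorphisms which are given in affine coordinates -/
theorem exists_glue_affine {K : Type*} {Λ : Set V} (hΛ : IsOpen Λ) (L : K → V ≃L[ℝ] V)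
    (b : K → V) (S : K → Set V) (hS : ∀ k, S k ⊆ af (L k) (b k) ⁻¹' Λ)
    (hdis : ∀ k l, k ≠ l → Disjoint (af (L k) (b k) '' S k) (af (L l) (b l) '' S l))
    (hlf : ∀ y ∈ Λ, ∃ O ∈ 𝓝 y, {k | (af (L k) (b k) '' S k ∩ O).Nonempty}.Finite)
    (Θ : K → ConHomeo (univ : Set V) (univ : Set V)) (hid : ∀ k, ∀ y, y ∉ S k → (Θ k).toFun y = y) :
    ∃ Ξ : ConHomeo Λ Λ,
      (∀ k, ∀ y ∈ S k, Ξ.toFun (af (L k) (b k) y) = af (L k) (b k) ((Θ k).toFun y)) ∧
      (∀ y, (∀ k, afi (L k) (b k) y ∉ S k) → Ξ.toFun y = y) := by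
  set A : ∀ k, ConHomeo (univ : Set V) (univ : Set V) := fun k =>
    afH (L k) (b k) isOpen_univ with hA
  set Θ' : ∀ k, ConHomeo (univ : Set V) (univ : Set V) := fun k =>
    ((A k).symm.trans (Θ k)).trans (A k) with hΘ'
  have e : ∀ k y, (Θ' k).toFun y = af (L k) (b k) ((Θ k).toFun (afi (L k) (b k) y)) :=
    fun _ _ => rfl
  have hmem : ∀ k y, y ∈ af (L k) (b k) '' S k ↔ afi (L k) (b k) y ∈ S k := by
    intro k y
    constructor
    · rintro ⟨x, hx, rfl⟩; rwa [afi_af]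
    · intro h; exact ⟨_, h, af_afi _ _ _⟩
  obtain ⟨Ξ, h1, h2, -, -⟩ := _root_.P073.Net.exists_glue_ambient hΛ Θ'
    (fun k => af (L k) (b k) '' S k) (fun k => image_subset_iff.2 (hS k))
    (fun k y hy => by rw [e, hid k _ fun h => hy ((hmem k y).2 h), af_afi]) hlf
    (fun k l hkl y hy hy' => absurd hy' (Set.disjoint_left.1 (hdis k l hkl) hy))
  refine ⟨Ξ, fun k y hy => ?_, fun y hy => h2 y fun k hk => hy k ((hmem k y).1 hk)⟩
  rw [h1 k _ (mem_image_of_mem _ hy), e, afi_af]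

/-- **(XI)** The squeeze of the plates over the faces `𝓕 k` (grid of generation `n k` with origin
`w k`, in the coordinates `af (L k) (b k)`), for disjoint boxes. -/
theorem exists_xi_blocks {K : Type*} {Λ : Set V} (hΛ : IsOpen Λ) (L : K → V ≃L[ℝ] V)
    (b a : K → V) (r : K → ℝ) (hS : ∀ k, closedBall (a k) (r k) ⊆ af (L k) (b k) ⁻¹' Λ)
    (hdis : ∀ k l, k ≠ l → Disjoint (af (L k) (b k) '' closedBall (a k) (r k))
      (af (L l) (b l) '' closedBall (a l) (r l)))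
    (hlf : ∀ y ∈ Λ, ∃ O ∈ 𝓝 y, {k | (af (L k) (b k) '' closedBall (a k) (r k) ∩ O).Nonempty}.Finite)
    (w : K → V) (n : K → ℕ) (m θ : K → ℝ) (𝓕 : ∀ _ : K, Set ((Fin 3 → ℤ) × Fin 3 × ℝ))
    (h𝓕 : ∀ k, ∀ f ∈ 𝓕 k, f.2.2 = 1 ∨ f.2.2 = -1) (hm : ∀ k, 0 < m k) (hm1 : ∀ k, m k ≤ 1 / 4)
    (hθ : ∀ k, 0 < θ k) (hθ1 : ∀ k, θ k ≤ 1)
    (hU : ∀ k z l s, (z, l, s) ∈ 𝓕 k → UP (w k) (m k) (n k, z) l s ⊆ closedBall (a k) (r k)) :
    ∃ (Ξ : ConHomeo Λ Λ) (X : K → ConHomeo (univ : Set V) (univ : Set V)),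
      (∀ k, IsXi (w k) (n k) (m k) (θ k) (𝓕 k) (X k)) ∧
      (∀ k, ∀ y ∈ closedBall (a k) (r k),
        Ξ.toFun (af (L k) (b k) y) = af (L k) (b k) ((X k).toFun y)) ∧
      (∀ y, (∀ k z l s, (z, l, s) ∈ 𝓕 k → afi (L k) (b k) y ∉ UP (w k) (m k) (n k, z) l s) →
        Ξ.toFun y = y) := by
  have h1 : ∀ k, ∃ Ξ : ConHomeo (univ : Set V) (univ : Set V),
      IsXi (w k) (n k) (m k) (θ k) (𝓕 k) Ξ := fun k =>
    exists_xiT (w k) (n k) (𝓕 k) (h𝓕 k) (hm k) (hm1 k) (hθ k) (hθ1 k)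
  choose X hX using h1
  have hid : ∀ k, ∀ y, y ∉ closedBall (a k) (r k) → (X k).toFun y = y := fun k y hy =>
    (hX k).off y fun z l s hf h => hy (hU k z l s hf h)
  obtain ⟨Ξ, h2, h3⟩ := exists_glue_affine hΛ L b (fun k => closedBall (a k) (r k)) hS hdis hlf X hid
  refine ⟨Ξ, X, hX, h2, fun y hy => ?_⟩
  by_cases h : ∃ k, afi (L k) (b k) y ∈ closedBall (a k) (r k)
  · obtain ⟨k, hk⟩ := h
    have h4 := h2 k _ hk
    rw [af_afi, (hX k).off _ fun z l s hf => hy k z l s hf, af_afi] at h4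
    exact h4
  · push Not at h
    exact h3 y h

end Vale.Agent.P073.H471
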